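import Crest.Agent.R251.SDefs

/-!
# Row 251: the group `⟨u, v, t ∣ u⁶, u³ = v³, t u² t⁻¹ = v²⟩` and its algebraic `3`-complex
-/

set_option autoImplicit false

noncomputable section

namespace Crest.Agent.R251

open Set Crest.Agent.R185.Top

section Act

variable {G : Type} [Group G] {X Y : Type}

/-- translation as a representation -/
def rho (G X : Type) [Group G] : G →* Module.End ℤ (G × X →₀ ℤ) where
  toFun g := Finsupp.lmapDomain ℤ ℤ fun x => (g * x.1, x.2)
  map_one' := by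
    ext1 x
    ext1
    simp
  map_mul' g h := by
    ext1 x
    ext1
    simp [mul_assoc]

lemma rho_apply (g : G) (c : G × X →₀ ℤ) : rho G X g c = tl g c := rfl

/-- the action of the group ring on chains -/
def act (G X : Type) [Group G] : MonoidAlgebra ℤ G →ₐ[ℤ] Module.End ℤ (G × X →₀ ℤ) :=
  MonoidAlgebra.lift ℤ _ G (rho G X)

lemma act_of (g : G) (c : G × X →₀ ℤ) : act G X (MonoidAlgebra.of ℤ G g) c = tl g c := by
  rw [act, MonoidAlgebra.lift_of, rho_apply]

lemma act_of_single (g h : G) (x : X) :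
    act G X (MonoidAlgebra.of ℤ G g) (Finsupp.single (h, x) 1) = Finsupp.single (g * h, x) 1 := by
  rw [act_of, tl, Finsupp.mapDomain_single]

lemma ex_tl' (d : X → (G × Y →₀ ℤ)) (g : G) (c : G × X →₀ ℤ) :
    ex d (tl g c) = tl g (ex d c) :=
  alg_equiv (f := (ex d).toAddMonoidHom) (fun g k x => by
    change ex d _ = tl g (ex d _)
    rw [ex, lin_single, lin_single, ← rho_apply, ← rho_apply, ← rho_apply, map_mul]
    rfl) g c

lemma ex_act (d : X → (G × Y →₀ ℤ)) (r : MonoidAlgebra ℤ G) (c : G × X →₀ ℤ) :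
    ex d (act G X r c) = act G Y r (ex d c) := by
  induction r using MonoidAlgebra.induction_on with
  | of g => rw [act_of, act_of, ex_tl']
  | add a b ha hb => simp only [map_add, LinearMap.add_apply, ha, hb]
  | smul n a ha => simp only [map_smul, LinearMap.smul_apply, ha]

lemma ex_one (d : X → (G × Y →₀ ℤ)) (x : X) : ex d (Finsupp.single (1, x) 1) = d x := by
  rw [ex, lin_single, ← rho_apply, map_one]
  rfl

lemma act_mul (r s : MonoidAlgebra ℤ G) (c : G × X →₀ ℤ) :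
    act G X r (act G X s c) = act G X (r * s) c := by
  rw [map_mul]
  rfl

lemma lin_act {k : Type} [CommRing k] (χ : G →* k) {b : G × X → k}
    (hb : ∀ h g x, b (h * g, x) = χ h * b (g, x)) (r : MonoidAlgebra ℤ G) (c : G × X →₀ ℤ) :
    lin b (act G X r c) = MonoidAlgebra.lift ℤ k G χ r * lin b c := by
  induction r using MonoidAlgebra.induction_on with
  | of g =>
    rw [act_of, MonoidAlgebra.lift_of]
    induction c using Finsupp.induction_linear with
    | zero => simp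
    | add f f' hf hf' => simp only [tl, Finsupp.mapDomain_add, map_add, mul_add] at *; rw [hf, hf']
    | single x n => simp [hb, mul_left_comm]
  | add a b ha hb => simp only [map_add, LinearMap.add_apply, ha, hb, add_mul]
  | smul n a ha => simp only [map_smul, LinearMap.smul_apply, ha, smul_mul_assoc]

end Act

/-- the number of cells -/
def jn : ℕ → ℕ
  | 0 => 1
  | 1 => 3
  | 2 => 3
  | 3 => 1
  | _ => 0

/-- the cells -/
def JJ (n : ℕ) : Type := Fin (jn n)

instance : Unique (JJ 0) := inferInstanceAs (Unique (Fin 1))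

instance (n : ℕ) : Finite (JJ n) := inferInstanceAs (Finite (Fin _))

/-- the relators; the generators are `u = 0`, `v = 1`, `t = 2` -/
def rl : Fin 3 → List (Fin 3 × Bool)
  | 0 => [(0, true), (0, true), (0, true), (0, true), (0, true), (0, true)]
  | 1 => [(0, true), (0, true), (0, true), (1, false), (1, false), (1, false)]
  | 2 => [(2, true), (0, true), (0, true), (2, false), (1, false), (1, false)]

/-- the group -/
def GG : Type := PresentedGroup (range fun r => FreeGroup.mk (rl r))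

instance : Group GG := inferInstanceAs (Group (PresentedGroup _))

/-- the generators -/
def gn (a : Fin 3) : GG := PresentedGroup.of a

lemma lift_gn : FreeGroup.lift gn = PresentedGroup.mk (range fun r => FreeGroup.mk (rl r)) := by
  ext a
  simp only [FreeGroup.lift_apply_of]
  rfl

lemma gn_rel (r : Fin 3) : FreeGroup.lift gn (FreeGroup.mk (rl r)) = 1 := by
  rw [lift_gn]
  exact PresentedGroup.one_of_mem ⟨r, rfl⟩

lemma gn_u : gn 0 ^ 6 = 1 := by
  have := gn_rel 0
  simp only [rl, FreeGroup.lift_mk, List.map, List.prod_cons, List.prod_nil, cond] at this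
  rw [← this]
  simp only [pow_succ, pow_zero, mul_one, one_mul, mul_assoc]

lemma gn_uv : gn 0 * gn 0 * gn 0 = gn 1 * gn 1 * gn 1 := by
  have := gn_rel 1
  simp only [rl, FreeGroup.lift_mk, List.map, List.prod_cons, List.prod_nil, cond] at this
  calc gn 0 * gn 0 * gn 0
      = (gn 0 * (gn 0 * (gn 0 * ((gn 1)⁻¹ * ((gn 1)⁻¹ * ((gn 1)⁻¹ * 1)))))) *
          (gn 1 * gn 1 * gn 1) := by group
    _ = _ := by rw [this, one_mul]

lemma gn_t : gn 2 * gn 0 * gn 0 = gn 1 * gn 1 * gn 2 := by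
  have := gn_rel 2
  simp only [rl, FreeGroup.lift_mk, List.map, List.prod_cons, List.prod_nil, cond] at this
  calc gn 2 * gn 0 * gn 0
      = (gn 2 * (gn 0 * (gn 0 * ((gn 2)⁻¹ * ((gn 1)⁻¹ * ((gn 1)⁻¹ * 1)))))) *
          (gn 1 * gn 1 * gn 2) := by group
    _ = _ := by rw [this, one_mul]

/-- the group ring -/
abbrev ZG : Type := MonoidAlgebra ℤ GG

/-- `u` -/
def uu : ZG := MonoidAlgebra.of ℤ GG (gn 0)
/-- `v` -/
def vv : ZG := MonoidAlgebra.of ℤ GG (gn 1)
/-- `t` -/
def tt : ZG := MonoidAlgebra.of ℤ GG (gn 2)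

lemma uu_six : uu ^ 6 = 1 := by rw [uu, ← map_pow, gn_u, map_one]

lemma uu_vv : uu * uu * uu = vv * vv * vv := by
  simp only [uu, vv, ← map_mul, gn_uv]

lemma tt_uu : tt * uu * uu = vv * vv * tt := by
  simp only [uu, vv, tt, ← map_mul, gn_t]

/-- basis elements -/
abbrev EE {X : Type} (x : X) : GG × X →₀ ℤ := Finsupp.single (1, x) 1

lemma fox_a : fox gn 1 (rl 0) =
    act GG _ ((1 + uu + uu ^ 2 + uu ^ 3 + uu ^ 4 + uu ^ 5) * uu) (EE 0) := by
  have : (1 + uu + uu ^ 2 + uu ^ 3 + uu ^ 4 + uu ^ 5) * uu = uu + (uu * uu + (uu * uu * uu +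
      (uu * uu * uu * uu + (uu * uu * uu * uu * uu + uu * uu * uu * uu * uu * uu)))) := by
    noncomm_ring
  rw [this]
  simp only [rl, fox, one_mul, add_zero, uu, ← map_mul (MonoidAlgebra.of ℤ GG), map_add,
    LinearMap.add_apply, act_of_single, mul_one]

lemma fox_b : fox gn 1 (rl 1) =
    act GG _ ((1 + uu + uu ^ 2) * uu) (EE 0) - act GG _ ((1 + vv + vv ^ 2) * vv) (EE 1) := by
  have h1 : (1 + uu + uu ^ 2) * uu = uu + (uu * uu + uu * uu * uu) := by noncomm_ring
  have h2 : (1 + vv + vv ^ 2) * vv = vv * vv * vv + (vv * vv + vv) := by noncomm_ring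
  rw [h1, h2]
  simp only [rl, fox, one_mul, add_zero]
  rw [show gn 0 * gn 0 * gn 0 * (gn 1)⁻¹ * (gn 1)⁻¹ = gn 1 by rw [gn_uv]; group,
    show gn 0 * gn 0 * gn 0 * (gn 1)⁻¹ = gn 1 * gn 1 by rw [gn_uv]; group,
    show (Finsupp.single (gn 0 * gn 0 * gn 0, (1 : Fin 3)) 1 : GG × Fin 3 →₀ ℤ) =
      Finsupp.single (gn 1 * gn 1 * gn 1, (1 : Fin 3)) 1 by rw [gn_uv]]
  simp only [uu, vv, ← map_mul (MonoidAlgebra.of ℤ GG), map_add, LinearMap.add_apply,
    act_of_single, mul_one]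
  abel

lemma fox_c : fox gn 1 (rl 2) =
    act GG _ ((1 - vv ^ 2) * tt) (EE 2) + act GG _ (tt * (1 + uu) * uu) (EE 0) -
      act GG _ ((1 + vv) * vv) (EE 1) := by
  have h1 : (1 - vv ^ 2) * tt = tt - vv * vv * tt := by noncomm_ring
  have h2 : tt * (1 + uu) * uu = tt * uu + tt * uu * uu := by noncomm_ring
  have h3 : (1 + vv) * vv = vv * vv + vv := by noncomm_ring
  rw [h1, h2, h3]
  simp only [rl, fox, one_mul, add_zero]
  rw [show gn 2 * gn 0 * gn 0 * (gn 2)⁻¹ * (gn 1)⁻¹ = gn 1 by rw [gn_t]; group,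
    show gn 2 * gn 0 * gn 0 * (gn 2)⁻¹ = gn 1 * gn 1 by rw [gn_t]; group,
    show (Finsupp.single (gn 2 * gn 0 * gn 0, (2 : Fin 3)) 1 : GG × Fin 3 →₀ ℤ) =
      Finsupp.single (gn 1 * gn 1 * gn 2, (2 : Fin 3)) 1 by rw [gn_t]]
  simp only [uu, vv, tt, ← map_mul (MonoidAlgebra.of ℤ GG), map_add, map_sub, LinearMap.add_apply,
    LinearMap.sub_apply, act_of_single, mul_one]
  abel

/-- the first sphere -/
def sphT : GG × Fin 3 →₀ ℤ := act GG _ (uu - 1) (EE 0)

/-- the second sphere -/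
def sphS : GG × Fin 3 →₀ ℤ :=
  act GG _ (tt - 1) (EE 0) + act GG _ (1 + uu ^ 3) (EE 1) - act GG _ (1 + vv ^ 2 + vv ^ 4) (EE 2)

/-- `y` -/
def yy : ZG := (1 - uu ^ 3) * tt

/-- `κ` -/
def kk : ZG := uu ^ 3 + uu ^ 2 + 2 * uu + 2

/-- the attaching sphere -/
def sph : GG × Fin 3 →₀ ℤ :=
  act GG _ (-(1 + yy * (1 + uu ^ 3))) (sphS - act GG _ (tt * kk) sphT) -
    act GG _ (yy * (1 + uu + uu ^ 2)) sphT

/-- the splitting -/
def spl : Fin 3 → (GG × Fin 1 →₀ ℤ)
  | 0 => EE 0
  | 1 => act GG _ (-(2 * tt)) (EE 0)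
  | 2 => act GG _ (-tt) (EE 0)

lemma vv_tt : (1 + vv ^ 2 + vv ^ 4) * tt = tt * (1 + uu ^ 2 + uu ^ 4) := by
  have h1 : vv ^ 2 * tt = tt * uu ^ 2 := by rw [pow_two, pow_two, ← tt_uu, mul_assoc]
  have h2 : vv ^ 4 * tt = tt * uu ^ 4 := by
    calc vv ^ 4 * tt = vv ^ 2 * (vv ^ 2 * tt) := by noncomm_ring
      _ = vv ^ 2 * tt * uu ^ 2 := by rw [mul_assoc, h1]
      _ = _ := by rw [h1]; noncomm_ring
  rw [add_mul, add_mul, h1, h2]
  noncomm_ring

lemma uu_three : uu ^ 3 = vv ^ 3 := by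
  rw [pow_three', pow_three', uu_vv]

lemma vv_six : vv ^ 6 = 1 := by
  calc vv ^ 6 = vv ^ 3 * vv ^ 3 := by noncomm_ring
    _ = uu ^ 6 := by rw [← uu_three]; noncomm_ring
    _ = 1 := uu_six

lemma bd_sphT : ex (fun r => fox gn 1 (rl r)) sphT = 0 := by
  rw [sphT, ex_act, ex_one, fox_a, act_mul]
  have : (uu - 1) * ((1 + uu + uu ^ 2 + uu ^ 3 + uu ^ 4 + uu ^ 5) * uu) = (uu ^ 6 - 1) * uu := by
    noncomm_ring
  rw [this, uu_six, sub_self, zero_mul, map_zero, LinearMap.zero_apply]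

lemma bd_sphS : ex (fun r => fox gn 1 (rl r)) sphS = 0 := by
  simp only [sphS, map_add (ex _), map_sub (ex _), ex_act, ex_one]
  rw [fox_a, fox_b, fox_c]
  simp only [map_add (act GG (Fin 3) _), map_sub (act GG (Fin 3) _), act_mul]
  have h0 : (1 + vv ^ 2 + vv ^ 4) * (tt * (1 + uu) * uu) =
      (tt - 1) * ((1 + uu + uu ^ 2 + uu ^ 3 + uu ^ 4 + uu ^ 5) * uu) +
        (1 + uu ^ 3) * ((1 + uu + uu ^ 2) * uu) := by
    rw [mul_assoc tt, ← mul_assoc, vv_tt]
    noncomm_ring
  have h1 : (1 + uu ^ 3) * ((1 + vv + vv ^ 2) * vv) = (1 + vv ^ 2 + vv ^ 4) * ((1 + vv) * vv) := by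
    rw [uu_three]
    noncomm_ring
  have h2 : (1 + vv ^ 2 + vv ^ 4) * ((1 - vv ^ 2) * tt) = 0 := by
    have : (1 + vv ^ 2 + vv ^ 4) * ((1 - vv ^ 2) * tt) = (1 - vv ^ 6) * tt := by noncomm_ring
    rw [this, vv_six, sub_self, zero_mul]
  rw [h0, h1, h2, map_add, map_zero, LinearMap.add_apply, LinearMap.zero_apply]
  abel

lemma bd_sph : ex (fun r => fox gn 1 (rl r)) sph = 0 := by
  simp only [sph, map_sub (ex _), ex_act, bd_sphT, bd_sphS, map_zero, sub_zero]

lemma spl_sphT : ex spl sphT = act GG _ (uu - 1) (EE 0) := by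
  rw [sphT, ex_act, ex_one, spl]

lemma spl_sphS : ex spl sphS =
    act GG _ ((tt - 1) + (1 + uu ^ 3) * -(2 * tt) - (1 + vv ^ 2 + vv ^ 4) * -tt) (EE 0) := by
  simp only [sphS, map_add (ex _), map_sub (ex _), ex_act, ex_one, spl, act_mul]
  rw [map_sub (act GG _) (_ + _), map_add, LinearMap.sub_apply, LinearMap.add_apply]

lemma spl_sph : ex spl sph = EE 0 := by
  simp only [sph, map_sub (ex _), ex_act, spl_sphT, spl_sphS, act_mul]
  rw [← LinearMap.sub_apply, ← map_sub, act_mul, ← LinearMap.sub_apply, ← map_sub]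
  have h1 : (tt - 1) + (1 + uu ^ 3) * -(2 * tt) - (1 + vv ^ 2 + vv ^ 4) * -tt -
      tt * kk * (uu - 1) = 2 * yy - 1 := by
    rw [mul_neg (1 + vv ^ 2 + vv ^ 4), vv_tt, kk, yy]
    noncomm_ring
  have h2 : (1 + uu ^ 3) * (2 * yy - 1) = -(1 + uu ^ 3) := by
    have : (1 + uu ^ 3) * (2 * yy - 1) = 2 * ((1 - uu ^ 6) * tt) - (1 + uu ^ 3) := by
      rw [yy]; noncomm_ring
    rw [this, uu_six]
    noncomm_ring
  have h3 : -(1 + yy * (1 + uu ^ 3)) * (2 * yy - 1) - yy * (1 + uu + uu ^ 2) * (uu - 1) = 1 := by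
    have : -(1 + yy * (1 + uu ^ 3)) * (2 * yy - 1) =
        -(2 * yy - 1) - yy * ((1 + uu ^ 3) * (2 * yy - 1)) := by noncomm_ring
    rw [this, h2]
    noncomm_ring
  rw [h1, h3, map_one]
  rfl

/-- the algebraic complex -/
def RR : R3 GG JJ where
  gen := gn
  rel := rl
  surj := by
    change Function.Surjective (FreeGroup.lift gn)
    rw [lift_gn]
    exact PresentedGroup.mk_surjective _
  ker := by
    change (FreeGroup.lift gn).ker = _
    rw [lift_gn]
    exact QuotientGroup.ker_mk' _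
  d3 := fun _ => sph
  dd := fun _ => bd_sph
  s := spl
  split := fun j => by
    have : j = (0 : Fin 1) := Subsingleton.elim (α := Fin 1) _ _
    subst this
    exact spl_sph
  fin := fun _ => inferInstance
  emp := fun n hn => by
    obtain ⟨m, rfl⟩ : ∃ m, n = m + 4 := ⟨n - 4, by omega⟩
    exact inferInstanceAs (IsEmpty (Fin 0))

/-- the exponent sum of `t` -/
def expT : GG →* Multiplicative ℤ :=
  PresentedGroup.toGroup (f := fun a => Multiplicative.ofAdd (if a = 2 then 1 else 0)) (by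
    rintro _ ⟨r, rfl⟩
    fin_cases r <;> simp [rl, FreeGroup.lift_mk])

lemma expT_t : expT (gn 2) = Multiplicative.ofAdd 1 := PresentedGroup.toGroup.of _

instance : Infinite GG := by
  refine Infinite.of_surjective expT fun n => ⟨gn 2 ^ (Multiplicative.toAdd n), ?_⟩
  rw [map_zpow, expT_t, ← ofAdd_zsmul, smul_eq_mul, mul_one, ofAdd_toAdd]

/-- `3` as a unit -/
def three : (ZMod 7)ˣ := ⟨3, 5, by decide, by decide⟩

/-- the character -/
def chi7 : GG →* (ZMod 7)ˣ :=
  PresentedGroup.toGroup (f := fun a => if a = 2 then 1 else three) (by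
    rintro _ ⟨r, rfl⟩
    fin_cases r <;> simp only [rl, FreeGroup.lift_mk] <;> decide)

lemma chi7_gn (a : Fin 3) : chi7 (gn a) = if a = 2 then 1 else three :=
  PresentedGroup.toGroup.of _

lemma chi7_u_ne : chi7 (gn 0) ≠ 1 := by
  rw [chi7_gn]
  decide

/-- the character on the group ring -/
def chiR : ZG →ₐ[ℤ] ZMod 7 := MonoidAlgebra.lift ℤ _ GG ((Units.coeHom _).comp chi7)

lemma chiR_u : chiR uu = 3 := by
  rw [chiR, uu, MonoidAlgebra.lift_of, MonoidHom.comp_apply, chi7_gn]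
  rfl

lemma chiR_v : chiR vv = 3 := by
  rw [chiR, vv, MonoidAlgebra.lift_of, MonoidHom.comp_apply, chi7_gn]
  rfl

lemma chiR_t : chiR tt = 1 := by
  rw [chiR, tt, MonoidAlgebra.lift_of, MonoidHom.comp_apply, chi7_gn]
  rfl

/-- Every equivariant cellular `2`-cocycle with values in `ZMod 7` is a coboundary. -/
theorem cocycle_chi (b : GG × Fin 3 → ZMod 7)
    (hb : ∀ h g x, b (h * g, x) = (chi7 h : ZMod 7) * b (g, x)) (hs : lin b sph = 0) :
    ∃ e : GG × Fin 3 → ZMod 7, (∀ h g x, e (h * g, x) = (chi7 h : ZMod 7) * e (g, x)) ∧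
      ∀ g r, b (g, r) = lin e (fox gn g (rl r)) := by
  have L : ∀ {b : GG × Fin 3 → ZMod 7},
      (∀ h g x, b (h * g, x) = (chi7 h : ZMod 7) * b (g, x)) →
      ∀ r c, lin b (act GG _ r c) = chiR r * lin b c := fun hb r c =>
    lin_act ((Units.coeHom _).comp chi7) hb r c
  have h0 : b (1, 0) = 0 := by
    simp only [sph, sphS, sphT, map_sub (lin b), map_add (lin b), L hb, lin_single] at hs
    simp only [yy, kk, map_add, map_sub, map_mul, map_neg, map_pow, map_one, map_ofNat, chiR_u,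
      chiR_v, chiR_t] at hs
    revert hs
    generalize b (1, 0) = x
    generalize b (1, 1) = y
    generalize b (1, 2) = z
    revert x y z
    decide
  let e₀ : Fin 3 → ZMod 7 := ![2 * b (1, 1), 0, 3 * b (1, 1) - b (1, 2)]
  let e : GG × Fin 3 → ZMod 7 := fun a => (chi7 a.1 : ZMod 7) * e₀ a.2
  have he : ∀ h g x, e (h * g, x) = (chi7 h : ZMod 7) * e (g, x) :=
    fun h g x => by simp only [e, map_mul, Units.val_mul, mul_assoc]
  refine ⟨e, he, fun g r => ?_⟩
  have h1 : b (1, r) = lin e (fox gn 1 (rl r)) := by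
    fin_cases r
    · change b (1, 0) = lin _ (fox gn 1 (rl 0))
      rw [fox_a, L he, h0]
      simp only [map_add, map_mul, map_pow, map_one, chiR_u]
      rw [show (1 + 3 + 3 ^ 2 + 3 ^ 3 + 3 ^ 4 + 3 ^ 5 : ZMod 7) = 0 by decide, zero_mul, zero_mul]
    · change b (1, 1) = lin _ (fox gn 1 (rl 1))
      rw [fox_b, map_sub, L he, L he, lin_single, lin_single]
      simp only [map_add, map_mul, map_pow, map_one, chiR_u, chiR_v, Units.val_one, e, e₀,
        Matrix.cons_val_zero, Matrix.cons_val_one]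
      generalize b (1, 1) = y
      revert y
      decide
    · change b (1, 2) = lin _ (fox gn 1 (rl 2))
      rw [fox_c, map_sub, map_add, L he, L he, L he, lin_single, lin_single, lin_single]
      simp only [map_add, map_sub, map_mul, map_pow, map_one, chiR_u, chiR_v, chiR_t,
        Units.val_one, e, e₀, Matrix.cons_val_zero, Matrix.cons_val_one, Matrix.cons_val]
      generalize b (1, 1) = y
      generalize b (1, 2) = z
      revert y z
      decide
  rw [← mul_one g, hb, alg_fox_tl, ← act_of, L he, h1, chiR, MonoidAlgebra.lift_of]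
  rfl

/-- The hypothesis of `Model.van_two` for the character `chi7`. -/
theorem hc_chi [DistribMulAction (⊤ : Subgroup GG) (ZMod 7)]
    (hact : ∀ (h : (⊤ : Subgroup GG)) (m : ZMod 7), h • m = (chi7 h : ZMod 7) * m)
    (b : GG × JJ 2 → ZMod 7) (hb : CEq ⊤ b) (hs : ∀ g j, lin b (tl g (RR.d3 j)) = 0) :
    ∃ e : GG × JJ 1 → ZMod 7, CEq ⊤ e ∧ ∀ g r, b (g, r) = lin e (fox RR.gen g (RR.rel r)) := by
  have hs' : lin b sph = 0 := by
    have := hs 1 (0 : Fin 1)
    rwa [← rho_apply, map_one] at this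
  obtain ⟨e, he, h⟩ := cocycle_chi b (fun h g x => by
    have := hb ⟨h, trivial⟩ g x
    rwa [hact] at this) hs'
  exact ⟨e, fun h g x => by rw [hact]; exact he h g x, h⟩

end Crest.Agent.R251
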