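import Crest.Agent.R251.Iface
import Crest.Agent.R251.Grp

/-! Row 251: the group statement. -/

set_option autoImplicit false

noncomputable section

namespace Crest.Agent.R251

open Crest.Agent.R185.Top

theorem grpStmt : GrpStmt := by
  refine ⟨GG, inferInstance, JJ, inferInstance, RR, inferInstance, chi7, gn 0, 6, by norm_num,
    gn_u, chi7_u_ne, fun b hb hs => cocycle_chi b hb ?_⟩
  have := hs 1 (0 : Fin 1)
  rwa [← rho_apply, map_one] at this

end Crest.Agent.R251
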