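import Crest.Agent.R251.SMain

/-! Row 251: the three remaining statements and the glue. -/

set_option autoImplicit false

noncomputable section

namespace Crest.Agent.R251

open unitInterval Set _root_.Topology Crest.Agent.R185.Top

/-- Theorem T: a torsion element acting nontrivially forces `H² ≠ 0`. -/
def TowerStmt : Prop :=
  ∀ (k S T : Type) [Field k] [Finite S] [Finite T] (r : T → FreeGroup S)
    (χ : FreeGroup S →* kˣ) (c : FreeGroup S) (n : ℕ), (∀ j, χ (r j) = 1) → 0 < n →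
    c ^ n ∈ Subgroup.normalClosure (range r) → χ c ≠ 1 →
    ¬ ∀ b : T → k, ∃ D : FreeGroup S → k, (∀ g h, D (g * h) = D g + χ g * D h) ∧
      ∀ j, D (r j) = b j

/-- The presentation read off from a finite `2`-complex equivalent to the model. -/
def YStmt : Prop :=
  ∀ (G : Type) [Group G] (J : ℕ → Type) [Unique (J 0)] (R : R3 G J) (Γ : Att G J), Model R Γ →
    ∀ (k : Type) [Field k] [DistribMulAction (⊤ : Subgroup G) k] (χ : G →* kˣ),
    (∀ (g : (⊤ : Subgroup G)) (x : k), g • x = χ g * x) → Van (sym Γ ⊤ k) 2 univ ∅ →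
    ∀ (Y : Type) [TopologicalSpace Y] [T2Space Y] [CWComplex (univ : Set Y)],
      RelCWComplex.Finite (univ : Set Y) →
      (∀ m : ℕ, 2 < m → IsEmpty (RelCWComplex.cell (univ : Set Y) m)) →
      ContinuousMap.HomotopyEquiv (Sp.Xq Γ) Y →
      ∃ (S T : Type) (_ : Finite S) (_ : Finite T) (r : T → FreeGroup S) (π : FreeGroup S →* G),
        Function.Surjective π ∧ π.ker = Subgroup.normalClosure (range r) ∧
        ∀ b : T → k, ∃ D : FreeGroup S → k, (∀ g h, D (g * h) = D g + χ (π g) * D h) ∧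
          ∀ j, D (r j) = b j

/-- The group, the algebraic complex and the character. -/
def GrpStmt : Prop :=
  ∃ (G : Type) (_ : Group G) (J : ℕ → Type) (_ : Unique (J 0)) (R : R3 G J), Infinite G ∧
    ∃ (χ : G →* (ZMod 7)ˣ) (u : G) (n : ℕ), 0 < n ∧ u ^ n = 1 ∧ χ u ≠ 1 ∧
      ∀ b : G × J 2 → ZMod 7, (∀ h g x, b (h * g, x) = χ h * b (g, x)) →
        (∀ g j, lin b (tl g (R.d3 j)) = 0) →
        ∃ e : G × J 1 → ZMod 7, (∀ h g x, e (h * g, x) = χ h * e (g, x)) ∧
          ∀ g r, b (g, r) = lin e (fox R.gen g (R.rel r))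

theorem obstruction (hT : TowerStmt) (hY : YStmt) {G : Type} [Group G] {J : ℕ → Type}
    [Unique (J 0)] (R : R3 G J) (χ : G →* (ZMod 7)ˣ) {u : G} {n : ℕ} (hn : 0 < n) (hu : u ^ n = 1)
    (hχ : χ u ≠ 1)
    (hc : ∀ b : G × J 2 → ZMod 7, (∀ h g x, b (h * g, x) = χ h * b (g, x)) →
      (∀ g j, lin b (tl g (R.d3 j)) = 0) →
      ∃ e : G × J 1 → ZMod 7, (∀ h g x, e (h * g, x) = χ h * e (g, x)) ∧
        ∀ g r, b (g, r) = lin e (fox R.gen g (R.rel r)))
    (Γ : Att G J) (h : Model R Γ) (Y : Type) (_ : TopologicalSpace Y) (_ : T2Space Y)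
    (_ : CWComplex (univ : Set Y)) (hf : RelCWComplex.Finite (univ : Set Y))
    (hd : ∀ m : ℕ, 2 < m → IsEmpty (RelCWComplex.cell (univ : Set Y) m)) :
    IsEmpty (ContinuousMap.HomotopyEquiv (Sp.Xq Γ) Y) := by
  refine ⟨fun e => ?_⟩
  have : Fact (Nat.Prime 7) := ⟨by norm_num⟩
  let _ : DistribMulAction (⊤ : Subgroup G) (ZMod 7) :=
    DistribMulAction.compHom (ZMod 7) (χ.comp (⊤ : Subgroup G).subtype)
  have hv : Van (sym Γ ⊤ (ZMod 7)) 2 univ ∅ := h.van_two fun b hb h3 => by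
    obtain ⟨e, he, he'⟩ := hc b (fun h g x => hb ⟨h, trivial⟩ g x) h3
    exact ⟨e, fun h g x => he h g x, he'⟩
  obtain ⟨S, T, _, _, r, π, hs, hk, hD⟩ :=
    hY G J R Γ h (ZMod 7) χ (fun _ _ => rfl) hv Y hf hd e
  obtain ⟨c, rfl⟩ := hs u
  refine hT (ZMod 7) S T r (χ.comp π) c n (fun j => ?_) hn ?_ hχ hD
  · have : r j ∈ π.ker := hk ▸ Subgroup.subset_normalClosure ⟨j, rfl⟩
    rw [MonoidHom.comp_apply, MonoidHom.mem_ker.1 this, map_one]
  · rw [← hk, MonoidHom.mem_ker, map_pow, hu]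

theorem final (hT : TowerStmt) (hY : YStmt) (hG : GrpStmt) :
    ∃ (X : Type) (_ : TopologicalSpace X) (_ : T2Space X) (_ : ConnectedSpace X)
      (_ : CWComplex (Set.univ : Set X)),
      RelCWComplex.Finite (Set.univ : Set X) ∧
      (∀ m : ℕ, 3 < m → IsEmpty (RelCWComplex.cell (Set.univ : Set X) m)) ∧
      (∃ (E : Type) (_ : TopologicalSpace E) (p : E → X),
        IsCoveringMap p ∧ Function.Surjective p ∧ SimplyConnectedSpace E ∧
        (∀ i : ℕ, 2 < i → CategoryTheory.Limits.IsZero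
          (((AlgebraicTopology.singularHomologyFunctor (ModuleCat.{0} ℤ) i).obj
            (ModuleCat.of ℤ ℤ)).obj (TopCat.of E))) ∧
        (∀ (M : Type) [AddCommGroup M]
          [DistribMulAction (Crest.GeometryTopology.DeckCochains.deckGroup p) M],
          Crest.GeometryTopology.DeckCochains.DeckCohomologyVanishes p M 2) ∧
        Infinite (Crest.GeometryTopology.DeckCochains.deckGroup p)) ∧
      ∀ (Y : Type) (_ : TopologicalSpace Y) (_ : T2Space Y)
        (_ : CWComplex (Set.univ : Set Y)),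
        RelCWComplex.Finite (Set.univ : Set Y) →
        (∀ m : ℕ, 2 < m → IsEmpty (RelCWComplex.cell (Set.univ : Set Y) m)) →
        IsEmpty (ContinuousMap.HomotopyEquiv X Y) := by
  obtain ⟨G, _, J, _, R, _, χ, u, n, hn, hu, hχ, hc⟩ := hG
  exact reduce R (obstruction hT hY R χ hn hu hχ hc)

end Crest.Agent.R251
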