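import Crest.Agent.R251.SOm

/-! Row 251: affine simplices. -/

set_option autoImplicit false

noncomputable section

namespace Crest.Agent.R251

open unitInterval Set _root_.Topology Crest.Agent.R185.Top

variable {p m : ℕ}

lemma aff_vt_coe (v : Fin m → Sx p) (y : Sx m) :
    (((rS p).aff v y : Sx p) : Fin p → ℝ) = ∑ i, y i • (v i).1 := rfl

theorem aff_vt (m : ℕ) : (rS m).aff (vt m) = ContinuousMap.id _ := by
  refine ContinuousMap.ext fun x => Subtype.ext ?_
  change ∑ i, x i • (Pi.single i (1 : ℝ) : Fin m → ℝ) = x.1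
  funext k
  rw [Finset.sum_apply, Finset.sum_eq_single k]
  · simp only [Pi.smul_apply, Pi.single_eq_same, smul_eq_mul, mul_one]
    rfl
  · intro b _ hb
    simp only [Pi.smul_apply, Pi.single_eq_of_ne hb.symm, smul_zero]
  · intro h
    exact absurd (Finset.mem_univ k) h

theorem fc_aff (i : Fin (p + 1)) (v : Fin m → Sx p) :
    (fc i).comp ((rS p).aff v) = (rS (p + 1)).aff (fc i ∘ v) := by
  refine ContinuousMap.ext fun x => Subtype.ext ?_
  change FunOnFinite.linearMap ℝ ℝ i.succAbove (∑ j, x j • (v j).1) =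
    ∑ j, x j • FunOnFinite.linearMap ℝ ℝ i.succAbove (v j).1
  simp only [map_sum, map_smul]

theorem bd_vt (m : ℕ) :
    bd (tu (vt (m + 1))) = ∑ i : Fin (m + 1), sg i • mp (fc i) (tu (vt m)) := by
  rw [bd_tu]
  refine Finset.sum_congr rfl fun i _ => ?_
  rw [mp_tu]
  congr 2
  funext j
  exact (stdSimplex.map_vertex (S := ℝ) i.succAbove j).symm

lemma Sd_nat_bar (i : Fin (p + 1)) (m : ℕ) (v : Fin (m + 1) → Sx p) :
    bar (p + 1) m (fc i ∘ v) = fc i (bar p m v) :=
  (DFunLike.congr_fun (fc_aff i v) stdSimplex.barycenter).symm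

theorem Sd_nat (i : Fin (p + 1)) (c : Om m (Sx p)) :
    Sd (p + 1) m (mp (fc i) c) = mp (fc i) (Sd p m c) :=
  sd_nat (fc i) (Sd_nat_bar i) m c

theorem Td_nat (i : Fin (p + 1)) (c : Om m (Sx p)) :
    Td (p + 1) m (mp (fc i) c) = mp (fc i) (Td p m c) := by
  refine hom_nat (fc i) (fc i) (fun m c => ?_) (Sd_nat_bar i) m c
  rw [LinearMap.sub_apply, LinearMap.sub_apply, LinearMap.id_apply, LinearMap.id_apply, map_sub,
    Sd_nat]

theorem Sd_bd (c : Om (m + 1) (Sx p)) : bd (Sd p (m + 1) c) = Sd p m (bd c) :=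
  sd_bd (bar p) m c

theorem Td_spec (c : Om (m + 1) (Sx p)) :
    bd (Td p (m + 1) c) + Td p m (bd c) = c - Sd p (m + 1) c := by
  refine hom_spec (F := fun m => LinearMap.id - Sd p m) (bar p) (sub_self _) (fun m c => ?_) m c
  rw [LinearMap.sub_apply, LinearMap.sub_apply, LinearMap.id_apply, LinearMap.id_apply, map_sub,
    Sd_bd]

theorem aff_ball {v : Fin m → Sx p} {x : Sx p} {d : ℝ} (h : ∀ i, dist (v i) x ≤ d) (y : Sx m) :
    dist ((rS p).aff v y) x ≤ d :=
  (convex_closedBall x.1 d).sum_mem (t := Finset.univ) (w := fun i => y i)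
    (z := fun i => (v i).1) (fun i _ => y.2.1 i) y.2.2 fun i _ => h i

lemma dist_fc_self (i : Fin (p + 1)) (x : Sx p) : (fc i x).1 i = 0 := by
  change FunOnFinite.linearMap ℝ ℝ i.succAbove x.1 i = 0
  rw [FunOnFinite.linearMap_apply_apply]
  refine Finset.sum_eq_zero fun j hj => ?_
  exact absurd (Finset.mem_filter.1 hj).2 (Fin.succAbove_ne i j)

lemma dist_fc_succAbove (i : Fin (p + 1)) (x : Sx p) (j : Fin p) :
    (fc i x).1 (i.succAbove j) = x.1 j := by
  change FunOnFinite.linearMap ℝ ℝ i.succAbove x.1 (i.succAbove j) = x.1 j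
  rw [FunOnFinite.linearMap_apply_apply, Finset.sum_eq_single j]
  · intro b hb hbj
    exact absurd (Fin.succAbove_right_injective (Finset.mem_filter.1 hb).2) hbj
  · intro h
    exact (h (Finset.mem_filter.2 ⟨Finset.mem_univ j, rfl⟩)).elim

theorem dist_fc (i : Fin (p + 1)) (x y : Sx p) : dist (fc i x) (fc i y) ≤ dist x y := by
  rw [Subtype.dist_eq, dist_pi_le_iff dist_nonneg]
  intro k
  rcases Fin.eq_self_or_eq_succAbove i k with rfl | ⟨j, rfl⟩
  · rw [dist_fc_self, dist_fc_self, dist_self]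
    exact dist_nonneg
  · rw [dist_fc_succAbove, dist_fc_succAbove]
    exact dist_le_pi_dist x.1 y.1 j

theorem dist_le_one (x y : Sx p) : dist x y ≤ 1 := by
  rw [Subtype.dist_eq, dist_pi_le_iff zero_le_one]
  intro k
  have h1 : 0 ≤ x.1 k := x.2.1 k
  have h2 : 0 ≤ y.1 k := y.2.1 k
  have h3 : x.1 k ≤ 1 := stdSimplex.le_one x k
  have h4 : y.1 k ≤ 1 := stdSimplex.le_one y k
  rw [Real.dist_eq, abs_le]
  constructor <;> linarith

theorem dist_bar {v : Fin (m + 1) → Sx p} {d : ℝ} (h : Dia d v) (i : Fin (m + 1)) :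
    dist (v i) (bar p m v) ≤ (m : ℝ) / (m + 1) * d := by
  have hm : (0 : ℝ) < (m : ℝ) + 1 := by positivity
  have hb : (bar p m v).1 = ∑ j, ((m : ℝ) + 1)⁻¹ • (v j).1 := by
    change ∑ j, ((Fintype.card (Fin (m + 1)) : ℕ) : ℝ)⁻¹ • (v j).1 = _
    rw [Fintype.card_fin, Nat.cast_succ]
  have he : (v i).1 - (bar p m v).1 = ((m : ℝ) + 1)⁻¹ • ∑ j, ((v i).1 - (v j).1) := by
    rw [hb, ← Finset.smul_sum, Finset.sum_sub_distrib, smul_sub, Finset.sum_const,
      Finset.card_univ, Fintype.card_fin, ← Nat.cast_smul_eq_nsmul ℝ, smul_smul, Nat.cast_succ,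
      inv_mul_cancel₀ hm.ne', one_smul]
  have hs : ‖∑ j, ((v i).1 - (v j).1)‖ ≤ m * d := by
    rw [Fin.sum_univ_succAbove _ i, sub_self, zero_add]
    refine (norm_sum_le _ _).trans ?_
    refine (Finset.sum_le_card_nsmul _ _ d fun j _ => ?_).trans ?_
    · rw [← dist_eq_norm]
      exact h i _
    · rw [Finset.card_univ, Fintype.card_fin, nsmul_eq_mul]
  rw [Subtype.dist_eq, dist_eq_norm, he, norm_smul, Real.norm_eq_abs, abs_of_pos (inv_pos.2 hm),
    div_mul_eq_mul_div, div_eq_inv_mul]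
  exact mul_le_mul_of_nonneg_left hs (inv_pos.2 hm).le

end Crest.Agent.R251
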