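import Crest.Agent.R251.SDefs
import Crest.Prelude.Def_DeckCochains

/-! Row 251: the bridge to the singular simplicial set. -/

set_option autoImplicit false

noncomputable section

namespace Crest.Agent.R251

open unitInterval Set _root_.Topology Crest.Agent.R185.Top

open Crest.GeometryTopology.DeckCochains

variable {E : Type} [TopologicalSpace E]

theorem deck_of_van_equiv (E : Type) [TopologicalSpace E] :
    ∃ e : ∀ n : ℕ, C(Sx (n + 1), E) ≃ SingSimplex E n,
      (∀ (n : ℕ) (i : Fin (n + 2)) (ω : C(Sx (n + 2), E)),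
        simplexFace i (e (n + 1) ω) = e n (ω.comp (fc i))) ∧
      ∀ (n : ℕ) (g : E ≃ₜ E) (ω : C(Sx (n + 1), E)),
        simplexTranslate g (e n ω) = e n ((g : C(E, E)).comp ω) :=
  ⟨fun n => ((TopCat.of E).toSSetObjEquiv (Opposite.op (SimplexCategory.mk n))).symm,
    fun _ _ _ => rfl, fun _ _ _ => rfl⟩

theorem deck_of_van {X : Type} [TopologicalSpace X] (p : E → X) {M : Type} [AddCommGroup M]
    [DistribMulAction (deckGroup p) M] (S : Sym E M) (ι : S.ι → deckGroup p)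
    (hι : Function.Surjective ι) (ha : ∀ i x, S.a i x = (ι i : E ≃ₜ E) x)
    (hα : ∀ i μ, S.α i μ = ι i • μ) (n : ℕ) (h : Van S (n + 1) univ ∅) :
    DeckCohomologyVanishes p M n := by
  obtain ⟨e, hf, ht⟩ := deck_of_van_equiv E
  have ha' : ∀ i, S.a i = ((ι i : E ≃ₜ E) : C(E, E)) := fun i => ContinuousMap.ext (ha i)
  have hc : ∀ (k : ℕ) (φ : SingSimplex E k → M) (ω : C(Sx (k + 2), E)),
      cochainCobdry φ (e (k + 1) ω) = cob (fun τ => φ (e k τ) : Co (k + 1) E M) ω := by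
    intro k φ ω
    simp only [cochainCobdry, cob_apply, hf]
  intro φ hφ h0
  obtain ⟨ψ, e₁, -, e₂⟩ := h (fun τ => φ (e (n + 1) τ))
    (fun i ω => by simp only [ha', ← ht, hφ (ι i), hα]) (fun ω _ => by rw [← hc, h0]; rfl) (z_empty _)
  refine ⟨fun x => ψ ((e n).symm x), fun g x => ?_, funext fun x => ?_⟩
  · obtain ⟨i, rfl⟩ := hι g
    obtain ⟨ω, rfl⟩ := (e n).surjective x
    simp only [ht, Equiv.symm_apply_apply, ← ha', e₁ i ω, hα]
  · obtain ⟨ω, rfl⟩ := (e (n + 1)).surjective x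
    have := e₂ ω (in_univ ω)
    rw [Pi.sub_apply, sub_eq_zero] at this
    rw [hc, this]
    simp only [Equiv.symm_apply_apply]

open CategoryTheory Limits in
theorem isZero_of_van_aux (C : ChainComplex (ModuleCat.{0} ℤ) ℕ) (i : ℕ)
    (k : C.X i ⟶ C.opcycles (i + 1)) (hk : C.d (i + 1) i ≫ k = C.pOpcycles (i + 1)) :
    IsZero (C.homology (i + 1)) := by
  have h1 : C.fromOpcycles (i + 1) i ≫ k = 𝟙 _ := by
    rw [← cancel_epi (C.pOpcycles (i + 1)), C.p_fromOpcycles_assoc, hk, Category.comp_id]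
  refine IsZero.of_mono_eq_zero (C.homologyι (i + 1)) ?_
  rw [← Category.comp_id (C.homologyι (i + 1)), ← h1, C.homologyι_comp_fromOpcycles_assoc,
    zero_comp]

open CategoryTheory Limits in
theorem isZero_of_van (i : ℕ)
    (h : ∀ (M : Type) [AddCommGroup M] (φ : Co (i + 2) E M), cob φ = 0 →
      ∃ ψ : Co (i + 1) E M, cob ψ = φ) :
    CategoryTheory.Limits.IsZero
      (((AlgebraicTopology.singularHomologyFunctor (ModuleCat.{0} ℤ) (i + 1)).obj
        (ModuleCat.of ℤ ℤ)).obj (TopCat.of E)) := by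
  obtain ⟨e, hf, -⟩ := deck_of_van_equiv E
  let X : SSet.{0} := TopCat.toSSet.obj (TopCat.of E)
  let R : ModuleCat.{0} ℤ := ModuleCat.of ℤ ℤ
  have hd : ∀ (n : ℕ) (ω : C(Sx (n + 2), E)) {T : ModuleCat.{0} ℤ}
      (k : (X.chainComplex R).X n ⟶ T),
      X.ιChainComplex (e (n + 1) ω) ≫ (X.chainComplex R).d (n + 1) n ≫ k =
        cob (fun τ => X.ιChainComplex (e n τ) ≫ k : Co (n + 1) E (R ⟶ T)) ω := by
    intro n ω T k
    rw [← Category.assoc, SSet.ιChainComplex_d, Preadditive.sum_comp, cob_apply]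
    refine Finset.sum_congr rfl fun j _ => ?_
    rw [Preadditive.zsmul_comp, ← hf]
  obtain ⟨ψ, hψ⟩ := h (R ⟶ (X.chainComplex R).opcycles (i + 1))
    (fun τ => X.ιChainComplex (e (i + 1) τ) ≫ (X.chainComplex R).pOpcycles (i + 1))
    (funext fun ω => by rw [← hd, HomologicalComplex.d_pOpcycles, comp_zero]; rfl)
  obtain ⟨k, hk⟩ : ∃ k : (X.chainComplex R).X i ⟶ (X.chainComplex R).opcycles (i + 1),
      ∀ τ, X.ιChainComplex (e i τ) ≫ k = ψ τ :=
    ⟨Sigma.desc fun x => ψ ((e i).symm x), fun τ => by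
      refine (Sigma.ι_desc _ _).trans ?_
      rw [Equiv.symm_apply_apply]⟩
  refine isZero_of_van_aux (X.chainComplex R) i k (SSet.chainComplex_hom_ext fun x => ?_)
  obtain ⟨ω, rfl⟩ := (e (i + 1)).surjective x
  rw [hd]
  simp only [hk]
  exact congrFun hψ ω

end Crest.Agent.R251
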