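import Crest.Agent.R251.SDefs
import Crest.Prelude.Def_DeckCochains

/-! Row 251: the quotient is a finite complex; the deck group. -/

set_option autoImplicit false

noncomputable section

namespace Crest.Agent.R251

open unitInterval Set _root_.Topology Crest.Agent.R185.Top

variable {G : Type} [Group G] {J : ℕ → Type} [Unique (J 0)] {Γ : Att G J}

open Sp Crest.Agent.Lib.TwoComplex Metric in
theorem exists_cw_fin (hfin : ∀ n, Finite (J n)) (hemp : ∀ n, 3 < n → IsEmpty (J n))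
    (hΓ : ∀ n, Good Γ n) : ∃ _ : CWComplex (univ : Set (Sp.Xq Γ)),
      RelCWComplex.Finite (univ : Set (Sp.Xq Γ)) ∧
      ∀ m : ℕ, 3 < m → IsEmpty (RelCWComplex.cell (univ : Set (Sp.Xq Γ)) m) := by
  have := t2 hΓ
  have hinj : ∀ n (j : J n), ∀ x ∈ ball (0 : Fin n → ℝ) 1,
      ∀ y ∈ closedBall (0 : Fin n → ℝ) 1, chr Γ n j x = chr Γ n j y → x = y := by
    intro n j x hx y hy h
    obtain ⟨g, hg⟩ := prj_eq h
    rw [pt_toTot, pt_toTot, smul_chi, chi_int _ _ (cub_ball hx)] at hg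
    by_cases hb : cub y ∈ Bd n
    · have h1 := chi_bd_dim (hΓ n) (g * 1) j hb
      rw [hg] at h1
      exact absurd h1 (lt_irrefl n)
    · rw [chi_int _ _ hb] at hg
      have h2 : cub y = cub x := by
        simp only [Pt.mk.injEq, heq_eq_eq, true_and] at hg
        exact hg.2
      funext i
      exact pr_inj (abs_lt_of_ball hx i).le (abs_le_of_closedBall hy i) (congrFun h2 i).symm
  have hi : ∀ n j, InjOn (chr Γ n j) (ball 0 1) := fun n j x hx y hy h =>
    hinj n j x hx y (ball_subset_closedBall hy) h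
  have hev : ∀ᶠ n in Filter.atTop, IsEmpty (J n) :=
    (Filter.eventually_gt_atTop 3).mono hemp
  refine ⟨CWComplex.mkFinite univ J
    (fun n j => (hi n j).toPartialEquiv (chr Γ n j) (ball 0 1)) hev hfin (fun _ _ => rfl)
    (fun n j => (chr Γ n j).continuous.continuousOn)
    (fun n j => continuousOn_symm_of_inj (chr Γ n j) (hinj n j) (hi n j)) ?_ ?_ ?_,
    CWComplex.finite_mkFinite _ _ _ _ _ _ _ _ _ _ _, hemp⟩
  · rintro ⟨n, j⟩ - ⟨m, j'⟩ - hne
    rw [Function.onFun, Set.disjoint_left]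
    rintro _ ⟨x, hx, rfl⟩ ⟨y, hy, h⟩
    obtain ⟨g, hg⟩ := prj_eq h
    rw [pt_toTot, pt_toTot, smul_chi, chi_int _ _ (cub_ball hx), chi_int _ _ (cub_ball hy)] at hg
    exact hne (congrArg (fun p : Pt G J => (⟨p.n, p.j⟩ : Σ n, J n)) hg)
  · intro n j x hx
    simp only [mem_iUnion]
    exact ⟨_, chi_bd_dim (hΓ n) 1 j (cub_sphere hx), _, mem_cell' _⟩
  · refine eq_univ_of_forall fun z => ?_
    obtain ⟨p, rfl⟩ : ∃ p, prj p = z := Quotient.mk_surjective z
    exact mem_iUnion₂.2 ⟨_, _, mem_cell' p.pt⟩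

theorem exists_deck (hΓ : ∀ n, Good Γ n) [PreconnectedSpace (Tot Γ)] :
    ∃ ι : G →* Crest.GeometryTopology.DeckCochains.deckGroup (Sp.prj (Γ := Γ)),
      Function.Bijective ι ∧ ∀ g x, (ι g : Tot Γ ≃ₜ Tot Γ) x = g • x := by
  let ι : G →* Crest.GeometryTopology.DeckCochains.deckGroup (Sp.prj (Γ := Γ)) :=
    MonoidHom.mk' (fun g => ⟨Homeomorph.smul g, fun x => Sp.prj_smul g x⟩) fun g h =>
      Subtype.ext (Homeomorph.ext fun x => mul_smul g h x)
  have hι : ∀ g x, (ι g : Tot Γ ≃ₜ Tot Γ) x = g • x := fun _ _ => rfl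
  refine ⟨ι, ⟨fun g h hgh => ?_, fun f => ?_⟩, hι⟩
  · have h1 : g • toTot Γ (vtx 1) = h • toTot Γ (vtx 1) := by rw [← hι, ← hι, hgh]
    have h2 := congrArg (fun p : Tot Γ => p.pt.g) h1
    simpa only [Sp.smul_toTot, smul_vtx, mul_one, pt_toTot, vtx_g] using h2
  · obtain ⟨g, hg⟩ := Sp.prj_eq (f.2 (toTot Γ (vtx 1)))
    refine ⟨g, Subtype.ext (Homeomorph.ext fun x => ?_)⟩
    have hc := (Sp.isQuotientCoveringMap hΓ).isCoveringMap
    have := hc.eq_of_comp_eq (g₁ := fun x : Tot Γ => g • x) (g₂ := (f : Tot Γ ≃ₜ Tot Γ))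
      (continuous_const_smul g) (f : Tot Γ ≃ₜ Tot Γ).continuous
      (funext fun y => (Sp.prj_smul g y).trans (f.2 y).symm) (toTot Γ (vtx 1)) hg
    exact congrFun this x

end Crest.Agent.R251
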