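import Crest.Agent.R251.SPrism

/-! Row 251: deformations. -/

set_option autoImplicit false

noncomputable section

namespace Crest.Agent.R251

open unitInterval Set _root_.Topology Crest.Agent.R185.Top

variable {E M : Type} [TopologicalSpace E] [AddCommGroup M] {S : Sym E M} {A B : Set E}

/-- If `B` deforms into `A` then the pair has no cohomology. -/
theorem van_of_deform (H : E → I → E)
    (hc : ∀ (m : ℕ) (ω : C(Sx m, E)), In B ω → Continuous fun q : Sx m × I => H (ω q.1) q.2)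
    (h0 : ∀ x ∈ B, H x 0 = x) (h1 : ∀ x ∈ B, H x 1 ∈ A) (hB : ∀ x ∈ B, ∀ t, H x t ∈ B)
    (hA : ∀ x ∈ A, ∀ t, H x t ∈ A) (hS : S.Inv B)
    (hH : ∀ i, ∀ x ∈ B, ∀ t, H (S.a i x) t = S.a i (H x t)) (m : ℕ) : Van S m B A := by
  classical
  intro φ hφ hcB hA0
  let T : ∀ {k : ℕ} (τ : C(Sx k, E)), In B τ → C(Sx k × I, E) := fun τ hτ => ⟨_, hc _ τ hτ⟩
  let ψ : Co m E M := fun τ => if hτ : In B τ then - prs φ (T τ hτ) else 0
  have hψ : ∀ τ (hτ : In B τ), ψ τ = - prs φ (T τ hτ) := fun τ hτ => dif_pos hτ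
  have hψ' : ∀ τ, ¬ In B τ → ψ τ = 0 := fun τ hτ => dif_neg hτ
  refine ⟨ψ, fun i τ => ?_, fun τ hτ => ?_, fun ω hω => ?_⟩
  · by_cases hτ : In B τ
    · rw [hψ τ hτ, hψ _ ((hS.in_iff i τ).2 hτ), map_neg, ← prs_eqv hφ]
      congr 2
      exact ContinuousMap.ext fun q => hH i _ (hτ q.1) q.2
    · rw [hψ' τ hτ, hψ' _ (mt (hS.in_iff i τ).1 hτ), map_zero]
  · by_cases hτB : In B τ
    · rw [hψ τ hτB, prs_z hA0 (fun q => hA _ (hτ q.1) q.2), neg_zero]
    · exact hψ' τ hτB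
  · have h := prs_cob φ (T ω hω)
    have e0 : sl (T ω hω) 0 = ω := ContinuousMap.ext fun x => h0 _ (hω x)
    rw [prs_z hcB (fun q => hB _ (hω q.1) q.2), hA0 (sl (T ω hω) 1) (fun x => h1 _ (hω x)), e0,
      zero_add, zero_sub] at h
    rw [Pi.sub_apply, cob_apply, ← neg_eq_iff_eq_neg.2 h, ← Finset.sum_neg_distrib, sub_eq_zero]
    refine Finset.sum_congr rfl fun i _ => ?_
    rw [hψ _ (hω.comp _), smul_neg]
    rfl

end Crest.Agent.R251
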