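import Crest.Agent.R251.SEmb
import Crest.Agent.R251.SDeform

/-! Row 251: the collars of the skeleta. -/

set_option autoImplicit false

noncomputable section

namespace Crest.Agent.R251

open unitInterval Set _root_.Topology Crest.Agent.R185.Top

variable {G : Type} [Group G] {J : ℕ → Type} [Unique (J 0)] {Γ : Att G J} {k : ℕ}
  {H : Subgroup G} {M : Type} [AddCommGroup M] [DistribMulAction H M]

theorem inv_Ek (k : ℕ) : (sym Γ H M).Inv (Ek Γ k) := fun _ _ => Iff.rfl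

theorem inv_Ok (k : ℕ) : (sym Γ H M).Inv (Ok Γ k) := fun _ _ => Iff.rfl

theorem inv_Uk (k : ℕ) : (sym Γ H M).Inv (Uk Γ k) := fun _ _ => Iff.rfl

omit [Group G] [Unique (J 0)] in
theorem Ek_zero : Ek Γ 0 = ∅ := eq_empty_of_forall_notMem fun _ h => Nat.not_lt_zero _ h

omit [Group G] [Unique (J 0)] in
theorem Ek_mono {k l : ℕ} (h : k ≤ l) : Ek Γ k ⊆ Ek Γ l := fun _ hp => lt_of_lt_of_le hp h

omit [Group G] [Unique (J 0)] in
theorem Ek_subset_Uk : Ek Γ k ⊆ Uk Γ k := fun _ hp => Or.inl hp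

theorem chC_mem_Ek (hΓ : ∀ n, Good Γ n) (g : G) (j : J k) (x : Cb k) :
    chC Γ k g j x ∈ Ek Γ (k + 1) := Nat.lt_succ_of_le (chi_dim (hΓ k) g j x)

theorem chC_bd (hΓ : ∀ n, Good Γ n) (g : G) (j : J k) {x : Cb k} (hx : x ∈ Bd k) :
    chC Γ k g j x ∈ Ek Γ k := chi_bd_dim (hΓ k) g j hx

theorem chC_int (g : G) (j : J k) {x : Cb k} (hx : x ∉ Bd k) : chC Γ k g j x ∈ Ok Γ k := by
  change (chi Γ k g j x).n = k
  rw [chi_int g j hx]

theorem sym_chC (h : H) (g : G) (j : J k) :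
    ((sym Γ H M).a h).comp (chC Γ k g j) = chC Γ k (h * g) j :=
  ContinuousMap.ext fun x => smul_chi (Γ := Γ) (h : G) k g j x

theorem chC_mem_Uk (hΓ : ∀ n, Good Γ n) (g : G) (j : J k) (x : Cb k) :
    chC Γ k g j x ∈ Uk Γ k ↔ x ∈ Col k := by
  by_cases hx : x ∈ Bd k
  · exact iff_of_true (Ek_subset_Uk (chC_bd hΓ g j hx)) (bd_subset_col k hx)
  · change ((chi Γ k g j x).n < k ∨ ((chi Γ k g j x).n = k ∧ (chi Γ k g j x).x ∈ Col _)) ↔ _
    rw [chi_int g j hx]
    simp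

theorem cov_cell_col {x : Cb k} : x ∈ Col k ↔ 1 / 2 < ‖TC.ctr x‖ := by
  rw [← not_iff_not, not_lt, pi_norm_le_iff_of_nonneg (by norm_num)]
  simp only [Col, mem_ofPred_eq, not_exists, not_or, not_lt, Real.norm_eq_abs, abs_le, TC.ctr]
  refine forall_congr' fun i => ?_
  constructor
  · rintro ⟨h1, h2⟩
    constructor <;> linarith
  · rintro ⟨h1, h2⟩
    constructor <;> linarith

theorem cov_cell (hΓ : ∀ n, Good Γ n) (k : ℕ) : Cov (Ek Γ (k + 1)) (Uk Γ k) (Ok Γ k) := by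
  have hF : Continuous fun p : Tot Γ =>
      Sp.ext Γ k (Sp.cf k fun (_ : G) (_ : J k) x => 1 - ‖TC.ctr x‖) p.pt :=
    Sp.continuous_ext hΓ (Sp.cts_cf hΓ k (fun _ _ => by fun_prop) fun _ _ x hx => by
      rw [TC.norm_ctr_of_mem hx, sub_self])
  refine ⟨fun p hp => ?_, fun p hp => ?_, fun p hp => ?_⟩
  · rcases hp with hp | hp
    · exact Nat.lt_succ_of_lt hp
    · exact Nat.lt_succ_of_le hp.1.le
  · exact Nat.lt_succ_of_le (le_of_eq hp)
  · rcases lt_or_ge (Sp.ext Γ k (Sp.cf k fun (_ : G) (_ : J k) x => 1 - ‖TC.ctr x‖) p.pt) (1 / 2)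
      with h | h
    · refine Or.inl (mem_nhdsWithin.2 ⟨_, isOpen_lt hF continuous_const, h, fun q hq => ?_⟩)
      obtain ⟨h1, h2⟩ := hq
      have h3 : q.pt.n ≤ k := Nat.le_of_lt_succ h2
      rcases h3.lt_or_eq with h4 | h4
      · exact Or.inl h4
      · refine Or.inr ⟨h4, cov_cell_col.2 ?_⟩
        simp only [mem_ofPred_eq] at h1
        rw [Sp.ext_of_le hΓ _ h3] at h1
        obtain ⟨n, g, j, x, hx⟩ := q
        subst h4
        have e := Sp.cf_mk n (fun (_ : G) (_ : J n) x => 1 - ‖TC.ctr x‖) g j x hx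
        have h5 : 1 - ‖TC.ctr x‖ < 1 / 2 := e ▸ h1
        change 1 / 2 < ‖TC.ctr x‖
        linarith
    · refine Or.inr (mem_nhdsWithin.2 ⟨_, isOpen_lt continuous_const hF,
        lt_of_lt_of_le (show (0 : ℝ) < 1 / 2 by norm_num) h, fun q hq => ?_⟩)
      obtain ⟨h1, h2⟩ := hq
      have h3 : q.pt.n ≤ k := Nat.le_of_lt_succ h2
      simp only [mem_ofPred_eq] at h1
      rw [Sp.ext_of_le hΓ _ h3] at h1
      by_contra h4
      rw [Sp.cf_ne k _ h4] at h1
      exact lt_irrefl _ h1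

theorem exists_rad_bd {x : Cb k} (hx : x ∈ Bd k) (t : I) : TC.retr (x, t) = (x, t) :=
  TC.retr_eq (by
    unfold TC.scl
    rw [TC.norm_ctr_of_mem hx]
    exact max_eq_right (by have := t.2.1; linarith))

/-- the radial deformation of the cells -/
theorem exists_rad (hΓ : ∀ n, Good Γ n) (k : ℕ) : ∃ R : Pt G J → I → Pt G J,
    CtsH Γ k (fun p t => toSk Γ k (R p t)) ∧ (∀ p : Pt G J, p.n < k → ∀ t, R p t = p) ∧
    (∀ (g : G) (j : J k) x t, R (chi Γ k g j x) t = chi Γ k g j (TC.retr (x, t)).1) ∧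
    ∀ (g : G) (p : Pt G J), p.n ≤ k → ∀ t, R (g • p) t = g • R p t := by
  cases k with
  | zero =>
    exact ⟨fun p _ => p, fun m hm g j => (cts_toSk le_rfl m hm g j).comp continuous_fst,
      fun _ _ _ => rfl, fun g j x t => rfl, fun _ _ _ _ => rfl⟩
  | succ n =>
    obtain ⟨R, h1, h2⟩ := exists_ext (hΓ (n + 1)) (fun p (_ : I) => p)
      (fun g j x t => chi Γ (n + 1) g j (TC.retr (x, t)).1)
      (fun g j x hx => funext fun t => by rw [exists_rad_bd hx])
    refine ⟨R, ?_, fun p hp t => by rw [h1 p (Nat.le_of_lt_succ hp)],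
      fun g j x t => by rw [h2], fun g p hp t => ?_⟩
    · refine CtsH.succ (hΓ n) (K := fun p _ => toSk Γ (n + 1) p)
        (fun m hm g j => (cts_toSk n.le_succ m hm g j).comp continuous_fst)
        (fun p hp => funext fun t => by rw [h1 p hp]) fun g j => ?_
      simp only [h2]
      exact (cts_toSk le_rfl (n + 1) le_rfl g j).comp (continuous_fst.comp TC.continuous_retr)
    · rcases cases_succ Γ hp with h | ⟨g', j, x, rfl⟩
      · rw [h1 p h, h1 (g • p) h]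
      · rw [smul_chi, h2, h2, smul_chi]

theorem retr_zero (x : Cb k) : (TC.retr (x, 0)).1 = x := by
  rw [TC.retr_eq (q := (x, 0)) (by simpa [TC.scl] using TC.norm_ctr_le x)]

theorem retr_one {x : Cb k} (hx : x ∈ Col k) : (TC.retr (x, 1)).1 ∈ Bd k := by
  have h1 := cov_cell_col.1 hx
  have hp := TC.scl_pos (x, (1 : I))
  have h' : TC.scl (x, (1 : I)) = ‖TC.ctr x‖ := by
    refine max_eq_right ?_
    simp only [Icc.coe_one]
    linarith
  have : ¬ ∀ i, ‖TC.ctr x i‖ < TC.scl (x, (1 : I)) := fun hi =>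
    ((pi_norm_lt_iff hp).2 hi).ne h'.symm
  push Not at this
  obtain ⟨i, hi⟩ := this
  refine ⟨i, ?_⟩
  rcases le_abs.1 hi with hi | hi
  · refine Or.inr (TC.pj_of_one_le ?_)
    have := (one_le_div hp).2 hi
    linarith
  · refine Or.inl (TC.pj_of_nonpos ?_)
    have := (one_le_div hp).2 hi
    rw [neg_div] at this
    linarith

theorem retr_col {x : Cb k} (hx : x ∈ Col k) (t : I) : (TC.retr (x, t)).1 ∈ Col k := by
  obtain ⟨i, hi⟩ := hx
  have hp := TC.scl_pos (x, t)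
  have h1 : TC.scl (x, t) ≤ 1 := max_le (by linarith [t.2.1]) (TC.norm_ctr_le x)
  have h2 : |TC.ctr x i| ≤ TC.scl (x, t) :=
    (norm_le_pi_norm (TC.ctr x) i).trans (le_max_right _ _)
  have h3 : -1 ≤ TC.ctr x i / TC.scl (x, t) := by
    rw [le_div_iff₀ hp]
    linarith [(abs_le.1 h2).1]
  have h4 : TC.ctr x i / TC.scl (x, t) ≤ 1 := by
    rw [div_le_iff₀ hp]
    linarith [(abs_le.1 h2).2]
  have e : (((TC.retr (x, t)).1 i : I) : ℝ) = (TC.ctr x i / TC.scl (x, t) + 1) / 2 :=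
    TC.coe_pj (by linarith) (by linarith)
  have e' : TC.ctr x i = 2 * x i - 1 := rfl
  refine ⟨i, ?_⟩
  rw [e]
  rcases hi with hi | hi
  · left
    have : TC.ctr x i / TC.scl (x, t) < -(1 / 2) := by
      rw [div_lt_iff₀ hp]
      linarith
    linarith
  · right
    have : 1 / 2 < TC.ctr x i / TC.scl (x, t) := by
      rw [lt_div_iff₀ hp]
      linarith
    linarith

theorem van_Uk_cases {p : Tot Γ} (hp : p ∈ Uk Γ k) :
    p.pt.n < k ∨ ∃ g j x, x ∈ Col k ∧ p = chC Γ k g j x := by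
  rcases hp with h | ⟨h, hx⟩
  · exact Or.inl h
  · subst h
    exact Or.inr ⟨_, _, _, hx, (chi_self (Γ := Γ) p.pt).symm⟩

theorem van_Uk (hΓ : ∀ n, Good Γ n) (k m : ℕ) : Van (sym Γ H M) m (Uk Γ k) (Ek Γ k) := by
  obtain ⟨R, hc, hl, hχ, hs⟩ := exists_rad hΓ k
  have hU : ∀ p ∈ Uk Γ k, p.pt.n ≤ k := fun p hp => hp.elim le_of_lt fun h => h.1.le
  have hC : ∀ g j x t, toTot Γ (R (chC Γ k g j x).pt t) = chC Γ k g j (TC.retr (x, t)).1 :=
    fun g j x t => congrArg (toTot Γ) (hχ g j x t)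
  refine van_of_deform (fun p t => toTot Γ (R p.pt t)) (fun m ω hω => ?_) (fun p hp => ?_)
    (fun p hp => ?_) (fun p hp t => ?_) (fun p hp t => ?_) (inv_Uk k) (fun (h : H) p hp t => ?_) m
  · have h1 : Continuous fun x => toSk Γ k (ω x).pt :=
      (continuousOn_toSk hΓ k).comp_continuous ω.continuous fun x =>
        Nat.lt_succ_of_le (hU _ (hω x))
    exact (cts_toTot k).comp
      (hc.comp (hΓ k) (h1.comp continuous_fst) (fun q => hU _ (hω q.1)) continuous_snd)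
  · rcases van_Uk_cases hp with h | ⟨g, j, x, -, rfl⟩
    · rw [hl _ h]; rfl
    · rw [hC, retr_zero]
  · rcases van_Uk_cases hp with h | ⟨g, j, x, hx, rfl⟩
    · rw [hl _ h]; exact h
    · rw [hC]; exact chC_bd hΓ g j (retr_one hx)
  · rcases van_Uk_cases hp with h | ⟨g, j, x, hx, rfl⟩
    · rw [hl _ h]; exact hp
    · rw [hC]; exact (chC_mem_Uk hΓ g j _).2 (retr_col hx t)
  · rw [hl _ hp]; exact hp
  · exact congrArg (toTot Γ) (hs h p.pt (hU p hp) t)

end Crest.Agent.R251
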