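import Crest.Agent.R185.Top

/-!
# Row 251: singular cochains, definitions and basic algebra

Simplices are indexed by the NUMBER OF VERTICES `m` (dimension `m - 1`); `m = 0` is the empty
simplex.  `Van S m B A` says that the relative equivariant cohomology `H^m(B, A)` vanishes.
-/

set_option autoImplicit false

noncomputable section

namespace Crest.Agent.R251

open unitInterval Set _root_.Topology Crest.Agent.R185.Top

/-- the standard simplex with `m` vertices -/
abbrev Sx (m : ℕ) : Type := stdSimplex ℝ (Fin m)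

instance : IsEmpty (Sx 0) := ⟨fun x => by simpa using x.2.2⟩

/-- the faces -/
def fc {m : ℕ} (i : Fin (m + 1)) : C(Sx m, Sx (m + 1)) :=
  ⟨stdSimplex.map i.succAbove, stdSimplex.continuous_map _⟩

lemma fc_apply {m : ℕ} (i : Fin (m + 1)) (x : Sx m) : fc i x = stdSimplex.map i.succAbove x := rfl

/-- the sign -/
abbrev sg {m : ℕ} (i : Fin m) : ℤ := (-1) ^ (i : ℕ)

/-- cochains on simplices with `m` vertices -/
abbrev Co (m : ℕ) (E M : Type) [TopologicalSpace E] : Type := C(Sx m, E) → M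

section Cochains

variable {E W Y : Type} [TopologicalSpace E] [TopologicalSpace W] [TopologicalSpace Y]
  {M M' : Type} [AddCommGroup M] [AddCommGroup M'] {m : ℕ}

instance : Subsingleton C(Sx 0, E) := ⟨fun _ _ => ContinuousMap.ext fun x => isEmptyElim x⟩

/-- the coboundary -/
def cob : Co m E M →+ Co (m + 1) E M where
  toFun φ ω := ∑ i : Fin (m + 1), sg i • φ (ω.comp (fc i))
  map_zero' := by funext ω; simp
  map_add' φ ψ := by funext ω; simp [Finset.sum_add_distrib]

lemma cob_apply (φ : Co m E M) (ω : C(Sx (m + 1), E)) :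
    cob φ ω = ∑ i : Fin (m + 1), sg i • φ (ω.comp (fc i)) := rfl

/-- pull-back -/
def pb (f : C(W, E)) : Co m E M →+ Co m W M where
  toFun φ ω := φ (f.comp ω)
  map_zero' := rfl
  map_add' _ _ := rfl

lemma pb_apply (f : C(W, E)) (φ : Co m E M) (ω : C(Sx m, W)) : pb f φ ω = φ (f.comp ω) := rfl

lemma pb_cob (f : C(W, E)) (φ : Co m E M) : pb f (cob φ) = cob (pb f φ) := rfl

lemma pb_pb (f : C(W, E)) (g : C(Y, W)) (φ : Co m E M) : pb g (pb f φ) = pb (f.comp g) φ := rfl

/-- change of coefficients -/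
def po (α : M →+ M') : Co m E M →+ Co m E M' where
  toFun φ ω := α (φ ω)
  map_zero' := funext fun _ => map_zero α
  map_add' _ _ := funext fun _ => map_add α _ _

lemma po_apply (α : M →+ M') (φ : Co m E M) (ω : C(Sx m, E)) : po α φ ω = α (φ ω) := rfl

lemma po_cob (α : M →+ M') (φ : Co m E M) : po α (cob φ) = cob (po α φ) := by
  funext ω
  simp [po_apply, cob_apply]

/-- the map takes values in `A` -/
def In (A : Set E) (ω : C(Y, E)) : Prop := ∀ x, ω x ∈ A

lemma In.comp {A : Set E} {ω : C(Y, E)} (h : In A ω) (f : C(W, Y)) : In A (ω.comp f) :=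
  fun x => h (f x)

lemma In.mono {A B : Set E} {ω : C(Y, E)} (h : In A ω) (hAB : A ⊆ B) : In B ω :=
  fun x => hAB (h x)

lemma In.inter {A B : Set E} {ω : C(Y, E)} (h : In A ω) (h' : In B ω) : In (A ∩ B) ω :=
  fun x => ⟨h x, h' x⟩

lemma in_univ (ω : C(Y, E)) : In univ ω := fun _ => trivial

lemma in_nil (A : Set E) (ω : C(Sx 0, E)) : In A ω := fun x => isEmptyElim x

lemma not_in_empty (ω : C(Sx (m + 1), E)) : ¬ In ∅ ω := fun h => h (Classical.arbitrary _)

/-- the cochain vanishes on the simplices in `A` -/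
def Z (A : Set E) (φ : Co m E M) : Prop := ∀ ω, In A ω → φ ω = 0

lemma Z.zero (A : Set E) : Z A (0 : Co m E M) := fun _ _ => rfl

lemma Z.add {A : Set E} {φ ψ : Co m E M} (h : Z A φ) (h' : Z A ψ) : Z A (φ + ψ) :=
  fun ω hω => by rw [Pi.add_apply, h ω hω, h' ω hω, add_zero]

lemma Z.neg {A : Set E} {φ : Co m E M} (h : Z A φ) : Z A (-φ) :=
  fun ω hω => by rw [Pi.neg_apply, h ω hω, neg_zero]

lemma Z.sub {A : Set E} {φ ψ : Co m E M} (h : Z A φ) (h' : Z A ψ) : Z A (φ - ψ) :=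
  fun ω hω => by rw [Pi.sub_apply, h ω hω, h' ω hω, sub_zero]

lemma Z.mono {A B : Set E} {φ : Co m E M} (h : Z B φ) (hAB : A ⊆ B) : Z A φ :=
  fun ω hω => h ω (hω.mono hAB)

lemma Z.cob {A : Set E} {φ : Co m E M} (h : Z A φ) : Z A (cob φ) := fun ω hω => by
  rw [cob_apply]
  exact Finset.sum_eq_zero fun i _ => by rw [h _ (hω.comp _), smul_zero]

lemma Z.pb {A : Set E} {B : Set W} {φ : Co m E M} (h : Z A φ) (f : C(W, E))
    (hf : ∀ x ∈ B, f x ∈ A) : Z B (pb f φ) := fun _ hω => h _ fun x => hf _ (hω x)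

lemma Z.po {A : Set E} {φ : Co m E M} (h : Z A φ) (α : M →+ M') : Z A (po α φ) :=
  fun ω hω => by rw [po_apply, h ω hω, map_zero]

lemma Z.congr {A : Set E} {φ ψ : Co m E M} (h : Z A φ) (e : φ = ψ) : Z A ψ := e ▸ h

lemma z_univ {φ : Co m E M} : Z univ φ ↔ φ = 0 :=
  ⟨fun h => funext fun ω => h ω (in_univ ω), fun h => h ▸ Z.zero _⟩

lemma z_empty (φ : Co (m + 1) E M) : Z ∅ φ := fun ω h => absurd h (not_in_empty ω)

/-- a cochain on the empty simplex that vanishes on some set vanishes -/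
lemma Z.nil {A : Set E} {φ : Co 0 E M} (h : Z A φ) : φ = 0 := funext fun ω => h ω (in_nil A ω)

lemma fc_fc {i : Fin (m + 2)} {j : Fin (m + 1)} :
    (fc i).comp (fc j) = (fc (i.succAbove j)).comp (fc (j.predAbove i)) := by
  ext1 x
  simp only [ContinuousMap.comp_apply, fc_apply, stdSimplex.map_comp_apply]
  congr 1
  funext k
  exact (Fin.succAbove_succAbove_succAbove_predAbove i j k).symm

lemma sum_sg_sg {A : Type} [AddCommGroup A] (f : Fin (m + 2) → Fin (m + 1) → A)
    (h : ∀ i j, f i j = f (i.succAbove j) (j.predAbove i)) :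
    ∑ i : Fin (m + 2), ∑ j : Fin (m + 1), (sg i * sg j) • f i j = 0 := by
  rw [← Finset.sum_product']
  refine Finset.sum_involution (fun p _ => (p.1.succAbove p.2, p.2.predAbove p.1)) ?_ ?_ ?_ ?_
  · rintro ⟨i, j⟩ -
    simp only [← h i j, ← add_smul, ← pow_add]
    rw [Fin.neg_one_pow_succAbove_add_predAbove]
    simp
  · rintro ⟨i, j⟩ - -
    simp
  · simp
  · rintro ⟨i, j⟩ -
    simp [Fin.succAbove_succAbove_predAbove, Fin.predAbove_predAbove_succAbove]

lemma cob_cob (φ : Co m E M) : cob (cob φ) = 0 := by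
  funext ω
  simp only [cob_apply, Finset.smul_sum, smul_smul, ContinuousMap.comp_assoc]
  exact sum_sg_sg (fun i j => φ (ω.comp ((fc i).comp (fc j)))) fun i j => by rw [← fc_fc]

/-- symmetries: self-maps of the space acting on the coefficients -/
structure Sym (E M : Type) [TopologicalSpace E] [AddCommGroup M] : Type 1 where
  ι : Type
  a : ι → C(E, E)
  α : ι → M →+ M

/-- no symmetries -/
def Sym.triv (E M : Type) [TopologicalSpace E] [AddCommGroup M] : Sym E M :=
  ⟨Empty, Empty.elim, Empty.elim⟩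

/-- equivariant cochains -/
def Sym.Eqv (S : Sym E M) (φ : Co m E M) : Prop := ∀ i ω, φ ((S.a i).comp ω) = S.α i (φ ω)

/-- invariant sets -/
def Sym.Inv (S : Sym E M) (A : Set E) : Prop := ∀ i x, S.a i x ∈ A ↔ x ∈ A

variable {S : Sym E M}

lemma Sym.eqv_triv (φ : Co m E M) : (Sym.triv E M).Eqv φ := fun i => i.elim

lemma Sym.inv_triv (A : Set E) : (Sym.triv E M).Inv A := fun i => i.elim

lemma Sym.Eqv.zero : S.Eqv (0 : Co m E M) := fun i _ => (map_zero (S.α i)).symm

lemma Sym.Eqv.add {φ ψ : Co m E M} (h : S.Eqv φ) (h' : S.Eqv ψ) : S.Eqv (φ + ψ) :=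
  fun i ω => by rw [Pi.add_apply, Pi.add_apply, h, h', map_add]

lemma Sym.Eqv.neg {φ : Co m E M} (h : S.Eqv φ) : S.Eqv (-φ) :=
  fun i ω => by rw [Pi.neg_apply, Pi.neg_apply, h, map_neg]

lemma Sym.Eqv.sub {φ ψ : Co m E M} (h : S.Eqv φ) (h' : S.Eqv ψ) : S.Eqv (φ - ψ) :=
  fun i ω => by rw [Pi.sub_apply, Pi.sub_apply, h, h', map_sub]

lemma Sym.Eqv.cob {φ : Co m E M} (h : S.Eqv φ) : S.Eqv (cob φ) := fun i ω => by
  simp only [cob_apply, ContinuousMap.comp_assoc, h i, map_sum, map_zsmul]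

lemma Sym.Inv.in_iff {A : Set E} (h : S.Inv A) (i : S.ι) (ω : C(Y, E)) :
    In A ((S.a i).comp ω) ↔ In A ω := forall_congr' fun x => h i (ω x)

lemma Sym.Inv.inter {A B : Set E} (h : S.Inv A) (h' : S.Inv B) : S.Inv (A ∩ B) :=
  fun i x => and_congr (h i x) (h' i x)

lemma Sym.inv_univ : S.Inv univ := fun _ _ => Iff.rfl

open Classical in
/-- the cochain on the simplices in `B`, extended by zero -/
def res (B : Set E) (φ : Co m E M) : Co m E M := fun ω => if In B ω then φ ω else 0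

lemma res_pos {B : Set E} (φ : Co m E M) {ω : C(Sx m, E)} (h : In B ω) : res B φ ω = φ ω :=
  if_pos h

lemma res_neg {B : Set E} (φ : Co m E M) {ω : C(Sx m, E)} (h : ¬ In B ω) : res B φ ω = 0 :=
  if_neg h

lemma z_sub_res (B : Set E) (φ : Co m E M) : Z B (φ - res B φ) := fun ω h => by
  rw [Pi.sub_apply, res_pos φ h, sub_self]

lemma Z.res {A B : Set E} {φ : Co m E M} (h : Z (A ∩ B) φ) : Z A (res B φ) := fun ω hω => by
  by_cases hB : In B ω
  · rw [res_pos φ hB, h ω (hω.inter hB)]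
  · exact res_neg φ hB

lemma Sym.Eqv.res {B : Set E} {φ : Co m E M} (h : S.Eqv φ) (hB : S.Inv B) : S.Eqv (res B φ) :=
  fun i ω => by
    by_cases hω : In B ω
    · rw [res_pos φ hω, res_pos φ ((hB.in_iff i ω).2 hω), h]
    · rw [res_neg φ hω, res_neg φ (mt (hB.in_iff i ω).1 hω), map_zero]

/-- `H^m(B, A) = 0` -/
def Van (S : Sym E M) (m : ℕ) (B A : Set E) : Prop :=
  ∀ φ : Co (m + 1) E M, S.Eqv φ → Z B (cob φ) → Z A φ →
    ∃ ψ : Co m E M, S.Eqv ψ ∧ Z A ψ ∧ Z B (φ - cob ψ)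

lemma Van.refl (S : Sym E M) (m : ℕ) (A : Set E) : Van S m A A := fun φ _ _ h =>
  ⟨0, Sym.Eqv.zero, Z.zero _, by rwa [map_zero, sub_zero]⟩

lemma Van.trans {A B C : Set E} (h₂ : Van S m C B) (h₁ : Van S m B A) (hAB : A ⊆ B)
    (hBC : B ⊆ C) : Van S m C A := by
  intro φ hφ hc hA
  obtain ⟨ψ₁, e₁, a₁, b₁⟩ := h₁ φ hφ (hc.mono hBC) hA
  obtain ⟨ψ₂, e₂, a₂, b₂⟩ := h₂ _ (hφ.sub e₁.cob) (by rwa [map_sub, cob_cob, sub_zero]) b₁
  exact ⟨ψ₁ + ψ₂, e₁.add e₂, a₁.add (a₂.mono hAB), by rwa [map_add, ← sub_sub]⟩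

/-- `A` and `B` cover `C` by relative neighbourhoods -/
structure Cov (C A B : Set E) : Prop where
  left : A ⊆ C
  right : B ⊆ C
  nhds : ∀ x ∈ C, A ∈ 𝓝[C] x ∨ B ∈ 𝓝[C] x

end Cochains

/-! ### Chains of tuples -/

/-- formal chains of `m`-tuples -/
abbrev Om (m : ℕ) (V : Type) : Type := (Fin m → V) →₀ ℤ

section Tuples

variable {V V' : Type} {m : ℕ}

/-- a tuple as a chain -/
abbrev tu (v : Fin m → V) : Om m V := Finsupp.single v 1

/-- the boundary -/
def bd : Om (m + 1) V →ₗ[ℤ] Om m V :=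
  lin fun v => ∑ i : Fin (m + 1), sg i • tu (v ∘ i.succAbove)

lemma bd_tu (v : Fin (m + 1) → V) : bd (tu v) = ∑ i : Fin (m + 1), sg i • tu (v ∘ i.succAbove) :=
  lin_single _ _

/-- the cone -/
def cone (b : V) : Om m V →ₗ[ℤ] Om (m + 1) V := lin fun v => tu (Fin.cons b v)

lemma cone_tu (b : V) (v : Fin m → V) : cone b (tu v) = tu (Fin.cons b v) := lin_single _ _

/-- the image under a map of vertices -/
def mp (f : V → V') : Om m V →ₗ[ℤ] Om m V' := lin fun v => tu (f ∘ v)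

lemma mp_tu (f : V → V') (v : Fin m → V) : mp f (tu v) = tu (f ∘ v) := lin_single _ _

/-- two linear maps on chains that agree on tuples agree -/
lemma om_ext {A : Type} [AddCommGroup A] {f g : Om m V →ₗ[ℤ] A} (h : ∀ v, f (tu v) = g (tu v))
    (c : Om m V) : f c = g c :=
  lin_ext (φ := f.toAddMonoidHom) (ψ := g.toAddMonoidHom) h c

/-- the null-homotopy of the chain map `F` by coning -/
def hom (F : ∀ m, Om m V →ₗ[ℤ] Om m V') (b : ∀ m, (Fin (m + 1) → V) → V') (m : ℕ) :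
    Om m V →ₗ[ℤ] Om (m + 1) V' :=
  Nat.rec (motive := fun m => Om m V →ₗ[ℤ] Om (m + 1) V') 0
    (fun m T => lin fun v => cone (b m v) (F (m + 1) (tu v) - T (bd (tu v)))) m

lemma hom_zero (F : ∀ m, Om m V →ₗ[ℤ] Om m V') (b : ∀ m, (Fin (m + 1) → V) → V') :
    hom F b 0 = 0 := rfl

lemma hom_tu (F : ∀ m, Om m V →ₗ[ℤ] Om m V') (b : ∀ m, (Fin (m + 1) → V) → V') (m : ℕ)
    (v : Fin (m + 1) → V) :
    hom F b (m + 1) (tu v) = cone (b m v) (F (m + 1) (tu v) - hom F b m (bd (tu v))) :=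
  lin_single _ _

/-- subdivision -/
def sd (b : ∀ m, (Fin (m + 1) → V) → V) (m : ℕ) : Om m V →ₗ[ℤ] Om m V :=
  Nat.rec (motive := fun m => Om m V →ₗ[ℤ] Om m V) LinearMap.id
    (fun m T => lin fun v => cone (b m v) (T (bd (tu v)))) m

lemma sd_zero (b : ∀ m, (Fin (m + 1) → V) → V) : sd b 0 = LinearMap.id := rfl

lemma sd_tu (b : ∀ m, (Fin (m + 1) → V) → V) (m : ℕ) (v : Fin (m + 1) → V) :
    sd b (m + 1) (tu v) = cone (b m v) (sd b m (bd (tu v))) := lin_single _ _

/-- the chains all of whose tuples satisfy `P` -/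
abbrev Sup (P : (Fin m → V) → Prop) : Submodule ℤ (Om m V) := Finsupp.supported ℤ ℤ {v | P v}

/-- realisation of tuples by singular simplices -/
structure Rl (V : Type) [TopologicalSpace V] where
  aff : ∀ {m : ℕ}, (Fin m → V) → C(Sx m, V)
  face : ∀ {m : ℕ} (v : Fin (m + 1) → V) (i : Fin (m + 1)),
    aff (v ∘ i.succAbove) = (aff v).comp (fc i)

variable [TopologicalSpace V] {E M : Type} [TopologicalSpace E] [AddCommGroup M]

/-- evaluation of a cochain on a chain of tuples, realised and mapped by `ω` -/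
def evl (r : Rl V) (φ : Co m E M) (ω : C(V, E)) : Om m V →ₗ[ℤ] M :=
  lin fun v => φ (ω.comp (r.aff v))

lemma evl_tu (r : Rl V) (φ : Co m E M) (ω : C(V, E)) (v : Fin m → V) :
    evl r φ ω (tu v) = φ (ω.comp (r.aff v)) := lin_single _ _

end Tuples

section Affine

variable {F : Type} [NormedAddCommGroup F] [NormedSpace ℝ F] {C : Set F} {m : ℕ}

/-- the affine simplex spanned by a tuple in a convex set -/
def cv (hC : Convex ℝ C) (v : Fin m → C) : C(Sx m, C) :=
  ⟨fun x => ⟨∑ i, x i • (v i : F), hC.sum_mem (fun i _ => x.2.1 i) x.2.2 fun i _ => (v i).2⟩,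
    Continuous.subtype_mk (continuous_finsetSum _ fun i _ =>
      ((continuous_apply i).comp continuous_subtype_val).smul continuous_const) _⟩

lemma cv_coe (hC : Convex ℝ C) (v : Fin m → C) (x : Sx m) :
    (cv hC v x : F) = ∑ i, x i • (v i : F) := rfl

lemma sum_map_smul {n : ℕ} (f : Fin m → Fin n) (x : Sx m) (w : Fin n → F) :
    ∑ i, stdSimplex.map f x i • w i = ∑ j, x j • w (f j) := by
  simp only [stdSimplex.map_coe, FunOnFinite.linearMap_apply_apply, Finset.sum_smul]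
  rw [← Finset.sum_fiberwise Finset.univ f]
  exact Finset.sum_congr rfl fun i _ => Finset.sum_congr rfl fun j hj => by
    rw [(Finset.mem_filter.1 hj).2]

lemma cv_face (hC : Convex ℝ C) (v : Fin (m + 1) → C) (i : Fin (m + 1)) :
    cv hC (v ∘ i.succAbove) = (cv hC v).comp (fc i) :=
  ContinuousMap.ext fun x => Subtype.ext (sum_map_smul i.succAbove x fun j => (v j : F)).symm

/-- affine simplices in a simplex -/
def rS (p : ℕ) : Rl (Sx p) := ⟨fun v => cv (convex_stdSimplex ℝ (Fin p)) v, cv_face _⟩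

/-- affine simplices in a prism -/
def rP (p : ℕ) : Rl (Sx p × I) :=
  ⟨fun v => (cv (convex_stdSimplex ℝ (Fin p)) (Prod.fst ∘ v)).prodMk
      (cv (convex_Icc (0 : ℝ) 1) (Prod.snd ∘ v)), fun v i => ContinuousMap.ext fun x =>
    Prod.ext (DFunLike.congr_fun (cv_face _ (Prod.fst ∘ v) i) x)
      (DFunLike.congr_fun (cv_face _ (Prod.snd ∘ v) i) x)⟩

/-- the vertices of the standard simplex -/
def vt (m : ℕ) : Fin m → Sx m := fun i => stdSimplex.vertex i

/-- the barycentre of a tuple -/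
def bar (p m : ℕ) (v : Fin (m + 1) → Sx p) : Sx p := (rS p).aff v stdSimplex.barycenter

/-- barycentric subdivision -/
def Sd (p m : ℕ) : Om m (Sx p) →ₗ[ℤ] Om m (Sx p) := sd (bar p) m

/-- the chain homotopy between the identity and the subdivision -/
def Td (p m : ℕ) : Om m (Sx p) →ₗ[ℤ] Om (m + 1) (Sx p) :=
  hom (fun m => LinearMap.id - Sd p m) (bar p) m

/-- the prism operator -/
def Pr (p m : ℕ) : Om m (Sx p) →ₗ[ℤ] Om (m + 1) (Sx p × I) :=
  hom (fun _ => mp (fun x => (x, (1 : I))) - mp fun x => (x, (0 : I))) (fun _ v => (v 0, 0)) m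

/-- tuples of diameter at most `d` -/
def Dia {p : ℕ} (d : ℝ) (v : Fin m → Sx p) : Prop := ∀ i j, dist (v i) (v j) ≤ d

/-- tuples in a ball of radius `d` -/
def Bal {p : ℕ} (d : ℝ) (v : Fin m → Sx p) : Prop := ∃ x, ∀ i, dist (v i) x ≤ d

end Affine

section Prism

variable {E W : Type} [TopologicalSpace E] [TopologicalSpace W] {M : Type} [AddCommGroup M] {m : ℕ}

/-- the value of a cochain on the prism over a simplex -/
def prs (φ : Co (m + 1) E M) (h : C(Sx m × I, E)) : M := evl (rP m) φ h (Pr m m (tu (vt m)))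

/-- a slice of a homotopy -/
def sl (H : C(W × I, E)) (t : I) : C(W, E) := ⟨fun x => H (x, t), by fun_prop⟩

@[simp] lemma sl_apply (H : C(W × I, E)) (t : I) (x : W) : sl H t x = H (x, t) := rfl

/-- the track of a map under a homotopy -/
def trk {Y : Type} [TopologicalSpace Y] (H : C(W × I, E)) (τ : C(Y, W)) : C(Y × I, E) :=
  ⟨fun q => H (τ q.1, q.2), by fun_prop⟩

@[simp] lemma trk_apply {Y : Type} [TopologicalSpace Y] (H : C(W × I, E)) (τ : C(Y, W))
    (q : Y × I) : trk H τ q = H (τ q.1, q.2) := rfl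

lemma prs_add (φ ψ : Co (m + 1) E M) (h : C(Sx m × I, E)) : prs (φ + ψ) h = prs φ h + prs ψ h :=
  om_ext (f := evl (rP m) (φ + ψ) h) (g := evl (rP m) φ h + evl (rP m) ψ h)
    (fun v => by simp only [LinearMap.add_apply, evl_tu, Pi.add_apply]) _

/-- the cochain homotopy of a homotopy -/
def pr (H : C(W × I, E)) : Co (m + 1) E M →+ Co m W M :=
  AddMonoidHom.mk' (fun φ τ => prs φ (trk H τ)) fun φ ψ => funext fun _ => prs_add φ ψ _

lemma pr_apply (H : C(W × I, E)) (φ : Co (m + 1) E M) (τ : C(Sx m, W)) :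
    pr H φ τ = prs φ (trk H τ) := rfl

/-- the cube as a cylinder -/
def cI (k : ℕ) : C(Cb k × I, Cb (k + 1)) := ⟨fun q => Fin.cons q.2 q.1, by fun_prop⟩

@[simp] lemma cI_apply (k : ℕ) (q : Cb k × I) : cI k q = Fin.cons q.2 q.1 := rfl

/-- the value of a cochain on the fundamental chain of the cube -/
def val (k : ℕ) : Co (k + 1) (Cb k) M →+ M :=
  Nat.rec (motive := fun k => Co (k + 1) (Cb k) M →+ M)
    (Pi.evalAddMonoidHom _ (ContinuousMap.const _ Fin.elim0)) (fun k T => T.comp (pr (cI k))) k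

lemma val_zero (φ : Co 1 (Cb 0) M) : val 0 φ = φ (ContinuousMap.const _ Fin.elim0) := rfl

lemma val_succ (k : ℕ) (φ : Co (k + 2) (Cb (k + 1)) M) : val (k + 1) φ = val k (pr (cI k) φ) := rfl

open Classical in
/-- the value of a cochain on a singular cube (junk value `0`) -/
def vl {k : ℕ} (θ : Co (k + 1) W M) (f : Cb k → W) : M :=
  if h : Continuous f then val k (pb ⟨f, h⟩ θ) else 0

lemma vl_eq {k : ℕ} (θ : Co (k + 1) W M) {f : Cb k → W} (h : Continuous f) :
    vl θ f = val k (pb ⟨f, h⟩ θ) := dif_pos h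

lemma vl_coe {k : ℕ} (θ : Co (k + 1) W M) (f : C(Cb k, W)) : vl θ f = val k (pb f θ) :=
  dif_pos f.continuous

/-- the collar of the boundary of the cube -/
def Col (k : ℕ) : Set (Cb k) := {x | ∃ i, (x i : ℝ) < 1 / 4 ∨ 3 / 4 < (x i : ℝ)}

lemma bd_subset_col (k : ℕ) : Bd k ⊆ Col k := by
  rintro x ⟨i, h | h⟩
  · exact ⟨i, Or.inl (by rw [h]; norm_num)⟩
  · exact ⟨i, Or.inr (by rw [h]; norm_num)⟩

end Prism

/-! ### The complex -/

section Complex

variable {G : Type} [Group G] {J : ℕ → Type} [Unique (J 0)]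

/-- the cells of dimension less than `k` -/
def Ek (Γ : Att G J) (k : ℕ) : Set (Tot Γ) := {p | p.pt.n < k}

/-- the open `k`-cells -/
def Ok (Γ : Att G J) (k : ℕ) : Set (Tot Γ) := {p | p.pt.n = k}

/-- the cells of dimension less than `k` together with the collars in the `k`-cells -/
def Uk (Γ : Att G J) (k : ℕ) : Set (Tot Γ) := {p | p.pt.n < k ∨ (p.pt.n = k ∧ p.pt.x ∈ Col _)}

/-- the characteristic maps -/
def chC (Γ : Att G J) (k : ℕ) (g : G) (j : J k) : C(Cb k, Tot Γ) :=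
  ⟨fun x => toTot Γ (chi Γ k g j x), Sp.continuous_chi k g j⟩

lemma chC_apply (Γ : Att G J) (k : ℕ) (g : G) (j : J k) (x : Cb k) :
    chC Γ k g j x = toTot Γ (chi Γ k g j x) := rfl

/-- the action of a subgroup -/
def sym (Γ : Att G J) (H : Subgroup G) (M : Type) [AddCommGroup M] [DistribMulAction H M] :
    Sym (Tot Γ) M :=
  ⟨H, fun h => ⟨fun p => (h : G) • p, continuous_const_smul _⟩,
    fun h => DistribSMul.toAddMonoidHom M h⟩

/-- equivariant cellular cochains -/
def CEq {X : Type} (H : Subgroup G) {M : Type} [AddCommGroup M] [DistribMulAction H M]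
    (b : G × X → M) : Prop := ∀ (h : H) (g : G) (x : X), b (h * g, x) = h • b (g, x)

/-- the equivariant map of free modules with given values on the basis -/
def ex {X Y : Type} (d : X → (G × Y →₀ ℤ)) : (G × X →₀ ℤ) →ₗ[ℤ] (G × Y →₀ ℤ) :=
  lin fun a => tl a.1 (d a.2)

/-- An algebraic `3`-complex over a presentation whose last differential is split injective. -/
structure R3 (G : Type) [Group G] (J : ℕ → Type) where
  gen : J 1 → G
  rel : J 2 → List (J 1 × Bool)
  surj : Function.Surjective (FreeGroup.lift gen)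
  ker : (FreeGroup.lift gen).ker = Subgroup.normalClosure (range fun r => FreeGroup.mk (rel r))
  d3 : J 3 → Ch G J 2
  dd : ∀ j, ex (fun r => fox gen 1 (rel r)) (d3 j) = 0
  s : J 2 → Ch G J 3
  split : ∀ j, ex s (d3 j) = Finsupp.single (1, j) 1
  fin : ∀ n, Finite (J n)
  emp : ∀ n, 3 < n → IsEmpty (J n)

/-- The attaching spheres `γ` have the homology classes `d`. -/
def HJ (Γ : Att G J) (d : J 3 → Ch G J 2) (γ : J 3 → Cb 2 → Pt G J) : Prop :=
  ∀ (W M : Type) [TopologicalSpace W] [AddCommGroup M] (F : Pt G J → W) (K K' : Set W)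
    (θ : Co 3 W M), Cts Γ 2 F → (∀ p : Pt G J, p.n ≤ 2 → F p ∈ K) →
    (∀ p : Pt G J, p.n ≤ 1 → F p ∈ K') → Z K (cob θ) → Z K' θ → ∀ j : J 3,
    vl θ (fun y => F (γ j y)) =
      lin (fun a : G × J 2 => vl θ fun y => F (chi Γ 2 a.1 a.2 y)) (d j)

/-- The first two levels of attaching maps are those of the presentation. -/
structure Low (R : R3 G J) (Γ : Att G J) : Prop where
  good : Good Γ 2
  h0 : ∀ a y, Γ 0 a y = vtx (R.gen a)⁻¹
  h1 : ∀ (g : G) r y, g • Γ 1 r y = wp R.gen (ed Γ) g (R.rel r) (y 0)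
  nul : Nul Γ 0

/-- A topological model of the algebraic complex. -/
structure Model (R : R3 G J) (Γ : Att G J) : Prop extends Low R Γ where
  all : ∀ n, Good Γ n
  hj : HJ Γ R.d3 (Γ 2)

end Complex

end Crest.Agent.R251
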