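import Crest.Agent.R251.SDefs

/-! Row 251: skeleta and open cells as subspaces. -/

set_option autoImplicit false

noncomputable section

namespace Crest.Agent.R251

open unitInterval Set _root_.Topology Crest.Agent.R185.Top

variable {G : Type} [Group G] {J : ℕ → Type} [Unique (J 0)] {Γ : Att G J} {k : ℕ}

lemma continuousOn_toSk_sk (n : ℕ) {P : Pt G J → Prop}
    (h : ∀ m ≤ n, ∀ (g : G) (j : J m), IsClosed {x | P (chi Γ m g j x)}) :
    IsClosed {p : Sk Γ n | P p.pt} := by
  change @IsClosed (Pt G J) (tau Γ n) {p | P p}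
  simp only [isClosed_iSup_iff, isClosed_coinduced]
  exact h

lemma continuousOn_toSk_cell (hΓ : ∀ n, Good Γ n) (k : ℕ) {S : Set (Sk Γ k)} (hS : IsClosed S)
    (n : ℕ) : ∀ m ≤ n, ∀ (g : G) (j : J m),
      IsClosed {x | (chi Γ m g j x).n ≤ k ∧ toSk Γ k (chi Γ m g j x) ∈ S} := by
  have hle : ∀ m ≤ k, ∀ (g : G) (j : J m),
      IsClosed {x | (chi Γ m g j x).n ≤ k ∧ toSk Γ k (chi Γ m g j x) ∈ S} := by
    intro m hm g j
    have h1 := hS.preimage (cts_toSk (Γ := Γ) (le_refl k) m hm g j)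
    convert h1 using 1
    ext x
    exact ⟨fun h => h.2, fun h => ⟨(chi_dim (hΓ m) g j x).trans hm, h⟩⟩
  induction n with
  | zero => exact fun m hm => hle m (hm.trans (Nat.zero_le _))
  | succ n ih =>
    intro m hm g j
    rcases hm.eq_or_lt with rfl | hm
    · by_cases hk : n + 1 ≤ k
      · exact hle _ hk g j
      · have h1 := continuousOn_toSk_sk (Γ := Γ) n
          (P := fun p => p.n ≤ k ∧ toSk Γ k p ∈ S) ih
        have h2 := (continuousOn_chi_bd (hΓ (n + 1)) g j).preimage_isClosed_of_isClosed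
          (isClosed_Bd _) h1
        convert h2 using 1
        ext x
        refine ⟨fun h => ⟨?_, h⟩, fun h => h.2⟩
        by_contra hx
        have h3 := h.1
        rw [chi_int _ _ hx] at h3
        exact hk h3
    · exact ih m (Nat.le_of_lt_succ hm) g j

/-- the skeleton carries the subspace topology -/
theorem continuousOn_toSk (hΓ : ∀ n, Good Γ n) (k : ℕ) :
    ContinuousOn (fun p : Tot Γ => toSk Γ k p.pt) (Ek Γ (k + 1)) := by
  refine continuousOn_iff_isClosed.2 fun S hS => ⟨{p : Tot Γ | p.pt.n ≤ k ∧ toSk Γ k p.pt ∈ S},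
    Sp.isClosed_tot fun n g j => continuousOn_toSk_cell hΓ k hS n n le_rfl g j, ?_⟩
  ext p
  exact ⟨fun h => ⟨⟨Nat.le_of_lt_succ h.2, h.1⟩, h.2⟩, fun h => ⟨h.1.2, h.2⟩⟩

lemma exists_lift_mk {p : Tot Γ} (hp : p ∈ Ok Γ k) :
    ∃ (g : G) (j : J k) (x : Cb k) (hx : x ∉ Bd k), p.pt = ⟨k, g, j, x, hx⟩ := by
  obtain ⟨n, g, j, x, hx⟩ := p
  obtain rfl : n = k := hp
  exact ⟨g, j, x, hx, rfl⟩

/-- a connected family in the open cells lies in one cell -/
theorem exists_lift (hΓ : ∀ n, Good Γ n) {Y : Type} [TopologicalSpace Y] [PreconnectedSpace Y]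
    [Nonempty Y] {ω : C(Y, Tot Γ)} (h : In (Ok Γ k) ω) :
    ∃ (g : G) (j : J k) (ω' : C(Y, Cb k)), In (Bd k)ᶜ ω' ∧ ω = (chC Γ k g j).comp ω' := by
  classical
  choose g j x hx e using fun y => exists_lift_mk (h y)
  have key : ∀ f : G → J k → Cb k → ℝ, (∀ a b, Continuous (f a b)) →
      (∀ a b, ∀ z ∈ Bd k, f a b z = 0) → Continuous fun y => f (g y) (j y) (x y) := by
    intro f hc hb
    refine ((Sp.continuous_ext hΓ (Sp.cts_cf hΓ k hc hb)).comp ω.continuous).congr fun y => ?_
    simp only [Function.comp_apply]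
    rw [e y, Sp.ext_of_le hΓ (n := k) _ (p := ⟨k, g y, j y, x y, hx y⟩) le_rfl, Sp.cf_mk]
  obtain ⟨y₀⟩ := ‹Nonempty Y›
  have hb : Continuous fun y => Sp.bump (x y) :=
    key (fun _ _ z => Sp.bump z) (fun _ _ => Sp.continuous_bump) fun _ _ _ hz => Sp.bump_bd hz
  have hi : Continuous fun y => if g y = g y₀ ∧ j y = j y₀ then Sp.bump (x y) else 0 :=
    key (fun a b z => if a = g y₀ ∧ b = j y₀ then Sp.bump z else 0)
      (fun a b => by
        split_ifs
        · exact Sp.continuous_bump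
        · exact continuous_const)
      fun _ _ _ hz => by rw [Sp.bump_bd hz, ite_self]
  have hcl : IsClopen {y | g y = g y₀ ∧ j y = j y₀} := by
    constructor
    · convert isClosed_eq hi hb using 1
      ext y
      simp only [mem_setOf_eq]
      refine ⟨fun hy => if_pos hy, fun hy => ?_⟩
      by_contra hn
      rw [if_neg hn] at hy
      exact (Sp.bump_pos (hx y)).ne hy
    · convert isOpen_lt (continuous_const (y := (0 : ℝ))) hi using 1
      ext y
      simp only [mem_setOf_eq]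
      refine ⟨fun hy => by rw [if_pos hy]; exact Sp.bump_pos (hx y), fun hy => ?_⟩
      by_contra hn
      rw [if_neg hn] at hy
      exact lt_irrefl _ hy
  have hall : ∀ y, g y = g y₀ ∧ j y = j y₀ := fun y =>
    (hcl.eq_univ ⟨y₀, rfl, rfl⟩).ge (mem_univ y)
  have hxc : Continuous x := continuous_pi fun i => by
    have h1 : Continuous fun y => (x y i : ℝ) * Sp.bump (x y) :=
      key (fun _ _ z => (z i : ℝ) * Sp.bump z)
        (fun _ _ => (continuous_subtype_val.comp (continuous_apply i)).mul Sp.continuous_bump)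
        fun _ _ _ hz => by rw [Sp.bump_bd hz, mul_zero]
    refine continuous_induced_rng.2 ((h1.div hb fun y => (Sp.bump_pos (hx y)).ne').congr fun y => ?_)
    exact mul_div_cancel_right₀ _ (Sp.bump_pos (hx y)).ne'
  refine ⟨g y₀, j y₀, ⟨x, hxc⟩, hx, ContinuousMap.ext fun y => ?_⟩
  change ω y = toTot Γ (chi Γ k (g y₀) (j y₀) (x y))
  rw [chi_int _ _ (hx y), ← (hall y).1, ← (hall y).2, ← e y, toTot_pt]

end Crest.Agent.R251
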