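import Crest.Agent.R251.SSmall

/-! Row 251: excision. -/

set_option autoImplicit false

noncomputable section

namespace Crest.Agent.R251

open unitInterval Set _root_.Topology Crest.Agent.R185.Top

variable {E M : Type} [TopologicalSpace E] [AddCommGroup M] {m : ℕ} {S : Sym E M} {A B C : Set E}

theorem exc (hc : Cov C A B) (hA : S.Inv A) (hB : S.Inv B) {φ : Co (m + 1) E M} (hφ : S.Eqv φ)
    (hC : Z C (cob φ)) (h₁ : Z A φ) {γ : Co m E M} (hγ : S.Eqv γ) (h₂ : Z (A ∩ B) γ)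
    (h₃ : Z B (φ - cob γ)) : ∃ ψ : Co m E M, S.Eqv ψ ∧ Z A ψ ∧ Z C (φ - cob ψ) := by
  have e : Z B (φ - cob (res B γ)) :=
    (h₃.add (z_sub_res B γ).cob).congr (by rw [map_sub]; abel)
  obtain ⟨ψ, a1, a2, -, a4⟩ := small hc hA hB (hφ.sub (hγ.res hB).cob)
    (by rwa [map_sub, cob_cob, sub_zero]) (h₁.sub h₂.res.cob) e
  exact ⟨res B γ + ψ, (hγ.res hB).add a1, h₂.res.add a2, by rwa [map_add, ← sub_sub]⟩

theorem Van.exc (hc : Cov C A B) (hA : S.Inv A) (hB : S.Inv B) (h : Van S m B (A ∩ B)) :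
    Van S m C A := by
  intro φ hφ hC h₁
  obtain ⟨γ, a1, a2, a3⟩ := h φ hφ (hC.mono hc.right) (h₁.mono inter_subset_left)
  exact R251.exc hc hA hB hφ hC h₁ a1 a2 a3

/-- extension of a relative cocycle -/
theorem ext_cocycle (hc : Cov C A B) (hA : S.Inv A) (hB : S.Inv B) {θ : Co m E M} (hθ : S.Eqv θ)
    (h₁ : Z B (cob θ)) (h₂ : Z (A ∩ B) θ) :
    ∃ θ' : Co m E M, S.Eqv θ' ∧ Z C (cob θ') ∧ Z A θ' ∧ Z B (θ - θ') := by
  have e : Z B (cob (res B θ)) := (h₁.sub (z_sub_res B θ).cob).congr (by rw [map_sub]; abel)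
  obtain ⟨ψ, a1, a2, a3, a4⟩ := small hc hA hB (hθ.res hB).cob
    (by rw [cob_cob]; exact Z.zero _) h₂.res.cob e
  exact ⟨res B θ - ψ, (hθ.res hB).sub a1, by rwa [map_sub], h₂.res.sub a2,
    ((z_sub_res B θ).add a3).congr (by abel)⟩

end Crest.Agent.R251
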