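import Crest.Agent.R251.SLocB

/-! Row 251: the cohomology of the cube relative to its collar. -/

set_option autoImplicit false

noncomputable section

namespace Crest.Agent.R251

open unitInterval Set _root_.Topology Crest.Agent.R185.Top

variable {M : Type} [AddCommGroup M]

lemma loc_van_inj_top {k m : ℕ} {β : Co m (Cb (k + 1)) M} (h : Z (Jc k) β) :
    pb (sl (cI k) 1) β = 0 := by
  refine z_univ.1 (h.pb _ fun x _ => Or.inr ?_)
  change (3 / 4 : ℝ) < (((Fin.cons 1 x : Cb (k + 1)) 0 : I) : ℝ)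
  rw [Fin.cons_zero]
  norm_num

lemma loc_van_inj_bot {k m : ℕ} {β : Co m (Cb (k + 1)) M} (h : Z (Jc k) β) :
    Z (Col k) (pb (sl (cI k) 0) β) := by
  refine h.pb _ fun x hx => Or.inl ?_
  change Fin.tail (Fin.cons 0 x : Cb (k + 1)) ∈ Col k
  rwa [Fin.tail_cons]

lemma loc_van_inj_cob {k m : ℕ} {β : Co m (Cb (k + 1)) M} (h : Z (Col (k + 1)) (cob β)) :
    cob (pb (sl (cI k) 0) β) = 0 := by
  rw [← pb_cob]
  exact z_univ.1 (h.pb _ fun x _ => (cov_col k).right (susp_up_bot x))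

lemma loc_van_inj_val {k : ℕ} {β : Co (k + 1) (Cb (k + 1)) M} (h : Z (Jc k) β) :
    val (k + 1) (cob β) = -val k (pb (sl (cI k) 0) β) := by
  rw [stokes_succ (h.mono fun x hx => Or.inl (bd_subset_col k hx)), loc_van_inj_top h, map_zero,
    zero_sub]

lemma loc_van_inj_prim {k m : ℕ} {φ : Co (m + 1) (Cb (k + 1)) M} (hc : cob φ = 0)
    (h : Z (Col (k + 1)) φ) : ∃ β : Co m (Cb (k + 1)) M, Z (Jc k) β ∧ cob β = φ := by
  obtain ⟨β, -, a1, a2⟩ := van_Jc (M := M) k m φ (Sym.eqv_triv _) (z_univ.2 hc)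
    (h.mono (cov_col k).left)
  exact ⟨β, a1, (sub_eq_zero.1 (z_univ.1 a2)).symm⟩

theorem loc_van_inj (k : ℕ) : (∀ m, m ≠ k → Van (Sym.triv _ M) m univ (Col k)) ∧
    ∀ φ : Co (k + 1) (Cb k) M, cob φ = 0 → Z (Col k) φ → val k φ = 0 →
      ∃ β : Co k (Cb k) M, Z (Col k) β ∧ cob β = φ := by
  induction k with
  | zero =>
    refine ⟨fun m hm => ?_, fun φ _ _ h => ⟨0, Z.zero _, by rw [map_zero, inj_pt h]⟩⟩
    obtain ⟨m, rfl⟩ := Nat.exists_eq_succ_of_ne_zero hm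
    rw [col_zero]
    exact van_pt m
  | succ k ih =>
    refine ⟨fun m hm φ _ hc h => ?_, fun φ hc h hv => ?_⟩
    · obtain ⟨β, a1, rfl⟩ := loc_van_inj_prim (z_univ.1 hc) h
      cases m with
      | zero => exact ⟨β, Sym.eqv_triv _, z_univ.2 a1.nil |>.mono (subset_univ _), by
          rw [sub_self]; exact Z.zero _⟩
      | succ m =>
        obtain ⟨γ, -, b1, b2⟩ := ih.1 m (fun e => hm (by rw [e])) (pb (sl (cI k) 0) β)
          (Sym.eqv_triv _) (z_univ.2 (loc_van_inj_cob h)) (loc_van_inj_bot a1)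
        obtain ⟨ψ, c1, c2⟩ := susp_up a1 h b1 (sub_eq_zero.1 (z_univ.1 b2))
        exact ⟨ψ, Sym.eqv_triv _, c1, by rw [c2, sub_self]; exact Z.zero _⟩
    · obtain ⟨β, a1, rfl⟩ := loc_van_inj_prim hc h
      rw [loc_van_inj_val a1, neg_eq_zero] at hv
      obtain ⟨γ, b1, b2⟩ := ih.2 _ (loc_van_inj_cob h) (loc_van_inj_bot a1) hv
      exact susp_up a1 h b1 b2.symm

theorem loc_surj (k : ℕ) (μ : M) :
    ∃ θ : Co (k + 1) (Cb k) M, cob θ = 0 ∧ Z (Col k) θ ∧ val k θ = μ := by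
  induction k generalizing μ with
  | zero =>
    obtain ⟨θ, a1, a2⟩ := surj_pt μ
    exact ⟨θ, a1, by rw [col_zero]; exact z_empty θ, a2⟩
  | succ k ih =>
    obtain ⟨θ, a1, a2, a3⟩ := ih (-μ)
    obtain ⟨β, b1, b2, b3⟩ := susp_ext a1 a2
    exact ⟨cob β, cob_cob β, b2, by rw [loc_van_inj_val b1, b3, a3, neg_neg]⟩

end Crest.Agent.R251
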