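import Crest.Agent.R251.SGlue
import Crest.Agent.R251.SLoc

/-! Row 251: the cohomology of consecutive skeleta. -/

set_option autoImplicit false

noncomputable section

namespace Crest.Agent.R251

open unitInterval Set _root_.Topology Crest.Agent.R185.Top

variable {G : Type} [Group G] {J : ℕ → Type} [Unique (J 0)] {Γ : Att G J} {k m : ℕ}
  {H : Subgroup G} {M : Type} [AddCommGroup M] [DistribMulAction H M]

theorem cell_van_aux (hΓ : ∀ n, Good Γ n) {φ : Co (m + 1) (Tot Γ) M} (hφ : (sym Γ H M).Eqv φ)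
    (h1 : Z (Ek Γ (k + 1)) (cob φ)) (h2 : Z (Uk Γ k) φ)
    (hex : ∀ g j, ∃ b : Co m (Cb k) M, Z (Col k) b ∧ Z univ (pb (chC Γ k g j) φ - cob b)) :
    ∃ ψ : Co m (Tot Γ) M, (sym Γ H M).Eqv ψ ∧ Z (Uk Γ k) ψ ∧ Z (Ek Γ (k + 1)) (φ - cob ψ) := by
  obtain ⟨β, hβ, he⟩ := eq_choice (H := H)
    (fun g j (b : Co m (Cb k) M) => Z (Col k) b ∧ Z univ (pb (chC Γ k g j) φ - cob b))
    (fun h g j b hb => ⟨hb.1.po (DistribSMul.toAddMonoidHom M h),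
      (hb.2.po (DistribSMul.toAddMonoidHom M h)).congr (by
        rw [map_sub, po_cob, ← sym_chC (M := M)]
        exact congrArg₂ (· - ·) (funext fun ω => (hφ h _).symm) rfl)⟩) hex
  obtain ⟨b, b1, b2, b3⟩ := exists_glue β (fun g j => (hβ g j).1) he hΓ
  refine exc (cov_cell hΓ k) (inv_Uk k) (inv_Ok k) hφ h1 h2 b1 b2 (z_Ok hΓ fun g j => ?_)
  exact (((hβ g j).2.mono (subset_univ _)).sub (b3 g j).cob).congr
    (by rw [map_sub, map_sub, pb_cob]; abel)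

omit [DistribMulAction H M] in
theorem cell_van_loc (hΓ : ∀ n, Good Γ n) {φ : Co m (Tot Γ) M}
    (h1 : Z (Ek Γ (k + 1)) (cob φ)) (h2 : Z (Uk Γ k) φ) (g : G) (j : J k) :
    Z univ (cob (pb (chC Γ k g j) φ)) ∧ Z (Col k) (pb (chC Γ k g j) φ) :=
  ⟨h1.pb (chC Γ k g j) fun x _ => chC_mem_Ek hΓ g j x,
    h2.pb _ fun x hx => (chC_mem_Uk hΓ g j x).2 hx⟩

theorem cell_van (hΓ : ∀ n, Good Γ n) (h : m ≠ k) :
    Van (sym Γ H M) m (Ek Γ (k + 1)) (Ek Γ k) := by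
  refine Van.trans (fun φ hφ h1 h2 => cell_van_aux hΓ hφ h1 h2 fun g j => ?_) (van_Uk hΓ k m)
    Ek_subset_Uk (cov_cell hΓ k).left
  obtain ⟨b, -, hb⟩ := (loc_van_inj k).1 m h _ (Sym.eqv_triv _) (cell_van_loc hΓ h1 h2 g j).1
    (cell_van_loc hΓ h1 h2 g j).2
  exact ⟨b, hb⟩

theorem cell_inj (hΓ : ∀ n, Good Γ n) {φ : Co (k + 1) (Tot Γ) M} (hφ : (sym Γ H M).Eqv φ)
    (h1 : Z (Ek Γ (k + 1)) (cob φ)) (h2 : Z (Ek Γ k) φ)
    (h3 : ∀ g j, val k (pb (chC Γ k g j) φ) = 0) :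
    ∃ β : Co k (Tot Γ) M, (sym Γ H M).Eqv β ∧ Z (Ek Γ k) β ∧ Z (Ek Γ (k + 1)) (φ - cob β) := by
  obtain ⟨ψ₁, e₁, a₁, b₁⟩ := van_Uk hΓ k k φ hφ (h1.mono (cov_cell hΓ k).left) h2
  have hc : Z (Ek Γ (k + 1)) (cob (φ - cob ψ₁)) := by rwa [map_sub, cob_cob, sub_zero]
  obtain ⟨ψ₂, e₂, a₂, b₂⟩ := cell_van_aux hΓ (hφ.sub e₁.cob) hc b₁ fun g j => by
    obtain ⟨b, hb, e⟩ := (loc_van_inj k).2 _ (z_univ.1 (cell_van_loc hΓ hc b₁ g j).1)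
      (cell_van_loc hΓ hc b₁ g j).2 (by
        rw [map_sub, map_sub, h3, pb_cob, stokes (a₁.pb _ fun x hx => chC_bd hΓ g j hx), sub_zero])
    exact ⟨b, hb, z_univ.2 (by rw [e, sub_self])⟩
  exact ⟨ψ₁ + ψ₂, e₁.add e₂, a₁.add (a₂.mono Ek_subset_Uk), by rwa [map_add, ← sub_sub]⟩

end Crest.Agent.R251
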