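import Crest.Agent.R251.SCell

/-! Row 251: gluing cochains on the cells. -/

set_option autoImplicit false

noncomputable section

namespace Crest.Agent.R251

open unitInterval Set _root_.Topology Crest.Agent.R185.Top

variable {G : Type} [Group G] {J : ℕ → Type} [Unique (J 0)] {Γ : Att G J} {k m : ℕ}
  {H : Subgroup G} {M : Type} [AddCommGroup M] [DistribMulAction H M]

/-- equivariant choice -/
theorem eq_choice {X T : Type} [MulAction H T] (P : G → X → T → Prop)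
    (hP : ∀ (h : H) g x t, P g x t → P (h * g) x (h • t)) (hex : ∀ g x, ∃ t, P g x t) :
    ∃ β : G → X → T, (∀ g x, P g x (β g x)) ∧ ∀ (h : H) g x, β (h * g) x = h • β g x := by
  choose t ht using hex
  obtain ⟨rep, h1, h2⟩ : ∃ rep : G → G, (∀ g, g * (rep g)⁻¹ ∈ H) ∧
      ∀ (h : H) g, rep (h * g) = rep g := by
    refine ⟨fun g => (Quotient.mk (QuotientGroup.rightRel H) g).out, fun g => ?_, fun h g => ?_⟩
    · exact QuotientGroup.rightRel_apply.1 (Quotient.mk_out (s := QuotientGroup.rightRel H) g)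
    · refine congrArg Quotient.out (Quotient.sound (s := QuotientGroup.rightRel H) ?_)
      refine QuotientGroup.rightRel_apply.2 ?_
      simp
  refine ⟨fun g x => (⟨g * (rep g)⁻¹, h1 g⟩ : H) • t (rep g) x, fun g x => ?_, fun h g x => ?_⟩
  · simpa using hP ⟨g * (rep g)⁻¹, h1 g⟩ (rep g) x _ (ht (rep g) x)
  · have e : (⟨h * g * (rep (h * g))⁻¹, h1 (h * g)⟩ : H) = h * ⟨g * (rep g)⁻¹, h1 g⟩ :=
      Subtype.ext (by simp [h2, mul_assoc])
    beta_reduce
    rw [e, mul_smul, h2]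

theorem exists_glue_uniq {Y : Type} [TopologicalSpace Y] [Nonempty Y] {g g' : G} {j j' : J k}
    {ω ω' : C(Y, Cb k)} (h : In (Bd k)ᶜ ω) (h' : In (Bd k)ᶜ ω')
    (e : (chC Γ k g j).comp ω = (chC Γ k g' j').comp ω') : g = g' ∧ j = j' ∧ ω = ω' := by
  have key : ∀ y, g = g' ∧ j = j' ∧ ω y = ω' y := fun y => by
    have e1 : chi Γ k g j (ω y) = chi Γ k g' j' (ω' y) := DFunLike.congr_fun e y
    rw [chi_int g j (h y), chi_int g' j' (h' y)] at e1
    simpa only [Pt.mk.injEq, heq_eq_eq, true_and] using e1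
  obtain ⟨y⟩ := ‹Nonempty Y›
  exact ⟨(key y).1, (key y).2.1, ContinuousMap.ext fun z => (key z).2.2⟩

theorem exists_glue (β : G → J k → Co m (Cb k) M) (hβ : ∀ g j, Z (Col k) (β g j))
    (he : ∀ (h : H) g j, β (h * g) j = h • β g j) (hΓ : ∀ n, Good Γ n) :
    ∃ b : Co m (Tot Γ) M, (sym Γ H M).Eqv b ∧ Z (Uk Γ k ∩ Ok Γ k) b ∧
      ∀ g j, Z (Bd k)ᶜ (pb (chC Γ k g j) b - β g j) := by
  classical
  cases m with
  | zero =>
    exact ⟨0, Sym.Eqv.zero, Z.zero _, fun g j => by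
      rw [(hβ g j).nil, map_zero, sub_zero]; exact Z.zero _⟩
  | succ m =>
    let L : C(Sx (m + 1), Tot Γ) → Prop := fun ω => ∃ q : G × J k × C(Sx (m + 1), Cb k),
      In (Bd k)ᶜ q.2.2 ∧ ω = (chC Γ k q.1 q.2.1).comp q.2.2
    obtain ⟨b, hb, hb0⟩ : ∃ b : Co (m + 1) (Tot Γ) M,
        (∀ g j ω, In (Bd k)ᶜ ω → b ((chC Γ k g j).comp ω) = β g j ω) ∧ ∀ ω, ¬ L ω → b ω = 0 := by
      refine ⟨fun ω => if h : L ω then β h.choose.1 h.choose.2.1 h.choose.2.2 else 0,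
        fun g j ω hω => ?_, fun ω hω => dif_neg hω⟩
      have h : L ((chC Γ k g j).comp ω) := ⟨(g, j, ω), hω, rfl⟩
      obtain ⟨e1, e2, e3⟩ := exists_glue_uniq hω h.choose_spec.1 h.choose_spec.2
      simp only [dif_pos h]
      rw [← e1, ← e2, ← e3]
    refine ⟨b, fun (h : H) ω => ?_, fun ω hω => ?_, fun g j ω hω => ?_⟩
    · by_cases hL : L ω
      · obtain ⟨⟨g, j, ω'⟩, h1, rfl⟩ := hL
        rw [← ContinuousMap.comp_assoc, sym_chC, hb _ _ _ h1, hb _ _ _ h1, he]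
        rfl
      · rw [hb0 ω hL, map_zero]
        refine hb0 _ ?_
        rintro ⟨⟨g, j, ω'⟩, h1, h2⟩
        refine hL ⟨((h⁻¹ : H) * g, j, ω'), h1, ?_⟩
        rw [← sym_chC (M := M), ContinuousMap.comp_assoc, ← h2]
        exact ContinuousMap.ext fun x => (inv_smul_smul (h : G) (ω x)).symm
    · by_cases hL : L ω
      · obtain ⟨⟨g, j, ω'⟩, h1, rfl⟩ := hL
        rw [hb _ _ _ h1]
        exact hβ g j ω' fun x => (chC_mem_Uk hΓ g j _).1 (hω x).1
      · exact hb0 ω hL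
    · rw [Pi.sub_apply, pb_apply, hb _ _ _ hω, sub_self]

/-- a cochain that vanishes on each open cell vanishes on their union -/
theorem z_Ok (hΓ : ∀ n, Good Γ n) {φ : Co (m + 1) (Tot Γ) M}
    (h : ∀ g j, Z (Bd k)ᶜ (pb (chC Γ k g j) φ)) : Z (Ok Γ k) φ := by
  intro ω hω
  obtain ⟨g, j, ω', h1, rfl⟩ := exists_lift hΓ hω
  exact h g j ω' h1

end Crest.Agent.R251
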