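import Crest.Agent.R251.SDefs

/-! Row 251: the Cayley complex. -/

set_option autoImplicit false

noncomputable section

namespace Crest.Agent.R251

open unitInterval Set _root_.Topology Crest.Agent.R185.Top

variable {G : Type} [Group G] {J : ℕ → Type} [Unique (J 0)]

open Crest.Agent.Lib.TwoComplex in
theorem exists_low (R : R3 G J) : ∃ (γ₀ : J 1 → Cb 0 → Pt G J) (γ₁ : J 2 → Cb 1 → Pt G J),
    ∀ Γ : Att G J, Γ 0 = γ₀ → Γ 1 = γ₁ → Low R Γ := by
  let Γ₀ : Att G J := fun n => match n with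
    | 0 => fun a _ => vtx (R.gen a)⁻¹
    | _ + 1 => fun _ _ => vtx 1
  refine ⟨Γ₀ 0, fun r y => wp R.gen (ed Γ₀) 1 (R.rel r) (y 0), fun Γ e0 e1 => ?_⟩
  have h0 : ∀ a y, Γ 0 a y = vtx (R.gen a)⁻¹ := fun a y => by rw [e0]
  have hed : ed Γ₀ = ed Γ := by
    funext g a t
    by_cases hx : (fun _ => t) ∈ Bd 1
    · by_cases ht : t = 0
      · rw [ed, ed, chi_bot g a ht, chi_bot g a ht, e0]
      · rw [ed, ed, chi_side' g a hx ht, chi_side' g a hx ht]
    · rw [ed, ed, chi_int g a hx, chi_int g a hx]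
  have h1 : ∀ (g : G) r y, g • Γ 1 r y = wp R.gen (ed Γ) g (R.rel r) (y 0) := fun g r y => by
    rw [e1, hed, smul_wp, mul_one]
  have hrel : ∀ r, ev R.gen (R.rel r) = 1 := fun r =>
    MonoidHom.mem_ker.1 (R.ker ▸ Subgroup.subset_normalClosure ⟨r, rfl⟩)
  have hΓ : Good Γ 2 := by
    intro k hk
    rcases (Nat.le_of_lt_succ hk).eq_or_lt with rfl | hk'
    · have h2 : ∀ r y, Γ 1 r y = wp R.gen (ed Γ) 1 (R.rel r) (y 0) := fun r y => by
        rw [← h1, one_smul]
      refine ⟨fun r => ?_, fun r y ⟨i, hi⟩ => ?_, fun r y => ?_⟩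
      · simp only [h2]
        exact (continuous_wp h0 1 _).comp (continuous_apply 0)
      · obtain rfl : i = 0 := Subsingleton.elim _ _
        rcases hi with hi | hi
        · rw [h2, hi, wp_zero h0]
        · rw [h2, hi, wp_one, hrel, mul_one]
      · rw [h2]; exact wp_dim h0 _ _ _
    · exact good_one h0 k hk'
  refine ⟨hΓ, h0, h1, ?_⟩
  let z₀ := toSk Γ 2 (vtx 1)
  -- relator loops bound
  have hnull : ∀ g r, cl z₀ (wP h0 g (R.rel r)) = 1 := by
    intro g r
    let p : Path (toSk Γ 2 (vtx g)) (toSk Γ 2 (vtx g)) :=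
      mkP (to2 (continuous_wp h0 g (R.rel r))) (wp_zero h0 _ _) (by rw [wp_one, hrel, mul_one])
    rw [cl_ext z₀ (p := wP h0 g (R.rel r)) (q := p) fun _ => rfl, ← cl_refl z₀ (toSk Γ 2 (vtx g))]
    refine cl_congr z₀ ⟨⟨⟨⟨fun x => toSk Γ 2 (chi Γ 2 g r (Fin.cons x.1 fun _ => x.2)),
      (cts_toSk le_rfl 2 le_rfl g r).comp (continuous_cons continuous_fst
        (continuous_pi fun _ => continuous_snd))⟩, fun t => ?_, fun t => ?_⟩, fun s t ht => ?_⟩⟩
    · exact (chi_cons_zero g r _).trans (h1 g r _)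
    · exact chi_top g r rfl
    · refine (chi_side hΓ g r (x := Fin.cons s fun _ => t) ⟨0, ht⟩).trans ?_
      rcases ht with rfl | rfl
      · exact p.source.symm
      · exact p.target.symm
  have hker : (FreeGroup.lift R.gen).ker ≤ (FreeGroup.lift fun a => (thP h0 z₀ a)⁻¹).ker := by
    rw [R.ker]
    refine Subgroup.normalClosure_le_normal ?_
    rintro _ ⟨r, rfl⟩
    refine MonoidHom.mem_ker.2 (inv_eq_one.1 (Equiv.ext fun x => ?_))
    rw [lift_thP, hnull, hrel, mul_one, mul_one]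
    rfl
  have hind : ∀ g w w', ev R.gen w = ev R.gen w' → cl z₀ (wP h0 g w) = cl z₀ (wP h0 g w') := by
    intro g w w' e
    have h2 := MonoidHom.eq_iff _ |>.2 (hker ((MonoidHom.eq_iff _).1 e))
    have h3 := lift_thP h0 z₀ w g 1
    rw [h2, lift_thP, one_mul, one_mul] at h3
    exact (Prod.mk.inj h3).2.symm
  have hσ : ∀ g : G, ∃ w, g * ev R.gen w = 1 := fun g => by
    obtain ⟨⟨w⟩, hw⟩ := R.surj g⁻¹
    exact ⟨w, mul_eq_one_iff_eq_inv'.2 hw⟩
  choose s hs using hσ
  let P : ∀ g : G, Path (toSk Γ 2 (vtx g)) z₀ := fun g =>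
    mkP (to2 (continuous_wp h0 g (s g))) (wp_zero h0 _ _) (by rw [wp_one, hs])
  let E : ∀ (g : G) (a : J 1), Path (toSk Γ 2 (vtx (g * (R.gen a)⁻¹))) (toSk Γ 2 (vtx g)) :=
    fun g a => mkP (to2 (continuous_ed g a)) (ed_zero h0 g a) (ed_one g a)
  have hsq : ∀ g a, ((E g a).trans (P g)).Homotopic
      ((P (g * (R.gen a)⁻¹)).trans (Path.refl z₀)) := by
    intro g a
    obtain ⟨u, rfl⟩ : ∃ u, g = u * R.gen a := ⟨g * (R.gen a)⁻¹, by simp⟩
    refine cl_inj z₀ ⟨(P _).symm⟩ ?_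
    rw [cl_trans, cl_trans, cl_refl, mul_one,
      cl_ext z₀ (p := E _ a) (q := stP h0 u (a, true)) fun _ => rfl,
      cl_ext z₀ (p := P (u * R.gen a)) (q := wP h0 (u * lv R.gen (a, true)) _) fun _ => rfl,
      ← cl_wP_cons, hind u _ (s u), mul_inv_cancel_right]
    · exact cl_ext z₀ (p := wP h0 u (s u)) (q := P u) fun _ => rfl
    · rw [ev_cons]
      refine mul_left_cancel (a := u) ?_
      rw [hs, ← mul_assoc]
      exact hs _
  choose S hS0 hS1 hSl hSr using fun g a => exists_square _ _ _ _ (hsq g a)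
  obtain ⟨N, hNl, hNc⟩ := exists_ext (good_one h0) (fun p t => P p.g t)
    (fun g a x t => S g a (t, x 0)) fun g a x ⟨i, hi⟩ => by
      obtain rfl : i = 0 := Subsingleton.elim (α := Fin 1) _ _
      funext t
      rcases hi with hi | hi
      · rw [hi, hSl, chi_bot g a hi, h0, smul_vtx, vtx_g]
      · rw [hi, hSr, chi_top g a hi, vtx_g]
  refine ⟨N, CtsH.succ (fun _ hk => absurd hk (Nat.not_lt_zero _)) (K := fun p t => P p.g t)
    (fun k hk g j => ?_) hNl fun g a => ?_, fun p hp => ?_, fun p hp t => ?_⟩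
  · obtain rfl : k = 0 := Nat.le_zero.1 hk
    exact (P g).continuous.comp continuous_snd
  · simp only [hNc]
    fun_prop
  · rcases cases_succ Γ hp with hp | ⟨g, a, x, rfl⟩
    · simp only [hNl p hp, Path.source, Path.target]
      exact ⟨(eq_vtx (Nat.le_zero.1 hp)).symm, rfl⟩
    · simp only [hNc, hS0, hS1]
      exact ⟨congrArg (chi Γ 1 g a) (funext fun i => by
        rw [Subsingleton.elim (α := Fin 1) i 0]), rfl⟩
  · rw [hNl p hp]
    exact wp_dim h0 _ _ _

theorem ex_single {X Y : Type} (d : X → (G × Y →₀ ℤ)) (g : G) (x : X) :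
    ex d (Finsupp.single (g, x) 1) = tl g (d x) := lin_single _ _

theorem ex_tl {X Y : Type} (d : X → (G × Y →₀ ℤ)) (g : G) (c : G × X →₀ ℤ) :
    ex d (tl g c) = tl g (ex d c) := by
  induction c using Finsupp.induction_linear with
  | zero => simp
  | add f f' hf hf' => simp only [Finsupp.mapDomain_add, map_add, hf, hf']
  | single x n =>
    rw [← mul_one n, ← smul_eq_mul, ← Finsupp.smul_single]
    simp only [tl, Finsupp.mapDomain_smul, map_zsmul, Finsupp.mapDomain_single]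
    obtain ⟨k, x⟩ := x
    simp only [ex_single, tl, ← Finsupp.mapDomain_comp, Function.comp_def, mul_assoc]

theorem lin_tl {X A : Type} [AddCommGroup A] (b : G × X → A) (g : G) (c : G × X →₀ ℤ) :
    lin b (tl g c) = lin (fun a => b (g * a.1, a.2)) c := by
  exact Finsupp.linearCombination_mapDomain ℤ (fun x : G × X => (g * x.1, x.2)) c

theorem lin_ex {X Y A : Type} [AddCommGroup A] (b : G × Y → A) (d : X → (G × Y →₀ ℤ))
    (c : G × X →₀ ℤ) : lin b (ex d c) = lin (fun a => lin b (tl a.1 (d a.2))) c := by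
  exact map_lin (lin b).toAddMonoidHom (fun a : G × X => tl a.1 (d a.2)) c

theorem CEq.lin_tl {X Y : Type} {H : Subgroup G} {M : Type} [AddCommGroup M]
    [DistribMulAction H M] {b : G × Y → M} (hb : CEq H b) (d : X → (G × Y →₀ ℤ)) :
    CEq H fun a : G × X => lin b (tl a.1 (d a.2)) := by
  intro h g x
  have e := map_lin (DistribSMul.toAddMonoidHom M h) (fun a : G × Y => b (g * a.1, a.2)) (d x)
  simp only [DistribSMul.toAddMonoidHom_apply] at e
  simp only [R251.lin_tl, e, mul_assoc, hb h]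

end Crest.Agent.R251
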