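import Crest.Agent.R251.SWP
import Crest.Agent.R251.SLow

/-! Row 251: attaching spheres with given homology classes. -/

set_option autoImplicit false

noncomputable section

namespace Crest.Agent.R251

open unitInterval Set _root_.Topology Crest.Agent.R185.Top

variable {G : Type} [Group G] {J : ℕ → Type} [Unique (J 0)]

theorem exists_hj_pr {W E M : Type} [TopologicalSpace W] [TopologicalSpace E] [AddCommGroup M]
    {k : ℕ} (H : C(W × I, E)) (θ : Co (k + 2) E M) {f : Cb k → W} (hf : Continuous f) :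
    vl (pr H θ) f = vl θ fun z : Cb (k + 1) => H (f (Fin.tail z), z 0) := by
  have hu : Continuous fun z : Cb (k + 1) => H (f (Fin.tail z), z 0) := by fun_prop
  rw [vl_eq _ hf, vl_eq _ hu, val_succ, pb_pr, pr_pb]
  congr 3

theorem exists_hj_edge {R : R3 G J} {Γ : Att G J} (h : Low R Γ) {M : Type} [AddCommGroup M]
    {th : Co 3 (Sk Γ 2) M} (h2 : Z {p : Sk Γ 2 | p.pt.n ≤ 2} (cob th))
    (h1 : Z {p : Sk Γ 2 | p.pt.n ≤ 1} th) {H : Pt G J → I → Sk Γ 2} (hH : CtsH Γ 2 H)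
    (hH0 : ∀ p : Pt G J, p.n ≤ 2 → H p 0 = toSk Γ 2 p)
    (hH1 : ∀ p : Pt G J, p.n ≤ 1 → H p 1 = toSk Γ 2 (vtx 1))
    (hHd : ∀ p : Pt G J, p.n ≤ 0 → ∀ t, (H p t).pt.n ≤ 1)
    (hH2 : ∀ p : Pt G J, p.n ≤ 2 → ∀ t, (H p t).pt.n ≤ 2) :
    ∃ c : G × J 1 → M, ∀ (g : G) (w : List (J 1 × Bool)),
      vl th (fun z : Cb 2 => H (wp R.gen (ed Γ) g w (Fin.tail z 0)) (z 0)) =
        lin c (fox R.gen g w) := by
  classical
  have hΓ1 : Good Γ 1 := h.good.mono one_le_two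
  let W1 := {p : Sk Γ 1 // p.pt.n ≤ 1}
  let H1 : C(W1 × I, Sk Γ 2) := ⟨fun q => H q.1.1.pt q.2,
    CtsH.comp hΓ1 (hH.mono one_le_two) (γ := fun q : W1 × I => q.1.1.pt)
      (continuous_subtype_val.comp continuous_fst) (fun q => q.1.2) continuous_snd⟩
  let F1 : Pt G J → W1 := fun p =>
    if hp : p.n ≤ 1 then ⟨toSk Γ 1 p, hp⟩ else ⟨toSk Γ 1 (vtx 1), Nat.zero_le _⟩
  have hF1 : ∀ (p : Pt G J) (hp : p.n ≤ 1), F1 p = ⟨toSk Γ 1 p, hp⟩ := fun p hp => dif_pos hp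
  have hc : Cts Γ 1 F1 := fun m hm g j =>
    ((cts_toSk le_rfl m hm g j).subtype_mk
      fun x => (chi_dim (hΓ1.mono hm) g j x).trans hm).congr fun x => (hF1 _ _).symm
  have hκ : Z univ (cob (pr H1 th)) := by
    have e := pr_cob H1 th
    have e1 : pr H1 (cob th) = 0 :=
      z_univ.1 (h2.pr H1 fun x _ t => hH2 _ (x.2.trans one_le_two) t)
    have e2 : pb (sl H1 1) th = 0 := z_univ.1 (h1.pb _ fun x _ => by
      change (H x.1.pt 1).pt.n ≤ 1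
      rw [hH1 _ x.2]
      exact Nat.zero_le _)
    have e3 : pb (sl H1 0) th = 0 := z_univ.1 (h1.pb _ fun x _ => by
      change (H x.1.pt 0).pt.n ≤ 1
      rw [hH0 _ (x.2.trans one_le_two)]
      exact x.2)
    rw [e1, e2, e3, zero_add, sub_zero] at e
    exact z_univ.2 e
  have hκ' : Z {p : W1 | p.1.pt.n ≤ 0} (pr H1 th) := h1.pr H1 fun x hx t => hHd _ hx t
  refine ⟨fun b => vl (pr H1 th) fun z => F1 (chi Γ 1 b.1 b.2 z), fun g w => ?_⟩
  rw [← vl_wp h.h0 hc (fun _ _ => mem_univ _) (fun p hp => by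
    rw [hF1 p (hp.trans zero_le_one)]; exact hp) hκ hκ' g w,
    exists_hj_pr H1 th (f := fun z : Cb 1 => F1 (wp R.gen (ed Γ) g w (z 0)))
      (hc.comp ((continuous_wp h.h0 g w).comp (continuous_apply 0)))]
  congr 1
  funext z
  rw [hF1 _ (wp_dim h.h0 _ _ _)]
  rfl

theorem exists_hj {R : R3 G J} {Γ : Att G J} (h : Low R Γ) :
    ∃ γ, GoodAt Γ 2 γ ∧ HJ Γ R.d3 γ := by
  have hΓ := h.good
  obtain ⟨H, hH, hH0, hH1, hHd⟩ : ∃ H : Pt G J → I → Sk Γ 2, CtsH Γ 2 H ∧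
      (∀ p : Pt G J, p.n ≤ 2 → H p 0 = toSk Γ 2 p) ∧
      (∀ p : Pt G J, p.n ≤ 1 → H p 1 = toSk Γ 2 (vtx 1)) ∧
      ∀ p : Pt G J, p.n ≤ 0 → ∀ t, (H p t).pt.n ≤ 1 := h.nul.exists_htp hΓ
  have hH2 : ∀ p : Pt G J, p.n ≤ 2 → ∀ t, (H p t).pt.n ≤ 2 := fun p hp t =>
    dim_le_of_continuous hΓ (hH.path hp) (y₀ := 0) (by rw [hH0 p hp]; exact hp) t
  let Λ := lin fun a : G × J 2 =>
    cls (m := 0) (toSk Γ 2 (vtx 1)) fun y => H (chi Γ 2 a.1 a.2 y) 1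
  choose γ hγ hγc using fun j : J 3 => cls_surj (Λ (R.d3 j))
  refine ⟨fun j y => (γ j y).pt, ⟨fun j => (hγ j).1, fun j y hy => (hγ j).2 y hy, fun j y => ?_⟩,
    fun W M _ _ F K K' θ hF hK hK' hθ hθ' j => ?_⟩
  · refine dim_le_of_continuous hΓ (hγ j).1 (y₀ := fun _ => 0) ?_ y
    rw [(hγ j).2 _ ⟨0, Or.inl rfl⟩]
    exact Nat.zero_le _
  let Fc : C(Sk Γ 2, W) := ⟨fun p => F p.pt, hF.continuous⟩
  have h2 : Z {p : Sk Γ 2 | p.pt.n ≤ 2} (cob (pb Fc θ)) := hθ.pb Fc fun x hx => hK _ hx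
  have h1 : Z {p : Sk Γ 2 | p.pt.n ≤ 1} (pb Fc θ) := hθ'.pb Fc fun x hx => hK' _ hx
  obtain ⟨η, hη⟩ := exists_hur (k := 0) (w := toSk Γ 2 (vtx 1)) h2
    (h1.mono fun x hx => by rw [mem_singleton_iff.1 hx]; exact Nat.zero_le _)
    fun Y _ _ f hf y₀ hy y => dim_le_of_continuous hΓ hf (y₀ := y₀)
      (by rw [hy]; exact Nat.zero_le _) y
  obtain ⟨c, hc⟩ := exists_hj_edge h h2 h1 hH hH0 hH1 hHd hH2
  have e1 : vl θ (fun y => F (γ j y).pt) =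
      lin (fun a : G × J 2 => vl (pb Fc θ) fun y => H (chi Γ 2 a.1 a.2 y) 1) (R.d3 j) := by
    refine (vl_pb Fc θ (hγ j).1).symm.trans ?_
    rw [← hη _ (hγ j), hγc, map_lin]
    congr 2
    funext a
    exact hη _ (isLoop_chi hΓ (hH.at 1) hH1 a.1 a.2)
  have key : ∀ a : G × J 2, (vl θ fun y => F (chi Γ 2 a.1 a.2 y)) =
      lin c (fox R.gen a.1 (R.rel a.2)) + vl (pb Fc θ) fun y => H (chi Γ 2 a.1 a.2 y) 1 := by
    rintro ⟨g, r⟩
    have hq : Continuous fun q : I × I × Cb 1 => ((Fin.cons q.2.1 q.2.2 : Cb 2), q.1) := by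
      fun_prop
    have hq' : Continuous fun q : I × I × Cb 1 =>
        H (chi Γ 2 g r (Fin.cons q.2.1 q.2.2 : Cb 2)) q.1 := (hH 2 le_rfl g r).comp hq
    have e2 := vl_square (k := 1) h2 h1 (fun s t y => H (chi Γ 2 g r (Fin.cons t y)) s) hq'
      (fun s t y => hH2 _ (chi_dim hΓ g r _) s)
      fun s t y hy => by
        rw [chi_side hΓ g r (x := Fin.cons t y) hy]
        exact hHd _ le_rfl s
    have e3 : vl (pb Fc θ) (fun z : Cb 2 => H (chi Γ 2 g r (Fin.cons 1 (Fin.tail z))) (z 0)) = 0 :=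
      vl_z h1 fun z => by
        rw [chi_top g r rfl]
        exact hHd _ le_rfl _
    have e4 : vl (pb Fc θ) (fun z : Cb 2 => toSk Γ 2 (chi Γ 2 g r z)) =
        vl θ fun y => F (chi Γ 2 g r y) := vl_pb Fc θ (cts_toSk le_rfl 2 le_rfl g r)
    simp only [Fin.cons_self_tail, chi_cons_zero, h.h1, hH0 _ (chi_dim hΓ _ _ _)] at e2
    rw [e3, e4, hc, zero_sub, sub_eq_iff_eq_add] at e2
    simp only
    rw [e2, add_neg_cancel_left]
  have e5 := lin_add (c := fun a : G × J 2 => vl θ fun y => F (chi Γ 2 a.1 a.2 y))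
    (c' := fun a : G × J 2 => vl (pb Fc θ) fun y => H (chi Γ 2 a.1 a.2 y) 1)
    (lin c).toAddMonoidHom (ex fun r => fox R.gen 1 (R.rel r)).toAddMonoidHom
    (fun a => by
      rw [key, LinearMap.toAddMonoidHom_coe, LinearMap.toAddMonoidHom_coe, ex_single,
        ← alg_fox_tl, mul_one]) (R.d3 j)
  rw [LinearMap.toAddMonoidHom_coe, LinearMap.toAddMonoidHom_coe, R.dd, map_zero, zero_add] at e5
  exact e1.trans e5.symm

end Crest.Agent.R251
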