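import Crest.Agent.R251.SVal

/-! Row 251: additivity of the values and the Hurewicz map. -/

set_option autoImplicit false

noncomputable section

namespace Crest.Agent.R251

open unitInterval Set _root_.Topology Crest.Agent.R185.Top

variable {W M : Type} [TopologicalSpace W] [AddCommGroup M] {k : ℕ}

theorem vl_trans_eq {f g h : Cb (k + 1) → W}
    (h1 : ∀ (y : Cb (k + 1)) (s : I), (s : ℝ) = 2 * y 0 → h y = f (Function.update y 0 s))
    (h2 : ∀ (y : Cb (k + 1)) (s : I), (s : ℝ) = 2 * y 0 - 1 → h y = g (Function.update y 0 s))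
    (y : Cb (k + 1)) :
    h y = if (y 0 : ℝ) ≤ 1 / 2 then f (Function.update y 0 (TC.pj (2 * y 0)))
      else g (Function.update y 0 (TC.pj (2 * y 0 - 1))) := by
  split_ifs with hy
  · exact h1 y _ (TC.coe_pj (by linarith [(y 0).2.1]) (by linarith))
  · exact h2 y _ (TC.coe_pj (by linarith) (by linarith [(y 0).2.2]))

theorem vl_trans_upd (t s : I) (y : Cb k) :
    Function.update (Fin.cons t y : Cb (k + 1)) 0 s = Fin.cons s y := Fin.update_cons_zero ..

theorem vl_trans_upd' (z : Cb (k + 1)) (s : I) :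
    Function.update z 0 s = Fin.cons s (Fin.tail z) := by
  rw [← vl_trans_upd (z 0) s, Fin.cons_self_tail]

/-- additivity under concatenation in the direction `0` -/
theorem vl_trans {K K' : Set W} {θ : Co (k + 2) W M} (hK : Z K (cob θ)) (hK' : Z K' θ)
    {f g h : Cb (k + 1) → W} (hf : Continuous f) (hg : Continuous g) (hfK : ∀ y, f y ∈ K)
    (hgK : ∀ y, g y ∈ K) (hfb : ∀ y ∈ Bd (k + 1), f y ∈ K') (hgb : ∀ y ∈ Bd (k + 1), g y ∈ K')
    (h1 : ∀ (y : Cb (k + 1)) (s : I), (s : ℝ) = 2 * y 0 → h y = f (Function.update y 0 s))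
    (h2 : ∀ (y : Cb (k + 1)) (s : I), (s : ℝ) = 2 * y 0 - 1 → h y = g (Function.update y 0 s)) :
    vl θ h = vl θ f + vl θ g := by
  have e := vl_trans_eq h1 h2
  have hc : Continuous h := by
    rw [funext e]
    refine Continuous.if_le ?_ ?_ (by fun_prop) continuous_const fun y hy => ?_
    · exact hf.comp (continuous_id.update 0 (by fun_prop))
    · exact hg.comp (continuous_id.update 0 (by fun_prop))
    · rw [← h1 y _ (TC.coe_pj (by linarith) (by linarith)),
        ← h2 y _ (TC.coe_pj (by linarith) (by linarith))]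
  have hhK : ∀ y, h y ∈ K := fun y => by
    rw [e]
    split_ifs
    exacts [hfK _, hgK _]
  have hhb : ∀ t, ∀ y ∈ Bd k, h (Fin.cons t y) ∈ K' := fun t y hy => by
    rw [e, vl_trans_upd, vl_trans_upd]
    split_ifs
    exacts [hfb _ (cons_mem_Bd.2 (Or.inr (Or.inr hy))), hgb _ (cons_mem_Bd.2 (Or.inr (Or.inr hy)))]
  have sq := vl_square hK hK'
    (fun s t y => h (Fin.cons (TC.pj (s / 2 + t * (1 - s / 2))) y)) (hc.comp (by fun_prop))
    (fun _ _ _ => hhK _) fun _ _ y hy => hhb _ y hy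
  have e1 : (fun z : Cb (k + 1) =>
      h (Fin.cons (TC.pj ((1 : I) / 2 + z 0 * (1 - (1 : I) / 2))) (Fin.tail z))) = g := by
    funext z
    rw [h2 _ (z 0), vl_trans_upd, Fin.cons_self_tail]
    have := (z 0).2.1
    have := (z 0).2.2
    rw [Fin.cons_zero, Icc.coe_one, TC.coe_pj (by linarith) (by linarith)]
    ring
  have e2 : (fun z : Cb (k + 1) =>
      h (Fin.cons (TC.pj ((0 : I) / 2 + z 0 * (1 - (0 : I) / 2))) (Fin.tail z))) = h := by
    funext z
    rw [TC.pj_eq (s := z 0) (by simp), Fin.cons_self_tail]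
  have e3 : vl θ (fun z : Cb (k + 1) =>
      h (Fin.cons (TC.pj (z 0 / 2 + (1 : I) * (1 - z 0 / 2))) (Fin.tail z))) = 0 := by
    refine vl_z hK' fun z => ?_
    rw [TC.pj_eq (s := 1) (by simp), h2 _ 1 (by simp; norm_num), vl_trans_upd]
    exact hgb _ (cons_mem_Bd.2 (Or.inr (Or.inl rfl)))
  have e4 : (fun z : Cb (k + 1) =>
      h (Fin.cons (TC.pj (z 0 / 2 + (0 : I) * (1 - z 0 / 2))) (Fin.tail z))) = f := by
    funext z
    rw [h1 _ (z 0), vl_trans_upd, Fin.cons_self_tail]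
    have := (z 0).2.1
    have := (z 0).2.2
    rw [Fin.cons_zero, Icc.coe_zero, TC.coe_pj (by linarith) (by linarith)]
    ring
  rw [e1, e2, e3, e4, zero_sub, sub_eq_iff_eq_add, eq_neg_add_iff_add_eq] at sq
  exact sq.symm

/-- reversal in the direction `0` -/
theorem vl_symm {K K' : Set W} {θ : Co (k + 2) W M} (hK : Z K (cob θ)) (hK' : Z K' θ)
    {f : Cb (k + 1) → W} (hf : Continuous f) (hfK : ∀ y, f y ∈ K)
    (hfb : ∀ y ∈ Bd (k + 1), f y ∈ K') :
    vl θ (fun y => f (Function.update y 0 (σ (y 0)))) = -vl θ f := by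
  have sq := vl_square hK hK' (fun s t y => f (Fin.cons (t * σ s) y))
    (hf.comp (continuous_cons (Continuous.subtype_mk (by fun_prop) _) (by fun_prop)))
    (fun _ _ _ => hfK _) fun _ _ y hy => hfb _ (cons_mem_Bd.2 (Or.inr (Or.inr hy)))
  have e1 : vl θ (fun z : Cb (k + 1) => f (Fin.cons (z 0 * σ 1) (Fin.tail z))) = 0 :=
    vl_z hK' fun z => hfb _ (cons_mem_Bd.2 (Or.inl (by simp)))
  have e2 : vl θ (fun z : Cb (k + 1) => f (Fin.cons (0 * σ (z 0)) (Fin.tail z))) = 0 :=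
    vl_z hK' fun z => hfb _ (cons_mem_Bd.2 (Or.inl (by simp)))
  rw [e1, e2, zero_sub, sub_zero] at sq
  simp only [symm_zero, mul_one, one_mul, Fin.cons_self_tail] at sq
  simp only [vl_trans_upd']
  exact sq.symm

/-- the Hurewicz map -/
theorem exists_hur {K : Set W} {w : W} {θ : Co (k + 3) W M} (hK : Z K (cob θ)) (hw : Z {w} θ)
    (hc : ∀ (Y : Type) [TopologicalSpace Y] [PreconnectedSpace Y] (f : Y → W), Continuous f →
      ∀ y₀, f y₀ = w → ∀ y, f y ∈ K) :
    ∃ η : PiA k W w →+ M, ∀ f, IsLoop w f → η (cls w f) = vl θ f := by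
  have hb : (fun _ => 0 : Cb (k + 2)) ∈ Bd (k + 2) := ⟨0, Or.inl rfl⟩
  refine TC.exists_hom (vl θ) (fun Φ hΦ hΦb => ?_) fun f g h hf hg h1 h2 => ?_
  · exact vl_htp hK hw Φ hΦ
      (fun y t => hc (Cb (k + 2) × I) _ hΦ (fun _ => 0, 0) (hΦb _ hb _) (y, t)) hΦb
  · exact vl_trans hK hw hf.1 hg.1 (hc _ _ hf.1 _ (hf.2 _ hb)) (hc _ _ hg.1 _ (hg.2 _ hb)) hf.2
      hg.2 h1 h2

end Crest.Agent.R251
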