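import Crest.Agent.R251.SPrism

/-! Row 251: values on cubes. -/

set_option autoImplicit false

noncomputable section

namespace Crest.Agent.R251

open unitInterval Set _root_.Topology Crest.Agent.R185.Top

variable {W W' M M' : Type} [TopologicalSpace W] [TopologicalSpace W'] [AddCommGroup M]
  [AddCommGroup M'] {k : ℕ}

theorem val_po (α : M →+ M') (φ : Co (k + 1) (Cb k) M) : val k (po α φ) = α (val k φ) := by
  induction k with
  | zero => rfl
  | succ k ih => rw [val_succ, val_succ, pr_po, ih]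

theorem stokes_aux (ih : ∀ β : Co k (Cb k) M, Z (Bd k) β → val k (cob β) = 0)
    {β : Co (k + 1) (Cb (k + 1)) M} (h : Z {x : Cb (k + 1) | Fin.tail x ∈ Bd k} β) :
    val (k + 1) (cob β) = val k (pb (sl (cI k) 1) β) - val k (pb (sl (cI k) 0) β) := by
  have e := ih _ (h.pr (cI k) fun x hx t => by simpa using hx)
  rw [val_succ, ← map_sub, ← pr_cob, map_add, e, add_zero]

/-- Stokes' formula for relative cochains -/
theorem stokes {β : Co k (Cb k) M} (h : Z (Bd k) β) : val k (cob β) = 0 := by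
  induction k with
  | zero => rw [h.nil, map_zero, map_zero]
  | succ k ih =>
    have e1 : pb (sl (cI k) 1) β = 0 :=
      z_univ.1 (h.pb _ fun x _ => cons_mem_Bd.2 (Or.inr (Or.inl rfl)))
    have e0 : pb (sl (cI k) 0) β = 0 := z_univ.1 (h.pb _ fun x _ => cons_mem_Bd.2 (Or.inl rfl))
    rw [stokes_aux (fun _ => ih) (h.mono fun x hx => mem_Bd_succ.2 (Or.inr (Or.inr hx))), e1, e0,
      sub_self]

/-- Stokes' formula for cochains that vanish on the sides -/
theorem stokes_succ {β : Co (k + 1) (Cb (k + 1)) M} 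
    (h : Z {x : Cb (k + 1) | Fin.tail x ∈ Bd k} β) :
    val (k + 1) (cob β) = val k (pb (sl (cI k) 1) β) - val k (pb (sl (cI k) 0) β) :=
  stokes_aux (fun _ => stokes) h

theorem vl_z {K : Set W} {θ : Co (k + 1) W M} (h : Z K θ) {f : Cb k → W} (hf : ∀ x, f x ∈ K) :
    vl θ f = 0 := by
  by_cases hc : Continuous f
  · rw [vl_eq θ hc, z_univ.1 (h.pb ⟨f, hc⟩ fun x _ => hf x), map_zero]
  · exact dif_neg hc

theorem vl_pb (F : C(W, W')) (θ : Co (k + 1) W' M) {f : Cb k → W} (hf : Continuous f) :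
    vl (pb F θ) f = vl θ fun x => F (f x) :=
  (vl_eq _ hf).trans (vl_eq θ (F.continuous.comp hf)).symm

theorem vl_htp_aux {K : Set W} {θ : Co (k + 1) W M} (hK : Z K (cob θ)) (H : C(Cb k × I, W))
    (h1 : ∀ q, H q ∈ K) : vl θ (sl H 1) - vl θ (sl H 0) = val k (cob (pr H θ)) := by
  rw [vl_coe, vl_coe, ← map_sub, ← pr_cob, z_univ.1 (hK.pr H fun x _ t => h1 _), zero_add]

/-- homotopy invariance -/
theorem vl_htp {K K' : Set W} {θ : Co (k + 1) W M} (hK : Z K (cob θ)) (hK' : Z K' θ)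
    (Φ : Cb k → I → W) (hΦ : Continuous fun q : Cb k × I => Φ q.1 q.2) (h1 : ∀ y t, Φ y t ∈ K)
    (h2 : ∀ y ∈ Bd k, ∀ t, Φ y t ∈ K') : vl θ (fun y => Φ y 0) = vl θ fun y => Φ y 1 := by
  have e := vl_htp_aux hK ⟨fun q => Φ q.1 q.2, hΦ⟩ fun q => h1 q.1 q.2
  rw [stokes (hK'.pr _ fun x hx t => h2 x hx t), sub_eq_zero] at e
  exact e.symm

/-- the square identity -/
theorem vl_square {K K' : Set W} {θ : Co (k + 2) W M} (hK : Z K (cob θ)) (hK' : Z K' θ)
    (Φ : I → I → Cb k → W) (hΦ : Continuous fun q : I × I × Cb k => Φ q.1 q.2.1 q.2.2)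
    (h1 : ∀ s t y, Φ s t y ∈ K) (h2 : ∀ s t, ∀ y ∈ Bd k, Φ s t y ∈ K') :
    vl θ (fun z : Cb (k + 1) => Φ 1 (z 0) (Fin.tail z)) -
      vl θ (fun z : Cb (k + 1) => Φ 0 (z 0) (Fin.tail z)) =
    vl θ (fun z : Cb (k + 1) => Φ (z 0) 1 (Fin.tail z)) -
      vl θ (fun z : Cb (k + 1) => Φ (z 0) 0 (Fin.tail z)) := by
  let u : C(Cb (k + 1) × I, W) := ⟨fun q => Φ q.2 (q.1 0) (Fin.tail q.1),
    hΦ.comp (f := fun q : Cb (k + 1) × I => (q.2, q.1 0, Fin.tail q.1)) (by fun_prop)⟩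
  let w : C(Cb (k + 1) × I, W) := ⟨fun q => Φ (q.1 0) q.2 (Fin.tail q.1),
    hΦ.comp (f := fun q : Cb (k + 1) × I => (q.1 0, q.2, Fin.tail q.1)) (by fun_prop)⟩
  have e := vl_htp_aux hK u fun q => h1 _ _ _
  have e2 : ∀ t, val k (pb (sl (cI k) t) (pr u θ)) = vl θ (sl w t) := fun t => by
    rw [vl_coe, val_succ, pb_pr, pr_pb]
    congr 3
  rw [stokes_succ (hK'.pr u fun x hx t => h2 _ _ _ hx), e2, e2] at e
  exact e

end Crest.Agent.R251
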