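import Crest.Agent.R251.SDeform
import Crest.Agent.R251.SVal

/-! Row 251: the cube and its collar, preliminaries. -/

set_option autoImplicit false

noncomputable section

namespace Crest.Agent.R251

open unitInterval Set _root_.Topology Crest.Agent.R185.Top

variable {M : Type} [AddCommGroup M]

/-- the collar of the sides and the top -/
def Jc (k : ℕ) : Set (Cb (k + 1)) := {x | Fin.tail x ∈ Col k ∨ 3 / 4 < (x 0 : ℝ)}

/-- the collar of the bottom -/
def Bc (k : ℕ) : Set (Cb (k + 1)) := {x | (x 0 : ℝ) < 1 / 4}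

theorem cov_col_open (k : ℕ) : IsOpen (Col k) := by
  have e : Col k = ⋃ i : Fin k, ({x : Cb k | (x i : ℝ) < 1 / 4} ∪ {x | 3 / 4 < (x i : ℝ)}) := by
    ext x
    simp only [Col, mem_iUnion, mem_union, mem_ofPred_eq]
  rw [e]
  exact isOpen_iUnion fun i => (isOpen_lt (by fun_prop) continuous_const).union
    (isOpen_lt continuous_const (by fun_prop))

theorem cov_col (k : ℕ) : Cov (Col (k + 1)) (Jc k) (Bc k) := by
  refine ⟨?_, fun x hx => ⟨0, Or.inl hx⟩, fun x hx => ?_⟩
  · rintro x (⟨i, hi⟩ | hx)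
    · exact ⟨i.succ, hi⟩
    · exact ⟨0, Or.inr hx⟩
  · have hJ : IsOpen (Jc k) :=
      ((cov_col_open k).preimage (by fun_prop : Continuous fun x : Cb (k + 1) => Fin.tail x)).union
        (isOpen_lt continuous_const (by fun_prop : Continuous fun x : Cb (k + 1) => (x 0 : ℝ)))
    have hB : IsOpen (Bc k) :=
      isOpen_lt (by fun_prop : Continuous fun x : Cb (k + 1) => (x 0 : ℝ)) continuous_const
    obtain ⟨i, hi⟩ := hx
    induction i using Fin.cases with
    | zero =>
      rcases hi with hi | hi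
      · exact Or.inr (mem_nhdsWithin_of_mem_nhds (hB.mem_nhds hi))
      · exact Or.inl (mem_nhdsWithin_of_mem_nhds (hJ.mem_nhds (Or.inr hi)))
    | succ i => exact Or.inl (mem_nhdsWithin_of_mem_nhds (hJ.mem_nhds (Or.inl ⟨i, hi⟩)))

theorem van_Jc_mem (a t : I) : (a : ℝ) + t * (1 - a) ∈ I := by
  have h1 := mul_nonneg t.2.1 (sub_nonneg.2 a.2.2)
  have h2 := mul_nonneg (sub_nonneg.2 t.2.2) (sub_nonneg.2 a.2.2)
  have h3 := a.2.1
  constructor <;> nlinarith

theorem van_Jc (k m : ℕ) : Van (Sym.triv _ M) m univ (Jc k) := by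
  refine van_of_deform (fun x t => Fin.cons
    ⟨(x 0 : ℝ) + t * (1 - x 0), van_Jc_mem (x 0) t⟩ (Fin.tail x)) (fun n ω _ => ?_) (fun x _ => ?_)
    (fun x _ => Or.inr ?_) (fun _ _ _ => mem_univ _) (fun x hx t => ?_) Sym.inv_univ
    (fun i => Empty.elim i) m
  · refine continuous_pi fun i => ?_
    induction i using Fin.cases with
    | zero =>
      simp only [Fin.cons_zero]
      exact Continuous.subtype_mk (by fun_prop) _
    | succ i =>
      simp only [Fin.cons_succ, Fin.tail]
      fun_prop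
  · funext i
    induction i using Fin.cases with
    | zero => exact Subtype.ext (by simp)
    | succ i => rfl
  · simp only [Fin.cons_zero, Icc.coe_one]
    norm_num
  · rcases hx with hx | hx
    · exact Or.inl (by simpa only [Fin.tail_cons] using hx)
    · refine Or.inr ?_
      simp only [Fin.cons_zero]
      have := mul_nonneg t.2.1 (sub_nonneg.2 (x 0).2.2)
      linarith

theorem col_zero : Col 0 = ∅ := by
  ext x
  simp [Col]

theorem van_pt_eq {n : ℕ} (ω ω' : C(Sx n, Cb 0)) : ω = ω' :=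
  ContinuousMap.ext fun _ => funext fun i => i.elim0

theorem van_pt_cob {n : ℕ} (φ : Co n (Cb 0) M) (ω : C(Sx (n + 1), Cb 0)) (ω' : C(Sx n, Cb 0)) :
    cob φ ω = (if Even (n + 1) then 0 else 1 : ℤ) • φ ω' := by
  rw [cob_apply, ← Fin.sum_neg_one_pow ℤ (n + 1), Finset.sum_smul]
  exact Finset.sum_congr rfl fun i _ => by rw [van_pt_eq (ω.comp (fc i)) ω']

theorem van_pt (m : ℕ) : Van (Sym.triv (Cb 0) M) (m + 1) univ ∅ := by
  intro φ _ hc _
  rcases Nat.even_or_odd (m + 2) with h | h
  · have h0 : φ = 0 := by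
      funext ω
      have := hc (ContinuousMap.const _ Fin.elim0) (in_univ _)
      rwa [van_pt_cob φ _ ω, if_neg (Nat.not_even_iff_odd.2 h.add_one), one_smul] at this
    exact ⟨0, Sym.eqv_triv _, Z.zero _, by rw [h0, map_zero, sub_zero]; exact Z.zero _⟩
  · refine ⟨fun _ => φ (ContinuousMap.const _ Fin.elim0), Sym.eqv_triv _, z_empty _, fun ω _ => ?_⟩
    rw [Pi.sub_apply, van_pt_cob _ _ (ContinuousMap.const _ Fin.elim0),
      if_neg (Nat.not_even_iff_odd.2 h), one_smul, van_pt_eq ω (ContinuousMap.const _ Fin.elim0),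
      sub_self]

theorem inj_pt {φ : Co 1 (Cb 0) M} (h : val 0 φ = 0) : φ = 0 := by
  funext ω
  rw [van_pt_eq ω (ContinuousMap.const _ Fin.elim0)]
  exact h

theorem surj_pt (μ : M) : ∃ θ : Co 1 (Cb 0) M, cob θ = 0 ∧ val 0 θ = μ := by
  refine ⟨fun _ => μ, ?_, rfl⟩
  funext ω
  rw [van_pt_cob _ _ (ContinuousMap.const _ Fin.elim0), if_pos (by decide), zero_smul]
  rfl

end Crest.Agent.R251
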