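import Crest.Agent.R251.SLocA
import Crest.Agent.R251.SExc

/-! Row 251: the suspension step. -/

set_option autoImplicit false

noncomputable section

namespace Crest.Agent.R251

open unitInterval Set _root_.Topology Crest.Agent.R185.Top

variable {M : Type} [AddCommGroup M] {k m : ℕ}

/-- the projection to the bottom face -/
def susp_up_r (k : ℕ) : C(Cb (k + 1), Cb k) :=
  ⟨fun x => Fin.tail x, continuous_tail continuous_id⟩

/-- pushing the cube down to its bottom face -/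
def susp_up_h (k : ℕ) : C(Cb (k + 1) × I, Cb (k + 1)) :=
  ⟨fun q => Fin.cons (q.2 * q.1 0) (Fin.tail q.1),
    continuous_cons
      (Continuous.subtype_mk ((continuous_subtype_val.comp continuous_snd).mul
        (continuous_subtype_val.comp ((continuous_apply 0).comp continuous_fst))) _)
      (continuous_tail continuous_fst)⟩

lemma susp_up_h_one (k : ℕ) : sl (susp_up_h k) 1 = ContinuousMap.id _ := by
  ext1 x
  change (Fin.cons (1 * x 0) (Fin.tail x) : Cb (k + 1)) = x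
  rw [one_mul, Fin.cons_self_tail]

lemma susp_up_h_zero (k : ℕ) : sl (susp_up_h k) 0 = (sl (cI k) 0).comp (susp_up_r k) := by
  ext1 x
  change (Fin.cons (0 * x 0) (Fin.tail x) : Cb (k + 1)) = Fin.cons 0 (Fin.tail x)
  rw [zero_mul]

lemma susp_up_r_bot (k : ℕ) : (susp_up_r k).comp (sl (cI k) 0) = ContinuousMap.id _ := by
  ext1 x
  change Fin.tail (Fin.cons 0 x : Cb (k + 1)) = x
  rw [Fin.tail_cons]

lemma susp_up_tail {x : Cb (k + 1)} (hx : x ∈ Jc k ∩ Bc k) : Fin.tail x ∈ Col k := by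
  obtain ⟨h1, h2⟩ := hx
  have h2' : (x 0 : ℝ) < 1 / 4 := h2
  rcases h1 with h1 | h1
  · exact h1
  · exfalso
    linarith

lemma susp_up_bot (x : Cb k) : sl (cI k) 0 x ∈ Bc k := by
  change (((Fin.cons 0 x : Cb (k + 1)) 0 : I) : ℝ) < 1 / 4
  rw [Fin.cons_zero]
  norm_num

lemma susp_up_pb_id {E : Type} [TopologicalSpace E] (φ : Co m E M) :
    pb (ContinuousMap.id E) φ = φ := rfl

theorem susp_up {β : Co (m + 1) (Cb (k + 1)) M} (hβ : Z (Jc k) β) (hφ : Z (Col (k + 1)) (cob β))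
    {γ : Co m (Cb k) M} (hγ : Z (Col k) γ) (h : pb (sl (cI k) 0) β = cob γ) :
    ∃ ψ : Co (m + 1) (Cb (k + 1)) M, Z (Col (k + 1)) ψ ∧ cob ψ = cob β := by
  have e : β - cob (pr (susp_up_h k) β + pb (susp_up_r k) γ) = pr (susp_up_h k) (cob β) := by
    have := pr_cob (susp_up_h k) β
    rw [susp_up_h_one, susp_up_h_zero, susp_up_pb_id, ← pb_pb, h, pb_cob] at this
    rw [map_add, ← sub_sub, sub_right_comm, ← this]
    abel
  have h₂ : Z (Jc k ∩ Bc k) (pr (susp_up_h k) β + pb (susp_up_r k) γ) := by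
    refine Z.add (hβ.pr _ fun x hx t => Or.inl ?_) (hγ.pb _ fun x hx => susp_up_tail hx)
    change Fin.tail (Fin.cons (t * x 0) (Fin.tail x) : Cb (k + 1)) ∈ Col k
    rw [Fin.tail_cons]
    exact susp_up_tail hx
  have h₃ : Z (Bc k) (β - cob (pr (susp_up_h k) β + pb (susp_up_r k) γ)) := by
    rw [e]
    refine hφ.pr _ fun x hx t => (cov_col k).right ?_
    have hx' : (x 0 : ℝ) < 1 / 4 := hx
    change (((Fin.cons (t * x 0) (Fin.tail x) : Cb (k + 1)) 0 : I) : ℝ) < 1 / 4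
    rw [Fin.cons_zero, Set.Icc.coe_mul]
    have h1 := t.2.2
    have h2 := (x 0).2.1
    nlinarith
  obtain ⟨ψ, -, -, a⟩ := exc (S := Sym.triv _ M) (cov_col k) (Sym.inv_triv _) (Sym.inv_triv _)
    (Sym.eqv_triv β) hφ hβ (Sym.eqv_triv _) h₂ h₃
  exact ⟨β - cob ψ, a, by rw [map_sub, cob_cob, sub_zero]⟩

theorem susp_ext {θ : Co m (Cb k) M} (hθ : cob θ = 0) (h : Z (Col k) θ) :
    ∃ β : Co m (Cb (k + 1)) M, Z (Jc k) β ∧ Z (Col (k + 1)) (cob β) ∧ pb (sl (cI k) 0) β = θ := by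
  obtain ⟨β, -, a1, a2, a3⟩ := ext_cocycle (S := Sym.triv _ M) (cov_col k) (Sym.inv_triv _)
    (Sym.inv_triv _) (Sym.eqv_triv (pb (susp_up_r k) θ))
    (by rw [← pb_cob, hθ, map_zero]; exact Z.zero _) (h.pb _ fun x hx => susp_up_tail hx)
  refine ⟨β, a2, a1, ?_⟩
  have e := z_univ.1 (a3.pb (sl (cI k) 0) (B := univ) fun x _ => susp_up_bot x)
  rw [map_sub, pb_pb, susp_up_r_bot, susp_up_pb_id, sub_eq_zero] at e
  exact e.symm

end Crest.Agent.R251
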