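import Crest.Agent.R251.SSC

/-! Row 251: the model is simply connected, conclusion. -/

set_option autoImplicit false

noncomputable section

namespace Crest.Agent.R251

open unitInterval Set _root_.Topology Crest.Agent.R185.Top

variable {G : Type} [Group G] {J : ℕ → Type} [Unique (J 0)] {Γ : Att G J}

open Crest.Agent.Lib.TwoComplex

theorem simplyConnected_htp (hΓ : ∀ n, Good Γ n) (hN : Nul Γ 0) :
    Nonempty ((⟨Subtype.val, continuous_subtype_val⟩ : C(Ek Γ 2, Tot Γ)).Homotopy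
      (.const _ (toTot Γ (vtx 1)))) := by
  obtain ⟨N, h1, h2, -⟩ := hN
  have hd : ∀ y : Ek Γ 2, y.1.pt.n ≤ 1 := fun y => Nat.le_of_lt_succ y.2
  have hc : Continuous fun q : I × Ek Γ 2 => toTot Γ (N q.2.1.pt q.1).pt :=
    CtsH.comp (hΓ 1) (K := fun p t => toTot Γ (N p t).pt) (h1.post (cts_toTot 2).continuous)
      (γ := fun q : I × Ek Γ 2 => q.2.1.pt)
      ((continuousOn_toSk hΓ 1).domRestrict.comp continuous_snd) (fun q => hd q.2) continuous_fst
  exact ⟨⟨⟨_, hc⟩, fun y => congrArg (toTot Γ) (h2 _ (hd y)).1,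
    fun y => congrArg (toTot Γ) (h2 _ (hd y)).2⟩⟩

theorem simplyConnected_joined (hΓ : ∀ n, Good Γ n) (hN : Nul Γ 0) (x : Tot Γ) :
    Joined (toTot Γ (vtx 1)) x := by
  obtain ⟨F⟩ := simplyConnected_htp hΓ hN
  have hv : ∀ g : G, Joined (toTot Γ (vtx 1)) (toTot Γ (vtx g)) := fun g =>
    Joined.symm ⟨F.evalAt ⟨toTot Γ (vtx g), Nat.zero_lt_two⟩⟩
  obtain ⟨n, g, j, y, hy⟩ := x
  refine (hv g).trans ?_
  cases n with
  | zero => exact (eq_vtx (p := ⟨0, g, j, y, hy⟩) rfl) ▸ Joined.refl _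
  | succ n =>
    have hI : PathConnectedSpace I :=
      isPathConnected_iff_pathConnectedSpace.1 ((convex_Icc (0 : ℝ) 1).isPathConnected ⟨0, by simp⟩)
    have h : Joined (chC Γ (n + 1) g j fun _ => 1) (chC Γ (n + 1) g j y) :=
      ⟨(Path.pi fun i => PathConnectedSpace.somePath (1 : I) (y i)).map
        (chC Γ (n + 1) g j).continuous⟩
    rwa [chC_apply, chC_apply, chi_top g j rfl, chi_int g j hy] at h

theorem simplyConnected_low (hΓ : ∀ n, Good Γ n) (hN : Nul Γ 0) (z : Tot Γ) {x : Tot Γ}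
    (q : Path x x) (hq : ∀ t, q t ∈ Ek Γ 2) : cl z q = 1 := by
  obtain ⟨F⟩ := simplyConnected_htp hΓ hN
  have hx : x ∈ Ek Γ 2 := q.source ▸ hq 0
  let p : Path (⟨x, hx⟩ : Ek Γ 2) ⟨x, hx⟩ :=
    ⟨⟨fun t => ⟨q t, hq t⟩, q.continuous.subtype_mk _⟩, Subtype.ext q.source, Subtype.ext q.target⟩
  have h := cl_homotopy z F p
  rw [cl_ext z (q := q) (p := p.map _) fun _ => rfl,
    cl_ext z (q := Path.refl (toTot Γ (vtx 1))) (p := p.map _) fun _ => rfl, cl_refl, mul_one] at h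
  exact mul_eq_right.1 h

theorem Model.simplyConnected {R : R3 G J} (h : Model R Γ) : SimplyConnectedSpace (Tot Γ) := by
  have hj := simplyConnected_joined h.all h.nul
  refine simply_connected_iff_loops_nullhomotopic.2
    ⟨⟨⟨toTot Γ (vtx 1)⟩, fun x y => (hj x).symm.trans (hj y)⟩, fun x γ => ?_⟩
  obtain ⟨a⟩ := hj x
  obtain ⟨q₁, h₁, e₁⟩ := push_path h.all 1 (Nat.zero_lt_succ _) (Nat.zero_lt_succ _)
    (a.trans (γ.trans a.symm)) fun t => by rw [h.Ek_four]; exact mem_univ _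
  obtain ⟨q₂, h₂, e₂⟩ := push_path h.all 0 (Nat.zero_lt_succ _) (Nat.zero_lt_succ _) q₁ h₁
  have e := simplyConnected_low h.all h.nul (toTot Γ (vtx 1)) q₂ h₂
  rw [← cl_congr _ (e₁.trans e₂), cl_trans, cl_trans, cl_symm, ← mul_assoc, mul_inv_eq_one,
    mul_eq_left] at e
  exact cl_inj _ (hj x) (e.trans (cl_refl _ x).symm)

end Crest.Agent.R251
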