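import Crest.Agent.R251.STop
import Crest.Agent.R251.SSC2
import Crest.Agent.R251.SCW
import Crest.Agent.R251.SBr

/-! Row 251: the reduction to the obstruction. -/

set_option autoImplicit false

noncomputable section

namespace Crest.Agent.R251

open unitInterval Set _root_.Topology Crest.Agent.R185.Top

open Crest.GeometryTopology.DeckCochains

variable {G : Type} [Group G] {J : ℕ → Type} [Unique (J 0)]

theorem reduce (R : R3 G J) [Infinite G]
    (hY : ∀ Γ : Att G J, Model R Γ → ∀ (Y : Type) (_ : TopologicalSpace Y) (_ : T2Space Y)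
      (_ : CWComplex (univ : Set Y)), RelCWComplex.Finite (univ : Set Y) →
      (∀ m : ℕ, 2 < m → IsEmpty (RelCWComplex.cell (univ : Set Y) m)) →
      IsEmpty (ContinuousMap.HomotopyEquiv (Sp.Xq Γ) Y)) :
    ∃ (X : Type) (_ : TopologicalSpace X) (_ : T2Space X) (_ : ConnectedSpace X)
      (_ : CWComplex (Set.univ : Set X)),
      RelCWComplex.Finite (Set.univ : Set X) ∧
      (∀ m : ℕ, 3 < m → IsEmpty (RelCWComplex.cell (Set.univ : Set X) m)) ∧
      (∃ (E : Type) (_ : TopologicalSpace E) (p : E → X),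
        IsCoveringMap p ∧ Function.Surjective p ∧ SimplyConnectedSpace E ∧
        (∀ i : ℕ, 2 < i → CategoryTheory.Limits.IsZero
          (((AlgebraicTopology.singularHomologyFunctor (ModuleCat.{0} ℤ) i).obj
            (ModuleCat.of ℤ ℤ)).obj (TopCat.of E))) ∧
        (∀ (M : Type) [AddCommGroup M] [DistribMulAction (deckGroup p) M],
          DeckCohomologyVanishes p M 2) ∧
        Infinite (deckGroup p)) ∧
      ∀ (Y : Type) (_ : TopologicalSpace Y) (_ : T2Space Y)
        (_ : CWComplex (Set.univ : Set Y)),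
        RelCWComplex.Finite (Set.univ : Set Y) →
        (∀ m : ℕ, 2 < m → IsEmpty (RelCWComplex.cell (Set.univ : Set Y) m)) →
        IsEmpty (ContinuousMap.HomotopyEquiv X Y) := by
  obtain ⟨Γ, h⟩ := exists_model R
  obtain ⟨cw, hf, he⟩ := exists_cw_fin R.fin R.emp h.all
  have hsc := h.simplyConnected
  have hp := Sp.isQuotientCoveringMap h.all
  obtain ⟨ι, hι, hιx⟩ := exists_deck h.all
  refine ⟨Sp.Xq Γ, inferInstance, Sp.t2 h.all, hp.surjective.connectedSpace Sp.continuous_prj, cw,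
    hf, he, ⟨Tot Γ, inferInstance, Sp.prj, hp.isCoveringMap, hp.surjective, hsc, fun i hi => ?_,
      fun M _ _ => ?_, Infinite.of_injective ι hι.1⟩, hY Γ h⟩
  · obtain ⟨i, rfl⟩ : ∃ j, i = j + 1 := ⟨i - 1, by omega⟩
    refine isZero_of_van i fun M _ φ hφ => ?_
    let _ : DistribMulAction (⊥ : Subgroup G) M :=
      DistribMulAction.compHom M (1 : (⊥ : Subgroup G) →* ℤˣ)
    obtain ⟨ψ, -, -, h3⟩ := h.van_high (H := ⊥) (M := M) (m := i + 1) hi φ (fun ⟨g, hg⟩ ω => by
      have e : ((sym Γ ⊥ M).a ⟨g, hg⟩).comp ω = ω := ContinuousMap.ext fun x => by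
        change g • ω x = ω x
        rw [Subgroup.mem_bot.1 hg, one_smul]
      rw [e]
      exact (one_smul ℤˣ _).symm) (by rw [hφ]; exact Z.zero _) (z_empty _)
    exact ⟨ψ, (sub_eq_zero.1 (z_univ.1 h3)).symm⟩
  · let _ : DistribMulAction (⊤ : Subgroup G) M :=
      DistribMulAction.compHom M (ι.comp (⊤ : Subgroup G).subtype)
    exact deck_of_van _ (sym Γ ⊤ M) (fun g => ι g.1)
      (fun d => by obtain ⟨g, rfl⟩ := hι.2 d; exact ⟨⟨g, trivial⟩, rfl⟩)
      (fun g x => (hιx g.1 x).symm) (fun _ _ => rfl) 2 (h.van_high le_rfl)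

end Crest.Agent.R251
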