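import Crest.Agent.R251.SAff

/-! Row 251: the mesh of the barycentric subdivision. -/

set_option autoImplicit false

noncomputable section

namespace Crest.Agent.R251

open unitInterval Set _root_.Topology Crest.Agent.R185.Top

variable {p m : ℕ}

theorem Sd_ball_bd {x : Sx p} {d : ℝ} {c : Om (m + 1) (Sx p)}
    (hc : c ∈ Sup fun v => ∀ i, dist (v i) x ≤ d) :
    bd c ∈ Sup fun v : Fin m → Sx p => ∀ i, dist (v i) x ≤ d := by
  refine sup_map bd _ (fun v hv => ?_) hc
  rw [bd_tu]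
  exact Submodule.sum_mem _ fun i _ => Submodule.smul_mem _ _ (tu_mem_sup fun j => hv _)

theorem Sd_ball_cone {x b : Sx p} {d : ℝ} {c : Om m (Sx p)} (hb : dist b x ≤ d)
    (hc : c ∈ Sup fun v => ∀ i, dist (v i) x ≤ d) :
    cone b c ∈ Sup fun v : Fin (m + 1) → Sx p => ∀ i, dist (v i) x ≤ d := by
  refine sup_map (cone b) _ (fun v hv => ?_) hc
  rw [cone_tu]
  exact tu_mem_sup fun i => Fin.cases (by simpa using hb) (fun j => by simpa using hv j) i

theorem Sd_ball {x : Sx p} {d : ℝ} {c : Om m (Sx p)} (hc : c ∈ Sup fun v => ∀ i, dist (v i) x ≤ d) :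
    Sd p m c ∈ Sup fun v => ∀ i, dist (v i) x ≤ d := by
  induction m with
  | zero => exact hc
  | succ m ih =>
    refine sup_map (Sd p (m + 1)) _ (fun v hv => ?_) hc
    rw [Sd, sd_tu]
    exact Sd_ball_cone (aff_ball hv _) (ih (Sd_ball_bd (tu_mem_sup hv)))

theorem Td_ball {x : Sx p} {d : ℝ} {c : Om m (Sx p)} (hc : c ∈ Sup fun v => ∀ i, dist (v i) x ≤ d) :
    Td p m c ∈ Sup fun v => ∀ i, dist (v i) x ≤ d := by
  induction m with
  | zero =>
    rw [Td, hom_zero]
    exact Submodule.zero_mem _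
  | succ m ih =>
    refine sup_map (Td p (m + 1)) _ (fun v hv => ?_) hc
    rw [Td, hom_tu]
    refine Sd_ball_cone (aff_ball hv _) (Submodule.sub_mem _ ?_ (ih (Sd_ball_bd (tu_mem_sup hv))))
    exact Submodule.sub_mem _ (tu_mem_sup hv) (Sd_ball (tu_mem_sup hv))

theorem Sd_dia_bd {d : ℝ} {v : Fin (m + 1) → Sx p} (hv : Dia d v) :
    bd (tu v) ∈ Sup (Dia d : (Fin m → Sx p) → Prop) := by
  rw [bd_tu]
  exact Submodule.sum_mem _ fun i _ => Submodule.smul_mem _ _ (tu_mem_sup fun j k => hv _ _)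

theorem Sd_dia_cone {b : Sx p} {d : ℝ} (hd : 0 ≤ d) {c : Om m (Sx p)}
    (hc : c ∈ Sup fun v => Dia d v ∧ ∀ i, dist (v i) b ≤ d) :
    cone b c ∈ Sup (Dia d : (Fin (m + 1) → Sx p) → Prop) := by
  refine sup_map (cone b) _ (fun v hv => ?_) hc
  rw [cone_tu]
  refine tu_mem_sup fun i j => ?_
  refine Fin.cases ?_ (fun i' => ?_) i
  · refine Fin.cases ?_ (fun j' => ?_) j
    · simpa using hd
    · simpa [dist_comm] using hv.2 j'
  · refine Fin.cases ?_ (fun j' => ?_) j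
    · simpa using hv.2 i'
    · simpa using hv.1 i' j'

theorem Sd_dia {N : ℕ} (hm : m ≤ N) {d : ℝ} (hd : 0 ≤ d) {c : Om m (Sx p)} (hc : c ∈ Sup (Dia d)) :
    Sd p m c ∈ Sup (Dia ((N : ℝ) / (N + 1) * d)) := by
  have hN : (0 : ℝ) ≤ (N : ℝ) / (N + 1) * d := by positivity
  induction m with
  | zero => exact sup_mono (fun v _ i => i.elim0) hc
  | succ m ih =>
    refine sup_map (Sd p (m + 1)) _ (fun v hv => ?_) hc
    rw [Sd, sd_tu]
    refine Sd_dia_cone hN (sup_and (ih (by omega) (Sd_dia_bd hv)) (Sd_ball (Sd_ball_bd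
      (tu_mem_sup fun i => (dist_bar hv i).trans (mul_le_mul_of_nonneg_right ?_ hd)))))
    have h : (m : ℝ) ≤ N := by exact_mod_cast (by omega : m ≤ N)
    rw [div_le_div_iff₀ (by positivity) (by positivity)]
    nlinarith

theorem Td_bal {d : ℝ} {c : Om m (Sx p)} (hc : c ∈ Sup (Dia d)) : Td p m c ∈ Sup (Bal d) := by
  cases m with
  | zero =>
    rw [Td, hom_zero]
    exact Submodule.zero_mem _
  | succ m =>
    refine sup_map (Td p (m + 1)) _ (fun v hv => ?_) hc
    exact sup_mono (fun w hw => ⟨v 0, hw⟩) (Td_ball (x := v 0) (tu_mem_sup fun i => hv i 0))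

theorem Sd_pow_vt {N : ℕ} (hm : m ≤ N) (n : ℕ) :
    (Sd m m ^ n) (tu (vt m)) ∈ Sup (Dia (((N : ℝ) / (N + 1)) ^ n)) := by
  induction n with
  | zero => exact tu_mem_sup fun i j => by simpa using dist_le_one _ _
  | succ n ih =>
    rw [pow_succ', pow_succ', Module.End.mul_apply]
    exact Sd_dia hm (by positivity) ih

end Crest.Agent.R251
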