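import Crest.Agent.R251.SHJ

/-! Row 251: existence of the model. -/

set_option autoImplicit false

noncomputable section

namespace Crest.Agent.R251

open unitInterval Set _root_.Topology Crest.Agent.R185.Top

variable {G : Type} [Group G] {J : ℕ → Type} [Unique (J 0)]

theorem exists_model (R : R3 G J) : ∃ Γ : Att G J, Model R Γ := by
  obtain ⟨γ₀, γ₁, hb⟩ := exists_low R
  let Γ₀ : Att G J := fun n => match n with
    | 0 => γ₀
    | 1 => γ₁
    | _ + 2 => fun _ _ => vtx 1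
  obtain ⟨γ₂, h1, h2⟩ := exists_hj (hb Γ₀ rfl rfl)
  let Γ : Att G J := fun n => match n with
    | 0 => γ₀
    | 1 => γ₁
    | 2 => γ₂
    | _ + 3 => fun _ _ => vtx 1
  have h : ∀ k < 2, Γ₀ k = Γ k := fun k hk => match k, hk with
    | 0, _ => rfl
    | 1, _ => rfl
  have h' : ∀ k < 2, Γ k = Γ₀ k := fun k hk => (h k hk).symm
  have hL : Low R Γ := hb Γ rfl rfl
  refine ⟨Γ, hL, fun n k _ => ?_, fun W M _ _ F K K' θ hF hK hK' hθ hθ' j => ?_⟩
  · match k with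
    | 0 => exact hL.good 0 (by norm_num)
    | 1 => exact hL.good 1 (by norm_num)
    | 2 => exact ⟨fun j => ((cts_toSk le_rfl).congr_att h').comp (h1.cts j), h1.bd, h1.dim⟩
    | k + 3 =>
      have := R.emp (k + 3 + 1) (by omega)
      exact ⟨fun j => isEmptyElim j, fun j => isEmptyElim j, fun j => isEmptyElim j⟩
  · rw [← chi_congr h le_rfl]
    exact h2 W M F K K' θ (hF.congr_att h') hK hK' hθ hθ' j

theorem Model.Ek_four {R : R3 G J} {Γ : Att G J} (_h : Model R Γ) : Ek Γ 4 = univ := by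
  refine eq_univ_of_forall fun p => ?_
  by_contra hp
  exact (R.emp p.pt.n (Nat.le_of_not_lt hp)).false p.pt.j

theorem Model.hj' {R : R3 G J} {Γ : Att G J} (h : Model R Γ) {M : Type} [AddCommGroup M]
    {θ : Co 3 (Tot Γ) M} (h1 : Z (Ek Γ 3) (cob θ)) (h2 : Z (Ek Γ 2) θ) (g : G) (j : J 3) :
    vl θ (fun y => toTot Γ (g • Γ 2 j y)) =
      lin (fun a : G × J 2 => val 2 (pb (chC Γ 2 a.1 a.2) θ)) (tl g (R.d3 j)) := by
  have e := h.hj (Tot Γ) M (fun p => toTot Γ (g • p)) (Ek Γ 3) (Ek Γ 2) θ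
    ((cts_toTot 2).smul g) (fun p hp => Nat.lt_succ_of_le hp) (fun p hp => Nat.lt_succ_of_le hp)
    h1 h2 j
  rw [e, lin_tl]
  congr 2
  funext a
  simp only [smul_chi]
  exact vl_coe θ (chC Γ 2 (g * a.1) a.2)

theorem Model.wp' {R : R3 G J} {Γ : Att G J} (h : Model R Γ) {M : Type} [AddCommGroup M]
    {θ : Co 2 (Tot Γ) M} (h1 : Z (Ek Γ 2) (cob θ)) (h2 : Z (Ek Γ 1) θ) (g : G) (r : J 2) :
    vl θ (fun y => toTot Γ (g • Γ 1 r y)) =
      lin (fun a : G × J 1 => val 1 (pb (chC Γ 1 a.1 a.2) θ)) (fox R.gen g (R.rel r)) := by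
  simp only [h.h1]
  rw [vl_wp h.h0 (F := toTot Γ) (cts_toTot 1) (fun p hp => Nat.lt_succ_of_le hp)
    (fun p hp => Nat.lt_succ_of_le hp) h1 h2]
  congr 2
  funext a
  exact vl_coe θ (chC Γ 1 a.1 a.2)

end Crest.Agent.R251
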