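import Crest.Agent.R251.SDefs

/-! Row 251: algebra of chains of tuples. -/

set_option autoImplicit false

noncomputable section

namespace Crest.Agent.R251

open unitInterval Set _root_.Topology Crest.Agent.R185.Top

variable {V V' U U' : Type} {m : ℕ}

theorem bd_bd (c : Om (m + 2) V) : bd (bd c) = 0 := by
  refine om_ext (f := bd ∘ₗ bd) (g := 0) (fun v => ?_) c
  simp only [LinearMap.comp_apply, bd_tu, map_sum, map_zsmul, Finset.smul_sum, smul_smul,
    LinearMap.zero_apply]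
  refine sum_sg_sg (fun i j => tu ((v ∘ i.succAbove) ∘ j.succAbove)) fun i j => ?_
  congr 1
  funext k
  simp only [Function.comp_apply, Fin.succAbove_succAbove_succAbove_predAbove]

theorem bd_cone (b : V) (c : Om (m + 1) V) : bd (cone b c) = c - cone b (bd c) := by
  refine om_ext (f := bd ∘ₗ cone b) (g := LinearMap.id - cone b ∘ₗ bd) (fun v => ?_) c
  simp only [LinearMap.comp_apply, LinearMap.sub_apply, LinearMap.id_apply, cone_tu, bd_tu,
    map_sum, map_zsmul]
  rw [Fin.sum_univ_succ, sub_eq_add_neg, ← Finset.sum_neg_distrib]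
  congr 1
  · have : (Fin.cons b v : Fin (m + 2) → V) ∘ (0 : Fin (m + 2)).succAbove = v := by
      funext k; simp
    rw [this]; simp
  · refine Finset.sum_congr rfl fun i _ => ?_
    have : (Fin.cons b v : Fin (m + 2) → V) ∘ (i.succ).succAbove =
        Fin.cons b (v ∘ i.succAbove) := by
      funext k
      refine Fin.cases ?_ (fun k => ?_) k
      · simp
      · simp [Fin.succ_succAbove_succ]
    rw [this, ← neg_smul]
    congr 1
    simp [sg, pow_succ]

theorem bd_cone_nil (b : V) (c : Om 0 V) : bd (cone b c) = c := by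
  refine om_ext (f := bd ∘ₗ cone b) (g := LinearMap.id) (fun v => ?_) c
  simp only [LinearMap.comp_apply, LinearMap.id_apply, cone_tu, bd_tu]
  rw [Fin.sum_univ_one]
  simp only [sg, Fin.val_zero, pow_zero, one_smul]
  exact congrArg tu (Subsingleton.elim _ _)

theorem bd_mp (f : V → V') (c : Om (m + 1) V) : bd (mp f c) = mp f (bd c) := by
  refine om_ext (f := bd ∘ₗ mp f) (g := mp f ∘ₗ bd) (fun v => ?_) c
  simp only [LinearMap.comp_apply, mp_tu, bd_tu, map_sum, map_zsmul]
  rfl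

theorem mp_cone (f : V → V') (b : V) (c : Om m V) : mp f (cone b c) = cone (f b) (mp f c) := by
  refine om_ext (f := mp f ∘ₗ cone b) (g := cone (f b) ∘ₗ mp f) (fun v => ?_) c
  simp only [LinearMap.comp_apply, mp_tu, cone_tu]
  congr 1
  funext k
  refine Fin.cases ?_ (fun k => ?_) k <;> simp

theorem mp_mp (f : V → V') (g : V' → U) (c : Om m V) : mp g (mp f c) = mp (g ∘ f) c := by
  refine om_ext (f := mp g ∘ₗ mp f) (g := mp (g ∘ f)) (fun v => ?_) c
  simp only [LinearMap.comp_apply, mp_tu]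
  rfl

theorem mp_nil (f g : V → V') (c : Om 0 V) : mp f c = mp g c := by
  refine om_ext (f := mp f) (g := mp g) (fun v => ?_) c
  simp only [mp_tu]
  congr 1
  exact Subsingleton.elim _ _

theorem hom_spec {F : ∀ m, Om m V →ₗ[ℤ] Om m V'} (b : ∀ m, (Fin (m + 1) → V) → V')
    (h0 : F 0 = 0) (hF : ∀ m c, bd (F (m + 1) c) = F m (bd c)) (m : ℕ) (c : Om (m + 1) V) :
    bd (hom F b (m + 1) c) + hom F b m (bd c) = F (m + 1) c := by
  induction m with
  | zero =>
    refine om_ext (f := bd ∘ₗ hom F b 1 + hom F b 0 ∘ₗ bd) (g := F 1) (fun v => ?_) c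
    simp only [LinearMap.add_apply, LinearMap.comp_apply]
    rw [hom_tu, bd_cone, hom_zero]
    simp only [LinearMap.zero_apply, sub_zero, add_zero]
    rw [hF, h0]
    simp
  | succ m ih =>
    refine om_ext (f := bd ∘ₗ hom F b (m + 2) + hom F b (m + 1) ∘ₗ bd) (g := F (m + 2))
      (fun v => ?_) c
    simp only [LinearMap.add_apply, LinearMap.comp_apply]
    rw [hom_tu, bd_cone, map_sub bd, hF]
    have h := ih (bd (tu v))
    rw [bd_bd, map_zero, add_zero] at h
    rw [h, sub_self, map_zero, sub_zero, sub_add_cancel]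

theorem sd_bd (b : ∀ m, (Fin (m + 1) → V) → V) (m : ℕ) (c : Om (m + 1) V) :
    bd (sd b (m + 1) c) = sd b m (bd c) := by
  induction m with
  | zero =>
    refine om_ext (f := bd ∘ₗ sd b 1) (g := sd b 0 ∘ₗ bd) (fun v => ?_) c
    simp only [LinearMap.comp_apply]
    rw [sd_tu, bd_cone_nil]
  | succ m ih =>
    refine om_ext (f := bd ∘ₗ sd b (m + 2)) (g := sd b (m + 1) ∘ₗ bd) (fun v => ?_) c
    simp only [LinearMap.comp_apply]
    rw [sd_tu, bd_cone, ih, bd_bd, map_zero, map_zero, sub_zero]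

theorem hom_nat {F : ∀ m, Om m V →ₗ[ℤ] Om m V'} {b : ∀ m, (Fin (m + 1) → V) → V'}
    {F' : ∀ m, Om m U →ₗ[ℤ] Om m U'} {b' : ∀ m, (Fin (m + 1) → U) → U'} (f : V → U) (f' : V' → U')
    (hF : ∀ m c, F' m (mp f c) = mp f' (F m c)) (hb : ∀ m v, b' m (f ∘ v) = f' (b m v)) (m : ℕ)
    (c : Om m V) : hom F' b' m (mp f c) = mp f' (hom F b m c) := by
  induction m with
  | zero => simp [hom_zero]
  | succ m ih =>
    refine om_ext (f := hom F' b' (m + 1) ∘ₗ mp f) (g := mp f' ∘ₗ hom F b (m + 1))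
      (fun v => ?_) c
    simp only [LinearMap.comp_apply]
    rw [mp_tu, hom_tu, hom_tu, mp_cone, hb, ← mp_tu, hF, bd_mp, ih, map_sub (mp f')]

theorem sd_nat {b : ∀ m, (Fin (m + 1) → V) → V} {b' : ∀ m, (Fin (m + 1) → U) → U} (f : V → U)
    (hb : ∀ m v, b' m (f ∘ v) = f (b m v)) (m : ℕ) (c : Om m V) :
    sd b' m (mp f c) = mp f (sd b m c) := by
  induction m with
  | zero => simp [sd_zero]
  | succ m ih =>
    refine om_ext (f := sd b' (m + 1) ∘ₗ mp f) (g := mp f ∘ₗ sd b (m + 1)) (fun v => ?_) c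
    simp only [LinearMap.comp_apply]
    rw [mp_tu, sd_tu, sd_tu, mp_cone, hb, ← mp_tu, bd_mp, ih]

theorem tu_mem_sup {P : (Fin m → V) → Prop} {v : Fin m → V} (h : P v) : tu v ∈ Sup P := by
  exact Finsupp.single_mem_supported ℤ 1 h

theorem sup_mono {P Q : (Fin m → V) → Prop} (h : ∀ v, P v → Q v) {c : Om m V} (hc : c ∈ Sup P) :
    c ∈ Sup Q := by
  exact Finsupp.supported_mono (fun v hv => h v hv) hc

theorem sup_and {P Q : (Fin m → V) → Prop} {c : Om m V} (hc : c ∈ Sup P) (hc' : c ∈ Sup Q) :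
    c ∈ Sup fun v => P v ∧ Q v := by
  rw [Finsupp.mem_supported] at hc hc' ⊢
  exact fun v hv => ⟨hc hv, hc' hv⟩

/-- induction over supported chains -/
theorem sup_map {A : Type} [AddCommGroup A] {P : (Fin m → V) → Prop} (f : Om m V →ₗ[ℤ] A)
    (N : Submodule ℤ A) (h : ∀ v, P v → f (tu v) ∈ N) {c : Om m V} (hc : c ∈ Sup P) :
    f c ∈ N := by
  rw [Sup, Finsupp.supported_eq_span_single] at hc
  refine Submodule.span_induction (p := fun c _ => f c ∈ N) ?_ ?_ ?_ ?_ hc
  · rintro _ ⟨v, hv, rfl⟩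
    exact h v hv
  · simp
  · intro x y _ _ hx hy
    rw [map_add]; exact N.add_mem hx hy
  · intro a x _ hx
    rw [map_smul]; exact N.smul_mem a hx

variable [TopologicalSpace V] [TopologicalSpace V'] {E M : Type} [TopologicalSpace E]
  [AddCommGroup M]

theorem evl_bd (r : Rl V) (φ : Co m E M) (ω : C(V, E)) (c : Om (m + 1) V) :
    evl r φ ω (bd c) = evl r (cob φ) ω c := by
  refine om_ext (f := evl r φ ω ∘ₗ bd) (g := evl r (cob φ) ω) (fun v => ?_) c
  simp only [LinearMap.comp_apply, bd_tu, map_sum, map_zsmul, evl_tu, cob_apply, r.face,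
    ContinuousMap.comp_assoc]

theorem evl_mp (r : Rl V) (r' : Rl V') (f : C(V, V'))
    (hf : ∀ v : Fin m → V, f.comp (r.aff v) = r'.aff (f ∘ v)) (φ : Co m E M) (ω : C(V', E))
    (c : Om m V) : evl r' φ ω (mp f c) = evl r φ (ω.comp f) c := by
  refine om_ext (f := evl r' φ ω ∘ₗ mp f) (g := evl r φ (ω.comp f)) (fun v => ?_) c
  simp only [LinearMap.comp_apply, mp_tu, evl_tu, ContinuousMap.comp_assoc, hf]

theorem evl_eq_zero (r : Rl V) {φ : Co m E M} {ω : C(V, E)} {P : (Fin m → V) → Prop}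
    (h : ∀ v, P v → φ (ω.comp (r.aff v)) = 0) {c : Om m V} (hc : c ∈ Sup P) :
    evl r φ ω c = 0 := by
  exact (Submodule.mem_bot ℤ).1 (sup_map (evl r φ ω) ⊥
    (fun v hv => by rw [evl_tu, h v hv]; exact Submodule.zero_mem _) hc)

theorem evl_z (r : Rl V) {φ : Co m E M} {ω : C(V, E)} {K : Set E} (h : Z K φ) (hω : In K ω)
    (c : Om m V) : evl r φ ω c = 0 := by
  refine om_ext (f := evl r φ ω) (g := 0) (fun v => ?_) c
  rw [evl_tu, h _ (hω.comp _), LinearMap.zero_apply]

theorem evl_eqv (r : Rl V) {S : Sym E M} {φ : Co m E M} (h : S.Eqv φ) (i : S.ι) (ω : C(V, E))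
    (c : Om m V) : evl r φ ((S.a i).comp ω) c = S.α i (evl r φ ω c) := by
  refine om_ext (f := evl r φ ((S.a i).comp ω)) (g := (S.α i).toIntLinearMap ∘ₗ evl r φ ω)
    (fun v => ?_) c
  simp only [LinearMap.comp_apply, evl_tu, ContinuousMap.comp_assoc, h i,
    AddMonoidHom.coe_toIntLinearMap]

end Crest.Agent.R251
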