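import Crest.Agent.R251.SAff

/-! Row 251: the prism operator. -/

set_option autoImplicit false

noncomputable section

namespace Crest.Agent.R251

open unitInterval Set _root_.Topology Crest.Agent.R185.Top

variable {E W Y M M' : Type} [TopologicalSpace E] [TopologicalSpace W] [TopologicalSpace Y]
  [AddCommGroup M] [AddCommGroup M'] {m : ℕ}

theorem prs_nil (φ : Co 1 E M) (h : C(Sx 0 × I, E)) : prs φ h = 0 := by
  unfold prs Pr
  rw [hom_zero, LinearMap.zero_apply, map_zero]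

theorem prs_z {K : Set E} {φ : Co (m + 1) E M} (hφ : Z K φ) {h : C(Sx m × I, E)} (hh : In K h) :
    prs φ h = 0 :=
  evl_z _ hφ hh _

theorem prs_pb (f : C(W, E)) (φ : Co (m + 1) E M) (h : C(Sx m × I, W)) :
    prs (pb f φ) h = prs φ (f.comp h) :=
  om_ext (f := evl (rP m) (pb f φ) h) (g := evl (rP m) φ (f.comp h))
    (fun v => by simp only [evl_tu, pb_apply, ContinuousMap.comp_assoc]) _

theorem prs_po (α : M →+ M') (φ : Co (m + 1) E M) (h : C(Sx m × I, E)) :
    prs (po α φ) h = α (prs φ h) :=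
  om_ext (f := evl (rP m) (po α φ) h) (g := α.toIntLinearMap ∘ₗ evl (rP m) φ h)
    (fun v => by
      simp only [LinearMap.comp_apply, evl_tu, po_apply, AddMonoidHom.coe_toIntLinearMap]) _

theorem prs_eqv {S : Sym E M} {φ : Co (m + 1) E M} (hφ : S.Eqv φ) (i : S.ι) (h : C(Sx m × I, E)) :
    prs φ ((S.a i).comp h) = S.α i (prs φ h) :=
  evl_eqv _ hφ i h _

lemma prs_cob_spec (p m : ℕ) (c : Om (m + 1) (Sx p)) :
    bd (Pr p (m + 1) c) + Pr p m (bd c) =
      mp (fun x => (x, (1 : I))) c - mp (fun x => (x, (0 : I))) c := by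
  refine hom_spec (F := fun _ => mp (fun x : Sx p => (x, (1 : I))) - mp fun x => (x, (0 : I)))
    (fun _ v => (v 0, 0)) ?_ (fun m c => ?_) m c
  · refine LinearMap.ext fun c => ?_
    rw [LinearMap.sub_apply, mp_nil _ fun x : Sx p => (x, (0 : I)), sub_self, LinearMap.zero_apply]
  · rw [LinearMap.sub_apply, LinearMap.sub_apply, map_sub, bd_mp, bd_mp]

lemma prs_cob_nat {p : ℕ} (i : Fin (p + 1)) (c : Om m (Sx p)) :
    Pr (p + 1) m (mp (fc i) c) = mp ((fc i).prodMap (ContinuousMap.id I)) (Pr p m c) := by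
  refine hom_nat (fc i) ((fc i).prodMap (ContinuousMap.id I)) (fun m c => ?_) (fun _ _ => rfl) m c
  rw [LinearMap.sub_apply, LinearMap.sub_apply, map_sub, mp_mp, mp_mp, mp_mp, mp_mp]
  rfl

lemma prs_cob_aff {p : ℕ} (i : Fin (p + 1)) (v : Fin m → Sx p × I) :
    ((fc i).prodMap (ContinuousMap.id I)).comp ((rP p).aff v) =
      (rP (p + 1)).aff ((fc i).prodMap (ContinuousMap.id I) ∘ v) :=
  ContinuousMap.ext fun x => Prod.ext (DFunLike.congr_fun (fc_aff i (Prod.fst ∘ v)) x) rfl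

lemma prs_cob_sl (h : C(Sx m × I, E)) (t : I) :
    h.comp ((rP m).aff ((fun x => (x, t)) ∘ vt m)) = sl h t := by
  refine ContinuousMap.ext fun x => congrArg h (Prod.ext (DFunLike.congr_fun (aff_vt m) x) ?_)
  refine Subtype.ext ?_
  change ∑ i, x i • (t : ℝ) = t
  rw [← Finset.sum_smul]
  have : ∑ i, x i = 1 := x.2.2
  rw [this, one_smul]
/-- the prism formula -/
theorem prs_cob (φ : Co (m + 1) E M) (h : C(Sx (m + 1) × I, E)) :
    prs (cob φ) h + ∑ i : Fin (m + 1), sg i • prs φ (trk h (fc i)) = φ (sl h 1) - φ (sl h 0) := by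
  have hs := congrArg (evl (rP (m + 1)) φ h) (prs_cob_spec (m + 1) m (tu (vt (m + 1))))
  rw [map_add, evl_bd, map_sub, mp_tu, mp_tu, evl_tu, evl_tu, prs_cob_sl, prs_cob_sl, bd_vt,
    map_sum, map_sum] at hs
  rw [← hs]
  congr 1
  refine Finset.sum_congr rfl fun i _ => ?_
  rw [map_zsmul, map_zsmul, prs_cob_nat]
  congr 1
  exact (evl_mp (rP m) (rP (m + 1)) ((fc i).prodMap (ContinuousMap.id I))
    (fun v => prs_cob_aff i v) φ h _).symm

theorem pr_cob (H : C(W × I, E)) (φ : Co (m + 1) E M) :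
    pr H (cob φ) + cob (pr H φ) = pb (sl H 1) φ - pb (sl H 0) φ :=
  funext fun τ => prs_cob φ (trk H τ)

theorem pr_nil (H : C(W × I, E)) (φ : Co 1 E M) : pr H φ = 0 :=
  funext fun τ => prs_nil φ (trk H τ)

theorem Z.pr {K : Set E} {K' : Set W} {φ : Co (m + 1) E M} (hφ : Z K φ) (H : C(W × I, E))
    (hH : ∀ x ∈ K', ∀ t, H (x, t) ∈ K) : Z K' (pr H φ) :=
  fun _ hτ => prs_z hφ fun q => hH _ (hτ q.1) q.2

theorem pb_pr (f : C(Y, W)) (H : C(W × I, E)) (φ : Co (m + 1) E M) :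
    pb f (pr H φ) = pr (trk H f) φ := rfl

theorem pr_pb (f : C(W, E)) (H : C(Y × I, W)) (φ : Co (m + 1) E M) :
    pr H (pb f φ) = pr (f.comp H) φ := funext fun _ => prs_pb f φ _

theorem pr_po (α : M →+ M') (H : C(W × I, E)) (φ : Co (m + 1) E M) :
    pr H (po α φ) = po α (pr H φ) := funext fun _ => prs_po α φ _

end Crest.Agent.R251
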