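import Crest.Agent.R251.SCell
import Crest.Agent.R251.SModel
import Crest.Agent.R197.Gen
import Crest.Agent.R197.Retract

/-! Row 251: the model is simply connected. -/

set_option autoImplicit false

noncomputable section

namespace Crest.Agent.R251

open unitInterval Set _root_.Topology Crest.Agent.R185.Top

variable {G : Type} [Group G] {J : ℕ → Type} [Unique (J 0)] {Γ : Att G J}

/-- shrinking the coordinates other than those in `S` -/
def push_path_shr {n : ℕ} (S : Fin n → Prop) [DecidablePred S] (x : Cb n) :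
    Path x fun i => if S i then x i else 0 where
  toFun t i := if S i then x i else TC.pj ((1 - t) * x i)
  continuous_toFun := continuous_pi fun i => by
    split_ifs
    · exact continuous_const
    · fun_prop
  source' := funext fun i => by
    split_ifs
    · rfl
    · exact TC.pj_eq (by simp)
  target' := funext fun i => by
    split_ifs
    · rfl
    · exact TC.pj_eq (by simp)

theorem push_path_contr (n : ℕ) : ContractibleSpace (Cb n) :=
  (contractible_iff_id_nullhomotopic _).2 ⟨fun _ => 0,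
    ⟨⟨⟨fun q i => TC.pj ((1 - q.1) * q.2 i), by fun_prop⟩,
      fun x => funext fun i => TC.pj_eq (by simp), fun x => funext fun i => TC.pj_eq (by simp)⟩⟩⟩

theorem push_path_bd0 {n : ℕ} {x : Cb n} {i : Fin n} (h : x i = 0) :
    JoinedIn (Bd n) x fun _ => 0 :=
  ⟨(push_path_shr (fun _ => False) x).cast rfl (funext fun _ => (if_neg id).symm), fun t =>
    ⟨i, Or.inl ((if_neg id : (if False then x i else _) = _).trans (TC.pj_eq (by simp [h])))⟩⟩

theorem push_path_bd {k : ℕ} {x : Cb (k + 2)} (h : x ∈ Bd (k + 2)) :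
    JoinedIn (Bd (k + 2)) x fun _ => 0 := by
  obtain ⟨i, h | h⟩ := h
  · exact push_path_bd0 h
  · obtain ⟨j, hj⟩ := exists_ne i
    exact JoinedIn.trans ⟨push_path_shr (· = i) x, fun t => ⟨i, Or.inr ((if_pos rfl).trans h)⟩⟩
      (push_path_bd0 (i := j) (if_neg hj))

omit [Unique (J 0)] [Group G] in
theorem push_path_cases {n : ℕ} {p : Pt G J} (hp : p.n = n) :
    ∃ g j x hx, p = ⟨n, g, j, x, hx⟩ := by
  obtain ⟨m, g, j, x, hx⟩ := p
  subst hp
  exact ⟨g, j, x, hx, rfl⟩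

/-- Paths can be pushed off the cells of dimension at least two. -/
theorem push_path (hΓ : ∀ n, Good Γ n) (k : ℕ) {x y : Tot Γ} (hx : x ∈ Ek Γ (k + 2))
    (hy : y ∈ Ek Γ (k + 2)) (p : Path x y) (hp : ∀ t, p t ∈ Ek Γ (k + 3)) :
    ∃ q : Path x y, (∀ t, q t ∈ Ek Γ (k + 2)) ∧ p.Homotopic q := by
  obtain ⟨R, R1, R2, R3, -⟩ := exists_rad hΓ (k + 2)
  have := push_path_contr (k + 2)
  have Rc : ∀ p : Pt G J, p.n ≤ k + 2 → p.n < k + 2 ∨
      ∃ g j x, x ∉ Bd (k + 2) ∧ p = chi Γ (k + 2) g j x := fun p hp => by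
    rcases hp.lt_or_eq with h | h
    · exact Or.inl h
    · obtain ⟨g, j, x, hx, e⟩ := push_path_cases h
      exact Or.inr ⟨g, j, x, hx, e.trans (chi_int g j hx).symm⟩
  have Rd : ∀ p : Pt G J, p.n ≤ k + 2 → ∀ t, (R p t).n < k + 3 := fun p hp t => by
    rcases Rc p hp with h | ⟨g, j, x, -, rfl⟩
    · rw [R2 p h]; omega
    · rw [R3]; exact chC_mem_Ek hΓ g j _
  have R0 : ∀ p : Pt G J, p.n ≤ k + 2 → R p 0 = p := fun p hp => by
    rcases Rc p hp with h | ⟨g, j, x, -, rfl⟩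
    · rw [R2 p h]
    · rw [R3, retr_zero]
  have Re : ∀ p : Tot Γ, p ∈ Ek Γ (k + 3) → p ∈ Uk Γ (k + 2) → (R p.pt 1).n < k + 2 :=
    fun p hp hU => by
    rcases Rc p.pt (Nat.le_of_lt_succ hp) with h | ⟨g, j, x, -, e⟩
    · rwa [R2 _ h]
    · have e' : p = chC Γ (k + 2) g j x := e
      rw [e, R3]
      exact chC_bd hΓ g j (retr_one ((chC_mem_Uk hΓ g j x).1 (e' ▸ hU)))
  let Z : Type := Ek Γ (k + 3)
  have hZ : Continuous fun z : Z => toSk Γ (k + 2) z.1.pt :=
    continuousOn_iff_continuous_domRestrict.1 (continuousOn_toSk hΓ (k + 2))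
  let ρ : C(Z × I, Z) := ⟨fun q => ⟨toTot Γ (R q.1.1.pt q.2), Rd _ (Nat.le_of_lt_succ q.1.2) _⟩,
    Continuous.subtype_mk ((cts_toTot (k + 2)).comp (R1.comp (hΓ _) (hZ.comp continuous_fst)
      (fun q => Nat.le_of_lt_succ q.1.2) continuous_snd)) _⟩
  have ρ0 : ∀ z, ρ (z, 0) = z := fun z => Subtype.ext (R0 _ (Nat.le_of_lt_succ z.2))
  let χ : G → J (k + 2) → C(Cb (k + 2), Z) := fun g j =>
    ⟨fun x => ⟨chC Γ (k + 2) g j x, chC_mem_Ek hΓ g j x⟩, (chC Γ (k + 2) g j).continuous.subtype_mk _⟩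
  let T : Z → (I → Z) → Prop := fun z α =>
    (z.1 ∈ Uk Γ (k + 2) → ∀ s, α s = ρ (z, s)) ∧ ∀ g j x, x ∉ Bd (k + 2) → z = χ g j x →
      ∃ x' ∈ Bd (k + 2), ∃ a : Path x x', ∀ s, α s = χ g j (a s)
  have hT : ∀ z : Z, ∃ (c : Z) (α : Path z c), T z α := fun z => by
    by_cases hU : z.1 ∈ Uk Γ (k + 2)
    · refine ⟨_, ⟨⟨fun s => ρ (z, s), by fun_prop⟩, ρ0 z, rfl⟩, fun _ _ => rfl, ?_⟩
      rintro g j x - rfl
      exact ⟨_, retr_one ((chC_mem_Uk hΓ g j x).1 hU), ⟨⟨fun s => (TC.retr (x, s)).1,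
        (TC.continuous_retr.comp (Continuous.prodMk_right x)).fst⟩, retr_zero x, rfl⟩,
        fun s => Subtype.ext (R3 g j x s)⟩
    · obtain ⟨g, j, x, hx, e⟩ := (Rc z.1.pt (Nat.le_of_lt_succ z.2)).resolve_left
        fun h => hU (Or.inl h)
      obtain rfl : z = χ g j x := Subtype.ext e
      let a : Path x fun _ => 0 := PathConnectedSpace.somePath _ _
      refine ⟨_, a.map (χ g j).continuous, fun h => absurd h hU, fun g' j' x' hx' e' => ?_⟩
      have e2 : chi Γ (k + 2) g j x = chi Γ (k + 2) g' j' x' := congrArg Subtype.val e'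
      rw [chi_int g j hx, chi_int g' j' hx'] at e2
      simp only [Pt.mk.injEq, heq_eq_eq, true_and] at e2
      obtain ⟨rfl, rfl, rfl⟩ := e2
      exact ⟨_, ⟨0, Or.inl rfl⟩, a, fun _ => rfl⟩
  have hT0 : ∀ z : Z, z.1 ∈ Ek Γ (k + 2) → T z (Path.refl z) := fun z hz =>
    ⟨fun _ s => Subtype.ext (R2 _ hz s).symm, fun g j x hx e =>
      absurd (chC_int (Γ := Γ) g j hx) (by
        have e2 : z.1 = chC Γ (k + 2) g j x := congrArg Subtype.val e
        rw [← e2]
        exact ne_of_lt hz)⟩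
  let x' : Z := ⟨x, Ek_mono (Nat.le_succ _) hx⟩
  let y' : Z := ⟨y, Ek_mono (Nat.le_succ _) hy⟩
  let p' : Path x' y' := ⟨⟨fun t => ⟨p t, hp t⟩, p.continuous.subtype_mk _⟩,
    Subtype.ext p.source, Subtype.ext p.target⟩
  have key := R197.genStmt Z (fun {u v} ξ => ∀ (a b : Z) (α : Path u a) (β : Path v b),
    T u α → T v β → ∃ q : Path a b, (∀ t, (q t).1 ∈ Ek Γ (k + 2)) ∧
      ξ.trans (Path.Homotopic.Quotient.mk β) =
        (Path.Homotopic.Quotient.mk α).trans (Path.Homotopic.Quotient.mk q)) ?_ ?_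
    (Path.Homotopic.Quotient.mk p') x' y' (Path.refl _) (Path.refl _) (hT0 x' hx) (hT0 y' hy)
  · obtain ⟨q, h1, h2⟩ := key
    have h3 : p'.Homotopic q := Path.Homotopic.Quotient.eq.1 (by simpa using h2)
    exact ⟨q.map continuous_subtype_val, h1, h3.map ⟨_, continuous_subtype_val⟩⟩
  · intro u v w ξ ζ h1 h2 a b α β hα hβ
    obtain ⟨c, γ, hγ⟩ := hT v
    obtain ⟨q₁, a1, e1⟩ := h1 a c α γ hα hγ
    obtain ⟨q₂, a2, e2⟩ := h2 c b γ β hγ hβ
    refine ⟨q₁.trans q₂, fun t => ?_, ?_⟩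
    · rcases (Path.trans_range q₁ q₂).subset (mem_range_self t) with ⟨s, h⟩ | ⟨s, h⟩
      · exact h ▸ a1 s
      · exact h ▸ a2 s
    · rw [Path.Homotopic.Quotient.trans_assoc, e2, ← Path.Homotopic.Quotient.trans_assoc, e1,
        Path.Homotopic.Quotient.trans_assoc, Path.Homotopic.Quotient.mk_trans]
  · intro z
    rcases (cov_cell hΓ (k + 2)).nhds z.1 z.2 with h | h
    · refine ⟨_, preimage_coe_mem_nhds_subtype.2 h, fun {u v} γ hγ a b α β hα hβ => ?_⟩
      have h1 := hα.1 (by simpa using hγ 0)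
      have h2 := hβ.1 (by simpa using hγ 1)
      let q : Path a b := ⟨⟨fun s => ρ (γ s, 1), by fun_prop⟩,
        by simp [← h1], by simp [← h2]⟩
      refine ⟨q, fun s => Re _ (γ s).2 (hγ s), ?_⟩
      exact R197.Retract.square (S := I × I) ⟨fun r => ρ (γ r.1, r.2), by fun_prop⟩
        (Path.id.prod (Path.refl 0)) ((Path.refl 1).prod Path.id)
        ((Path.refl 0).prod Path.id) (Path.id.prod (Path.refl 1)) γ β α q
        (fun s => by simp [ρ0]) (fun s => by simp [h2]) (fun s => by simp [h1])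
        (fun s => by simp [q])
    · refine ⟨_, preimage_coe_mem_nhds_subtype.2 h, fun {u v} γ hγ a b α β hα hβ => ?_⟩
      obtain ⟨g, j, ω, h1, h2⟩ := exists_lift hΓ (k := k + 2)
        (ω := ⟨fun s => (γ s).1, continuous_subtype_val.comp γ.continuous⟩) hγ
      have h3 : ∀ s, γ s = χ g j (ω s) := fun s => Subtype.ext (DFunLike.congr_fun h2 s)
      obtain ⟨u', hu, a', ha⟩ := hα.2 g j (ω 0) (h1 0) (γ.source.symm.trans (h3 0))
      obtain ⟨v', hv, b', hb⟩ := hβ.2 g j (ω 1) (h1 1) (γ.target.symm.trans (h3 1))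
      obtain ⟨c, hc⟩ := (push_path_bd hu).trans (push_path_bd hv).symm
      let q : Path a b := ⟨⟨fun s => χ g j (c s), by fun_prop⟩,
        by simpa using (ha 1).symm, by simpa using (hb 1).symm⟩
      exact ⟨q, fun s => chC_bd hΓ g j (hc s), R197.Retract.square (χ g j) ⟨ω, rfl, rfl⟩ b' a' c
        γ β α q h3 hb ha fun _ => rfl⟩

end Crest.Agent.R251
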