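import Crest.Agent.R251.SMesh

/-! Row 251: small simplices. -/

set_option autoImplicit false

noncomputable section

namespace Crest.Agent.R251

open unitInterval Set _root_.Topology Crest.Agent.R185.Top

variable {E M : Type} [TopologicalSpace E] [AddCommGroup M] {m : ℕ} {S : Sym E M} {A B C : Set E}

/-- every ball of radius `d` is mapped into `A` or into `B` -/
def smallL (A B : Set E) (d : ℝ) {p : ℕ} (w : C(Sx p, E)) : Prop :=
  ∀ x, (∀ y, dist y x ≤ d → w y ∈ A) ∨ ∀ y, dist y x ≤ d → w y ∈ B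

theorem smallL.mono {d d' : ℝ} {p : ℕ} {w : C(Sx p, E)} (h : smallL A B d w) (hd : d' ≤ d) :
    smallL A B d' w := fun x =>
  (h x).imp (fun h y hy => h y (hy.trans hd)) fun h y hy => h y (hy.trans hd)

theorem smallL.face {d : ℝ} {p : ℕ} {w : C(Sx (p + 1), E)} (h : smallL A B d w) (i : Fin (p + 1)) :
    smallL A B d (w.comp (fc i)) := fun x =>
  (h (fc i x)).imp (fun h y hy => h _ ((dist_fc i y x).trans hy))
    fun h y hy => h _ ((dist_fc i y x).trans hy)

theorem small_leb {p : ℕ} {w : C(Sx p, E)} (hc : Cov C A B) (hw : In C w) :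
    ∃ δ, 0 < δ ∧ smallL A B δ w := by
  obtain ⟨δ, hδ, h⟩ := lebesgue_number_lemma_of_metric (s := (univ : Set (Sx p)))
    (c := fun b : Bool => interior (w ⁻¹' (if b then A else B))) isCompact_univ
    (fun _ => isOpen_interior) (fun x _ => by
      have ht : Filter.Tendsto w (𝓝 x) (𝓝[C] (w x)) :=
        tendsto_nhdsWithin_iff.2 ⟨w.continuous.tendsto x, Filter.Eventually.of_forall hw⟩
      rcases hc.nhds _ (hw x) with h | h
      · exact mem_iUnion.2 ⟨true, mem_interior_iff_mem_nhds.2 (ht h)⟩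
      · exact mem_iUnion.2 ⟨false, mem_interior_iff_mem_nhds.2 (ht h)⟩)
  refine ⟨δ / 2, half_pos hδ, fun x => ?_⟩
  obtain ⟨b, hb⟩ := h x (mem_univ x)
  have hb' : ∀ y, dist y x ≤ δ / 2 → w y ∈ (if b then A else B) := fun y hy =>
    interior_subset (s := w ⁻¹' (if b then A else B)) (hb (Metric.mem_ball.2 (hy.trans_lt (half_lt_self hδ))))
  cases b
  · exact Or.inr hb'
  · exact Or.inl hb'

theorem small_key {φ : Co m E M} (h₁ : Z A φ) (h₂ : Z B φ) {d : ℝ} {p : ℕ} {w : C(Sx p, E)}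
    (h : smallL A B d w) {c : Om m (Sx p)} (hc : c ∈ Sup (Bal d)) : evl (rS p) φ w c = 0 := by
  refine evl_eq_zero _ (fun v hv => ?_) hc
  obtain ⟨x, hx⟩ := hv
  rcases h x with h | h
  · exact h₁ _ fun y => h _ (aff_ball hx y)
  · exact h₂ _ fun y => h _ (aff_ball hx y)

theorem small_pow_bd {p : ℕ} (n : ℕ) (c : Om (m + 1) (Sx p)) :
    bd ((Sd p (m + 1) ^ n) c) = (Sd p m ^ n) (bd c) := by
  induction n with
  | zero => rfl
  | succ n ih => rw [pow_succ', pow_succ', Module.End.mul_apply, Module.End.mul_apply, Sd_bd, ih]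

theorem small_pow_nat {p : ℕ} (i : Fin (p + 1)) (n : ℕ) (c : Om m (Sx p)) :
    (Sd (p + 1) m ^ n) (mp (fc i) c) = mp (fc i) ((Sd p m ^ n) c) := by
  induction n with
  | zero => rfl
  | succ n ih => rw [pow_succ', pow_succ', Module.End.mul_apply, Module.End.mul_apply, ih, Sd_nat]

theorem small_tel {p : ℕ} (n : ℕ) (c : Om (m + 1) (Sx p)) :
    bd (∑ j ∈ Finset.range n, Td p (m + 1) ((Sd p (m + 1) ^ j) c)) +
      ∑ j ∈ Finset.range n, Td p m ((Sd p m ^ j) (bd c)) = c - (Sd p (m + 1) ^ n) c := by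
  induction n with
  | zero => simp
  | succ n ih =>
    rw [Finset.sum_range_succ, Finset.sum_range_succ, map_add, add_add_add_comm, ih,
      ← small_pow_bd, Td_spec, pow_succ', Module.End.mul_apply, sub_add_sub_cancel]

/-- A cocycle that vanishes on small simplices is the coboundary of such a cochain. -/
theorem small (hc : Cov C A B) (hA : S.Inv A) (hB : S.Inv B) {φ : Co (m + 1) E M} (hφ : S.Eqv φ)
    (hC : Z C (cob φ)) (h₁ : Z A φ) (h₂ : Z B φ) :
    ∃ ψ : Co m E M, S.Eqv ψ ∧ Z A ψ ∧ Z B ψ ∧ Z C (φ - cob ψ) := by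
  obtain ⟨ρ, hρ⟩ : ∃ ρ : ℝ, ρ = ((m + 1 : ℕ) : ℝ) / ((m + 1 : ℕ) + 1) := ⟨_, rfl⟩
  have hρ0 : 0 ≤ ρ := by rw [hρ]; positivity
  have hρ1 : ρ < 1 := by rw [hρ, div_lt_one (by positivity)]; linarith
  have hdia : ∀ {q : ℕ}, q ≤ m + 1 → ∀ n, (Sd q q ^ n) (tu (vt q)) ∈ Sup (Dia (ρ ^ n)) :=
    fun hq n => hρ ▸ Sd_pow_vt hq n
  refine ⟨fun t => evl (rS m) φ t (∑ j ∈ Finset.range (sInf {n | smallL A B (ρ ^ n) t}),
    Td m m ((Sd m m ^ j) (tu (vt m)))), fun i t => ?_, fun t ht => ?_, fun t ht => ?_,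
    fun w hw => ?_⟩
  · have e : {n | smallL A B (ρ ^ n) ((S.a i).comp t)} = {n | smallL A B (ρ ^ n) t} := by
      ext n
      exact forall_congr' fun x => or_congr
        (forall_congr' fun y => imp_congr_right fun _ => hA i (t y))
        (forall_congr' fun y => imp_congr_right fun _ => hB i (t y))
    simp only [e]
    exact evl_eqv _ hφ i t _
  · have e : sInf {n | smallL A B (ρ ^ n) t} = 0 :=
      Nat.sInf_eq_zero.2 (Or.inl fun x => Or.inl fun y _ => ht y)
    simp only [e, Finset.range_zero, Finset.sum_empty, map_zero]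
  · have e : sInf {n | smallL A B (ρ ^ n) t} = 0 :=
      Nat.sInf_eq_zero.2 (Or.inl fun x => Or.inr fun y _ => ht y)
    simp only [e, Finset.range_zero, Finset.sum_empty, map_zero]
  · obtain ⟨n, hn⟩ : ∃ n, smallL A B (ρ ^ n) w := by
      obtain ⟨δ, hδ, h⟩ := small_leb hc hw
      obtain ⟨n, hn⟩ := exists_pow_lt_of_lt_one hδ hρ1
      exact ⟨n, h.mono hn.le⟩
    have tel := congrArg (evl (rS (m + 1)) φ w) (small_tel n (tu (vt (m + 1))))
    rw [map_add, map_sub, evl_bd, evl_z _ hC hw, zero_add, evl_tu, aff_vt, ContinuousMap.comp_id,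
      small_key h₁ h₂ hn (sup_mono (fun v hv => ⟨v 0, fun i => hv i 0⟩) (hdia le_rfl n)),
      sub_zero] at tel
    rw [Pi.sub_apply, ← tel, cob_apply, sub_eq_zero]
    simp only [bd_vt, map_sum, map_zsmul, small_pow_nat, Td_nat]
    rw [Finset.sum_comm]
    refine Finset.sum_congr rfl fun i _ => ?_
    rw [← Finset.smul_sum]
    congr 1
    have hne : n ∈ {n | smallL A B (ρ ^ n) (w.comp (fc i))} := hn.face i
    symm
    refine (Finset.sum_subset (Finset.range_mono (Nat.sInf_le hne)) fun j _ hj => ?_).trans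
      (Finset.sum_congr rfl fun j _ => (evl_mp (rS m) (rS (m + 1)) (fc i) (fc_aff i) φ w _).symm)
    have hj' : sInf {n | smallL A B (ρ ^ n) (w.comp (fc i))} ≤ j :=
      not_lt.1 fun h => hj (Finset.mem_range.2 h)
    exact small_key h₁ h₂ (smallL.mono (Nat.sInf_mem ⟨n, hne⟩)
      (pow_le_pow_of_le_one hρ0 hρ1.le hj')) (Td_bal (hdia (Nat.le_succ m) j))

end Crest.Agent.R251
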