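import Crest.Agent.R251.SGlue
import Crest.Agent.R251.SLoc

/-! Row 251: cocycles with given values on the cells. -/

set_option autoImplicit false

noncomputable section

namespace Crest.Agent.R251

open unitInterval Set _root_.Topology Crest.Agent.R185.Top

variable {G : Type} [Group G] {J : ℕ → Type} [Unique (J 0)] {Γ : Att G J} {k m : ℕ}
  {H : Subgroup G} {M : Type} [AddCommGroup M] [DistribMulAction H M]

/-- The value of a relative cocycle on the cube only depends on the open cube. -/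
theorem val_eq_of_int {θ θ' : Co (k + 1) (Cb k) M} (h1 : cob θ = 0) (h2 : cob θ' = 0)
    (h3 : Z (Col k) θ) (h4 : Z (Col k) θ') (h : Z (Bd k)ᶜ (θ - θ')) : val k θ = val k θ' := by
  have hopen : IsOpen (Col k) := by
    have e : Col k = ⋃ i, ({x : Cb k | (x i : ℝ) < 1 / 4} ∪ {x | 3 / 4 < (x i : ℝ)}) := by
      ext x; simp [Col]
    rw [e]
    exact isOpen_iUnion fun i =>
      (isOpen_lt (continuous_subtype_val.comp (continuous_apply i)) continuous_const).union
        (isOpen_lt continuous_const (continuous_subtype_val.comp (continuous_apply i)))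
  have hc : Cov (univ : Set (Cb k)) (Col k) (Bd k)ᶜ := by
    refine ⟨subset_univ _, subset_univ _, fun x _ => ?_⟩
    rw [nhdsWithin_univ]
    by_cases hx : x ∈ Bd k
    · exact Or.inl (hopen.mem_nhds (bd_subset_col k hx))
    · exact Or.inr ((isClosed_Bd k).isOpen_compl.mem_nhds hx)
  obtain ⟨ψ, -, hψ, -, he⟩ := small (S := Sym.triv _ M) hc (Sym.inv_triv _) (Sym.inv_triv _)
    (φ := θ - θ') (Sym.eqv_triv _) (z_univ.2 (by rw [map_sub, h1, h2, sub_zero])) (h3.sub h4) h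
  have h5 : θ - θ' = cob ψ := sub_eq_zero.1 (z_univ.1 he)
  have h6 := stokes (hψ.mono (bd_subset_col k))
  rw [← h5, map_sub] at h6
  exact sub_eq_zero.1 h6

theorem cell_surj (hΓ : ∀ n, Good Γ n) (b : G × J k → M) (hb : CEq H b) :
    ∃ θ : Co (k + 1) (Tot Γ) M, (sym Γ H M).Eqv θ ∧ Z (Ek Γ (k + 1)) (cob θ) ∧ Z (Ek Γ k) θ ∧
      ∀ g j, val k (pb (chC Γ k g j) θ) = b (g, j) := by
  obtain ⟨β, hβ, he⟩ := eq_choice (H := H) (X := J k) (T := Co (k + 1) (Cb k) M)
    (fun g j t => cob t = 0 ∧ Z (Col k) t ∧ val k t = b (g, j))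
    (fun h g j t ht => by
      have e : h • t = po (DistribSMul.toAddMonoidHom M h) t := rfl
      refine ⟨?_, ?_, ?_⟩
      · rw [e, ← po_cob, ht.1, map_zero]
      · rw [e]; exact ht.2.1.po _
      · rw [e, val_po, ht.2.2, hb]; rfl)
    (fun g j => loc_surj k (b (g, j)))
  obtain ⟨c, hc1, hc2, hc3⟩ := exists_glue β (fun g j => (hβ g j).2.1) he hΓ
  have hc4 : Z (Ok Γ k) (cob c) := z_Ok hΓ fun g j => by
    have h1 := (hc3 g j).cob
    rw [map_sub, (hβ g j).1, sub_zero] at h1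
    exact h1
  obtain ⟨θ, h1, h2, h3, h4⟩ := ext_cocycle (cov_cell hΓ k) (inv_Uk k) (inv_Ok k) hc1 hc4 hc2
  refine ⟨θ, h1, h2, h3.mono Ek_subset_Uk, fun g j => ?_⟩
  rw [← (hβ g j).2.2]
  refine val_eq_of_int ?_ (hβ g j).1 ?_ (hβ g j).2.1 ?_
  · rw [← pb_cob]
    exact z_univ.1 (h2.pb _ fun x _ => chC_mem_Ek hΓ g j x)
  · exact h3.pb _ fun x hx => (chC_mem_Uk hΓ g j x).2 hx
  · refine ((hc3 g j).sub (h4.pb (chC Γ k g j) fun x hx => chC_int g j hx)).congr ?_
    rw [map_sub]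
    abel

omit [DistribMulAction H M] in
theorem cell_bd (hΓ : ∀ n, Good Γ n) {θ : Co (k + 1) (Tot Γ) M} (h : Z (Ek Γ 1) θ) (g : G)
    (j : J (k + 1)) : val (k + 1) (pb (chC Γ (k + 1) g j) (cob θ)) =
      -vl θ fun y => toTot Γ (g • Γ k j y) := by
  have hv : toTot Γ (vtx g) ∈ Ek Γ 1 := Nat.zero_lt_one
  have h1 : Z {x : Cb (k + 1) | Fin.tail x ∈ Bd k} (pb (chC Γ (k + 1) g j) θ) :=
    h.pb _ fun x hx => by rw [chC_apply, chi_side (hΓ _) g j hx]; exact hv
  have h2 : pb (sl (cI k) 1) (pb (chC Γ (k + 1) g j) θ) = 0 := by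
    rw [pb_pb]
    refine z_univ.1 (h.pb _ fun x _ => ?_)
    rw [ContinuousMap.comp_apply, chC_apply, chi_top g j rfl]
    exact hv
  have h3 : (fun y => toTot Γ (g • Γ k j y)) = ⇑((chC Γ (k + 1) g j).comp (sl (cI k) 0)) := by
    funext y
    rw [ContinuousMap.comp_apply, chC_apply, sl_apply, cI_apply, chi_cons_zero]
  rw [pb_cob, stokes_succ h1, h2, map_zero, zero_sub, h3, vl_coe, pb_pb]

theorem val_eqv {φ : Co (k + 1) (Tot Γ) M} (hφ : (sym Γ H M).Eqv φ) :
    CEq H fun a : G × J k => val k (pb (chC Γ k a.1 a.2) φ) := by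
  intro h g j
  have e : pb (chC Γ k (h * g) j) φ =
      po (DistribSMul.toAddMonoidHom M h) (pb (chC Γ k g j) φ) := by
    funext ω
    rw [← sym_chC (M := M) h g j, pb_apply, ContinuousMap.comp_assoc, hφ]
    rfl
  change val k (pb (chC Γ k (h * g) j) φ) = h • val k (pb (chC Γ k g j) φ)
  rw [e, val_po]
  rfl

end Crest.Agent.R251
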