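import Crest.Agent.R251.SModel
import Crest.Agent.R251.SGlob
import Crest.Agent.R251.SSurj

/-! Row 251: the cohomology of the model. -/

set_option autoImplicit false

noncomputable section

namespace Crest.Agent.R251

open unitInterval Set _root_.Topology Crest.Agent.R185.Top

variable {G : Type} [Group G] {J : ℕ → Type} [Unique (J 0)] {R : R3 G J} {Γ : Att G J}
  {H : Subgroup G} {M : Type} [AddCommGroup M] [DistribMulAction H M]

theorem van_high_neg {X A : Type} [AddCommGroup A] (c : X → A) (z : X →₀ ℤ) :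
    lin (fun x => -c x) z = -lin c z := (map_lin negAddMonoidHom c z).symm

theorem van_high_low (hΓ : ∀ n, Good Γ n) {m k : ℕ} (hk : k ≤ m) :
    Van (sym Γ H M) m (Ek Γ k) ∅ := by
  induction k with
  | zero => rw [Ek_zero]; exact Van.refl _ _ _
  | succ k ih =>
    exact (cell_van hΓ (by omega)).trans (ih (by omega)) (empty_subset _) (Ek_mono k.le_succ)

theorem van_high_step (hΓ : ∀ n, Good Γ n) {k : ℕ} (hk : 1 ≤ k) {φ : Co (k + 2) (Tot Γ) M}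
    (e : (sym Γ H M).Eqv φ) (hc : cob φ = 0) (h0 : Z (Ek Γ (k + 1)) φ) (b : G × J k → M)
    (hb : CEq H b) (hv : ∀ θ : Co (k + 1) (Tot Γ) M, Z (Ek Γ (k + 1)) (cob θ) → Z (Ek Γ k) θ →
      (fun a : G × J k => val k (pb (chC Γ k a.1 a.2) θ)) = b → ∀ g j,
        -vl θ (fun y => toTot Γ (g • Γ k j y)) = val (k + 1) (pb (chC Γ (k + 1) g j) φ)) :
    ∃ ψ : Co (k + 1) (Tot Γ) M, (sym Γ H M).Eqv ψ ∧ Z (Ek Γ (k + 2)) (φ - cob ψ) := by
  obtain ⟨θ, e₁, c₁, z₁, v₁⟩ := cell_surj hΓ b hb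
  obtain ⟨β, e₂, -, z₂⟩ := cell_inj hΓ (e.sub e₁.cob)
    ((Z.zero _).congr (by rw [map_sub, cob_cob, hc, sub_zero])) (h0.sub c₁) fun g j => by
      rw [map_sub, map_sub, cell_bd hΓ (z₁.mono (Ek_mono hk)),
        hv θ c₁ z₁ (funext fun a => v₁ a.1 a.2), sub_self]
  exact ⟨θ + β, e₁.add e₂, by rwa [map_add, ← sub_sub]⟩

theorem Model.van_high (h : Model R Γ) {m : ℕ} (hm : 3 ≤ m) : Van (sym Γ H M) m univ ∅ := by
  rcases hm.eq_or_lt with rfl | hm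
  swap
  · rw [← h.Ek_four]
    exact van_high_low h.all hm
  intro φ e hc h0
  obtain ⟨ψ₁, e₁, -, z₁⟩ := van_high_low (H := H) h.all (le_refl 3) φ e (hc.mono (subset_univ _)) h0
  have hc₁ : cob (φ - cob ψ₁) = 0 := by rw [map_sub, cob_cob, z_univ.1 hc, sub_zero]
  have ce := (val_eqv (k := 3) (e.sub e₁.cob)).lin_tl R.s
  obtain ⟨ψ₂, e₂, z₂⟩ := van_high_step h.all (k := 2) one_le_two (e.sub e₁.cob) hc₁ z₁
    (fun a => -lin (fun a : G × J 3 => val 3 (pb (chC Γ 3 a.1 a.2) (φ - cob ψ₁)))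
      (tl a.1 (R.s a.2))) (fun h g x => by rw [smul_neg]; exact congrArg Neg.neg (ce h g x))
    fun θ c₁ c₂ hb g j => by
      rw [h.hj' c₁ c₂, hb, van_high_neg, neg_neg, ← lin_ex, ex_tl, R.split, lin_tl, lin_single,
        mul_one]
  rw [show Ek Γ (2 + 2) = univ from h.Ek_four] at z₂
  exact ⟨ψ₁ + ψ₂, e₁.add e₂, z_empty _, by rwa [map_add, ← sub_sub]⟩

theorem Model.van_two (h : Model R Γ)
    (hc : ∀ b : G × J 2 → M, CEq H b → (∀ g j, lin b (tl g (R.d3 j)) = 0) →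
      ∃ e : G × J 1 → M, CEq H e ∧ ∀ g r, b (g, r) = lin e (fox R.gen g (R.rel r))) :
    Van (sym Γ H M) 2 univ ∅ := by
  intro φ e hφ h0
  obtain ⟨ψ₁, e₁, -, z₁⟩ := van_high_low (H := H) h.all (le_refl 2) φ e (hφ.mono (subset_univ _)) h0
  have hc₁ : cob (φ - cob ψ₁) = 0 := by rw [map_sub, cob_cob, z_univ.1 hφ, sub_zero]
  obtain ⟨b, be, hb⟩ := hc _ (val_eqv (k := 2) (e.sub e₁.cob)) fun g j => by
    rw [← h.hj' ((Z.zero _).congr hc₁.symm) z₁, ← neg_eq_zero,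
      ← cell_bd h.all (z₁.mono (Ek_mono one_le_two)), hc₁, map_zero, map_zero]
  obtain ⟨ψ₂, e₂, z₂⟩ := van_high_step h.all (k := 1) le_rfl (e.sub e₁.cob) hc₁ z₁
    (fun a => -b a) (fun h g x => by rw [smul_neg]; exact congrArg Neg.neg (be h g x))
    fun θ c₁ c₂ hθ g j => by
      rw [h.wp' c₁ c₂, hθ, van_high_neg, neg_neg]
      exact (hb g j).symm
  obtain ⟨ψ₃, e₃, -, z₃⟩ := cell_van (H := H) (k := 3) (m := 2) h.all (by omega) _
    ((e.sub e₁.cob).sub e₂.cob) ((Z.zero _).congr (by rw [map_sub, cob_cob, hc₁, sub_zero])) z₂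
  rw [show Ek Γ (3 + 1) = univ from h.Ek_four] at z₃
  exact ⟨ψ₁ + ψ₂ + ψ₃, (e₁.add e₂).add e₃, z_empty _, by
    rwa [map_add, map_add, ← sub_sub, ← sub_sub]⟩

end Crest.Agent.R251
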