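import Crest.Agent.R251.SHur

/-! Row 251: values on edge paths. -/

set_option autoImplicit false

noncomputable section

namespace Crest.Agent.R251

open unitInterval Set _root_.Topology Crest.Agent.R185.Top

variable {G : Type} [Group G] {J : ℕ → Type} [Unique (J 0)] {Γ : Att G J}

theorem vl_wp {gen : J 1 → G} (h0 : ∀ a y, Γ 0 a y = vtx (gen a)⁻¹) {W M : Type}
    [TopologicalSpace W] [AddCommGroup M] {F : Pt G J → W} {K K' : Set W} {κ : Co 2 W M}
    (hF : Cts Γ 1 F) (h1 : ∀ p : Pt G J, p.n ≤ 1 → F p ∈ K) (h2 : ∀ p : Pt G J, p.n ≤ 0 → F p ∈ K')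
    (hK : Z K (cob κ)) (hK' : Z K' κ) (g : G) (w : List (J 1 × Bool)) :
    vl κ (fun z : Cb 1 => F (wp gen (ed Γ) g w (z 0))) =
      lin (fun b : G × J 1 => vl κ fun z => F (chi Γ 1 b.1 b.2 z)) (fox gen g w) := by
  have hl : ∀ p : I → Pt G J, Continuous (fun t => toSk Γ 1 (p t)) → (∀ t, (p t).n ≤ 1) →
      (p 0).n = 0 → (p 1).n = 0 → Continuous (fun z : Cb 1 => F (p (z 0))) ∧
        (∀ z : Cb 1, F (p (z 0)) ∈ K) ∧ ∀ z ∈ Bd 1, F (p (z 0)) ∈ K' := by
    intro p hp hd e0 e1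
    refine ⟨hF.comp (hp.comp (continuous_apply 0)), fun _ => h1 _ (hd _), fun z ⟨i, hi⟩ => ?_⟩
    rw [Subsingleton.elim i 0] at hi
    rcases hi with hi | hi
    · rw [hi]; exact h2 _ e0.le
    · rw [hi]; exact h2 _ e1.le
  have he : ∀ (g : G) (a : J 1) (z : Cb 1), chi Γ 1 g a z = ed Γ g a (z 0) := fun g a z => by
    rw [ed]
    congr 1
    funext i
    rw [Subsingleton.elim i 0]
  simp only [he]
  induction w generalizing g with
  | nil =>
    simp only [wp, fox, map_zero]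
    exact vl_z hK' fun _ => h2 _ (vtx_n g).le
  | cons l w ih =>
    obtain ⟨a1, a2, a3⟩ := hl _ (continuous_stp g l) (stp_dim h0 g l) (by rw [stp_zero h0]; rfl)
      (by rw [stp_one h0]; rfl)
    obtain ⟨b1, b2, b3⟩ := hl _ (continuous_wp h0 (g * lv gen l) w) (wp_dim h0 _ w)
      (by rw [wp_zero h0]; rfl) (by rw [wp_one]; rfl)
    rw [vl_trans (k := 0) hK hK' a1 b1 a2 b2 a3 b3 (fun y s hs => by simp [wp, cat_lo _ _ hs])
      (fun y s hs => by simp [wp, cat_hi (stp_wp h0 g l w) hs]), ih]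
    obtain ⟨a, _ | _⟩ := l
    · obtain ⟨c1, c2, c3⟩ := hl _ (continuous_ed g a)
        (fun _ => chi_dim (good_one h0) _ _ _) (by rw [ed_zero h0]; rfl) (by rw [ed_one]; rfl)
      have h3 := vl_symm (k := 0) hK hK' c1 c2 c3
      simp only [Function.update_self] at h3
      simp [fox, stp, lv, h3]
    · simp [fox, stp, lv]

end Crest.Agent.R251
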