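import Mathlib

/-!
Theorem T (towers of covers): if an element `c` of a free group has a positive power in the normal
closure of a family of relators and a character `χ` that kills the relators is nontrivial on `c`,
then the `χ`-twisted coboundary map onto the functions on relators is not surjective.
-/

set_option autoImplicit false

namespace Crest.Agent.R251.Tower

open FreeGroup (of)

/-- A right action of the free group with a base point. -/
structure Stage (S : Type) where
  Ω : Type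
  act : Ω → FreeGroup S → Ω
  act_one : ∀ ω, act ω 1 = ω
  act_mul : ∀ ω g h, act ω (g * h) = act (act ω g) h
  base : Ω

variable {S : Type}

/-- Twisted 1-cochains on the covering graph, extended to words. -/
def IsCo (X : Stage S) {A : Type} [CommRing A] (χ : FreeGroup S →* A)
    (D : X.Ω → FreeGroup S → A) : Prop :=
  ∀ ω g h, D ω (g * h) = D ω g + χ g * D (X.act ω g) h

section Co
variable {X : Stage S} {A : Type} [CommRing A] {χ : FreeGroup S →* A}

lemma IsCo.one {D : X.Ω → FreeGroup S → A} (hD : IsCo X χ D) (ω : X.Ω) : D ω 1 = 0 := by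
  have := hD ω 1 1
  rw [mul_one, map_one, one_mul, X.act_one] at this
  linear_combination -this

lemma chi_mul_inv (χ : FreeGroup S →* A) (g : FreeGroup S) : χ g * χ g⁻¹ = 1 := by
  rw [← map_mul, mul_inv_cancel, map_one]

lemma IsCo.eq_zero {D : X.Ω → FreeGroup S → A} (hD : IsCo X χ D)
    (h0 : ∀ ω s, D ω (of s) = 0) (g : FreeGroup S) : ∀ ω, D ω g = 0 := by
  induction g using FreeGroup.induction_on with
  | C1 => exact fun ω => hD.one ω
  | of s => exact fun ω => h0 ω s
  | inv_of s _ =>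
    intro ω
    have h1 := hD ω (of s)⁻¹ (of s)
    rw [inv_mul_cancel, hD.one, h0, mul_zero, add_zero] at h1
    exact h1.symm
  | mul g h hg hh => intro ω; rw [hD, hg, hh]; ring

lemma IsCo.sub {D D' : X.Ω → FreeGroup S → A} (hD : IsCo X χ D) (hD' : IsCo X χ D') :
    IsCo X χ (fun ω g => D ω g - D' ω g) := by
  intro ω g h
  simp only [hD ω g h, hD' ω g h]; ring

lemma IsCo.ext {D D' : X.Ω → FreeGroup S → A} (hD : IsCo X χ D) (hD' : IsCo X χ D')
    (h0 : ∀ ω s, D ω (of s) = D' ω (of s)) (ω : X.Ω) (g : FreeGroup S) : D ω g = D' ω g := by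
  have := (hD.sub hD').eq_zero (fun ω s => by simp [h0]) g ω
  exact sub_eq_zero.mp this

/-- The semidirect product used to extend a cochain from generators to words. -/
@[ext] structure SD (X : Stage S) {A : Type} [CommRing A] (χ : FreeGroup S →* A) where
  f : X.Ω → A
  g : FreeGroup S

instance : Mul (SD X χ) := ⟨fun a b => ⟨fun ω => a.f ω + χ a.g * b.f (X.act ω a.g), a.g * b.g⟩⟩
instance : One (SD X χ) := ⟨⟨fun _ => 0, 1⟩⟩
instance : Inv (SD X χ) := ⟨fun a => ⟨fun ω => -(χ a.g⁻¹ * a.f (X.act ω a.g⁻¹)), a.g⁻¹⟩⟩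

lemma SD.mul_f (a b : SD X χ) (ω : X.Ω) :
    (a * b).f ω = a.f ω + χ a.g * b.f (X.act ω a.g) := rfl
lemma SD.mul_g (a b : SD X χ) : (a * b).g = a.g * b.g := rfl
lemma SD.one_f (ω : X.Ω) : (1 : SD X χ).f ω = 0 := rfl
lemma SD.one_g : (1 : SD X χ).g = 1 := rfl
lemma SD.inv_f (a : SD X χ) (ω : X.Ω) :
    (a⁻¹).f ω = -(χ a.g⁻¹ * a.f (X.act ω a.g⁻¹)) := rfl
lemma SD.inv_g (a : SD X χ) : (a⁻¹).g = a.g⁻¹ := rfl

instance : Group (SD X χ) := Group.ofLeftAxioms
  (fun a b c => by
    ext ω
    · simp only [SD.mul_f, SD.mul_g, map_mul, X.act_mul]; ring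
    · simp only [SD.mul_g, mul_assoc])
  (fun a => by
    ext ω
    · simp only [SD.mul_f, SD.one_f, SD.one_g, map_one, X.act_one]; ring
    · simp only [SD.mul_g, SD.one_g, one_mul])
  (fun a => by
    ext ω
    · simp only [SD.mul_f, SD.one_f, SD.inv_f, SD.inv_g]; ring
    · simp only [SD.mul_g, SD.one_g, SD.inv_g, inv_mul_cancel])

lemma exists_co (X : Stage S) (χ : FreeGroup S →* A) (a : X.Ω → S → A) :
    ∃ D : X.Ω → FreeGroup S → A, IsCo X χ D ∧ ∀ ω s, D ω (of s) = a ω s := by
  let L : FreeGroup S →* SD X χ := FreeGroup.lift fun s => ⟨fun ω => a ω s, of s⟩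
  let P : SD X χ →* FreeGroup S := ⟨⟨fun a => a.g, rfl⟩, fun _ _ => rfl⟩
  have hPL : P.comp L = MonoidHom.id _ := by
    ext s; simp [P, L]
  have hg : ∀ g, (L g).g = g := fun g => DFunLike.congr_fun hPL g
  refine ⟨fun ω g => (L g).f ω, fun ω g h => ?_, fun ω s => ?_⟩
  · simp only [map_mul, SD.mul_f, hg]
  · simp [L]

end Co

/-- Words of length at most `N`. -/
def ball (S : Type) (N : ℕ) : Set (FreeGroup S) :=
  FreeGroup.mk '' {l : List (S × Bool) | l.length ≤ N}

lemma ball_finite [Finite S] (N : ℕ) : (ball S N).Finite :=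
  (List.finite_length_le _ N).image _

lemma one_mem_ball (N : ℕ) : (1 : FreeGroup S) ∈ ball S N := ⟨[], by simp, rfl⟩

lemma ball_mono {N M : ℕ} (h : N ≤ M) : ball S N ⊆ ball S M := by
  rintro _ ⟨l, hl, rfl⟩; exact ⟨l, le_trans hl h, rfl⟩

lemma exists_mem_ball (g : FreeGroup S) : ∃ N, g ∈ ball S N := by
  obtain ⟨l, rfl⟩ : ∃ l, FreeGroup.mk l = g := Quot.exists_rep g
  exact ⟨l.length, l, le_refl l.length, rfl⟩

lemma ball_ind {N : ℕ} {Q : FreeGroup S → Prop} (h1 : Q 1)
    (hs : ∀ p s, p ∈ ball S N → p * of s ∈ ball S N → (Q p ↔ Q (p * of s))) :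
    ∀ p ∈ ball S N, Q p := by
  rintro _ ⟨l, hl, rfl⟩
  induction l using List.reverseRecOn with
  | nil => exact h1
  | append_singleton l x ih =>
    have hl' : l.length ≤ N := by
      have : (l ++ [x]).length ≤ N := hl
      simp at this; omega
    have hm : FreeGroup.mk l ∈ ball S N := ⟨l, hl', rfl⟩
    have hm' : FreeGroup.mk (l ++ [x]) ∈ ball S N := ⟨_, hl, rfl⟩
    obtain ⟨s, b⟩ := x
    cases b with
    | true =>
      have e : FreeGroup.mk (l ++ [(s, true)]) = FreeGroup.mk l * of s := by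
        rw [← FreeGroup.mul_mk]; rfl
      rw [e] at hm' ⊢
      exact (hs _ _ hm hm').1 (ih hl')
    | false =>
      have e : FreeGroup.mk (l ++ [(s, false)]) * of s = FreeGroup.mk l := by
        rw [← FreeGroup.mul_mk]
        have : FreeGroup.mk [(s, false)] = (of s)⁻¹ := by
          simp [FreeGroup.of, FreeGroup.inv_mk, FreeGroup.invRev]
        rw [this, inv_mul_cancel_right]
      refine (hs _ s hm' (by rw [e]; exact hm)).2 ?_
      rw [e]; exact ih hl'

section Support
variable {X : Stage S} {A : Type} [CommRing A] {χ : FreeGroup S →* A}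

lemma IsCo.support {D : X.Ω → FreeGroup S → A} (hD : IsCo X χ D) {N : ℕ}
    (h0 : ∀ p s, p ∈ ball S N → p * of s ∈ ball S N → D (X.act X.base p) (of s) = 0) :
    ∀ p ∈ ball S N, D X.base p = 0 := by
  refine ball_ind (hD.one _) fun p s hp hps => ?_
  rw [hD, h0 p s hp hps, mul_zero, add_zero]

lemma IsCo.step_zero {D : X.Ω → FreeGroup S → A} (hD : IsCo X χ D) {p q : FreeGroup S}
    (hp : D X.base p = 0) (hq : D X.base (p * q) = 0) : D (X.act X.base p) q = 0 := by
  rw [hD, hp, zero_add] at hq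
  have := chi_mul_inv χ p
  linear_combination (χ p⁻¹) * hq - D (X.act X.base p) q * this

/-- The cochains form a submodule. -/
def coSub (X : Stage S) (χ : FreeGroup S →* A) : Submodule A (X.Ω → FreeGroup S → A) where
  carrier := {D | IsCo X χ D}
  add_mem' := by
    intro D D' hD hD' ω g h
    simp only [Pi.add_apply, hD ω g h, hD' ω g h]; ring
  zero_mem' := by intro ω g h; simp
  smul_mem' := by
    intro a D hD ω g h
    simp only [Pi.smul_apply, smul_eq_mul, hD ω g h]; ring

end Support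

/-- The finite data: relators, the torsion element, the conjugators, the radius. -/
structure Data (S R : Type) where
  r : R → FreeGroup S
  c : FreeGroup S
  n : ℕ
  hn : 0 < n
  T : Set (FreeGroup S × R)
  hT : T.Finite
  N : ℕ
  hc : c ∈ ball S N
  hg : ∀ x ∈ T, x.1 ∈ ball S N
  hgr : ∀ x ∈ T, x.1 * r x.2 ∈ ball S N
  hcl : c ^ n ∈ Subgroup.closure ((fun x : FreeGroup S × R => x.1 * r x.2 * x.1⁻¹) '' T)

variable {R : Type} (d : Data S R) (X : Stage S)

/-- Visited vertices. -/
def Vs : Set X.Ω := (fun p => X.act X.base p) '' ball S d.N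
/-- Visited edges. -/
def Es : Set (X.Ω × S) :=
  (fun x : FreeGroup S × S => (X.act X.base x.1, x.2)) ''
    {x | x.1 ∈ ball S d.N ∧ x.1 * of x.2 ∈ ball S d.N}
/-- Visited faces. -/
def Fs : Set (X.Ω × R) := (fun x : FreeGroup S × R => (X.act X.base x.1, x.2)) '' d.T

lemma Vs_finite [Finite S] : (Vs d X).Finite := (ball_finite _).image _
lemma Es_finite [Finite S] : (Es d X).Finite := by
  refine Set.Finite.image _ (((ball_finite (S := S) d.N).prod (Set.finite_univ (α := S))).subset ?_)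
  intro x hx; exact ⟨hx.1, trivial⟩
lemma Fs_finite : (Fs d X).Finite := d.hT.image _

/-- Admissible stages: the torsion element and the relator loops close up. -/
def Adm : Prop :=
  X.act X.base d.c = X.base ∧ ∀ x ∈ d.T, X.act (X.act X.base x.1) (d.r x.2) = X.act X.base x.1

variable {k : Type} [Field k] (χ : FreeGroup S →* k)

/-- Every function on the visited faces is a twisted coboundary. -/
def Surj : Prop :=
  ∀ f : X.Ω × R → k, ∃ D, IsCo X χ D ∧ ∀ φ ∈ Fs d X, D φ.1 (d.r φ.2) = f φ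

/-- Evaluation on visited faces. -/
def evF {A : Type} [CommRing A] (χ : FreeGroup S →* A) : coSub X χ →ₗ[A] (Fs d X → A) where
  toFun D φ := D.1 φ.1.1 (d.r φ.1.2)
  map_add' _ _ := rfl
  map_smul' _ _ := rfl

/-- Restriction to visited edges. -/
def resE {A : Type} [CommRing A] (χ : FreeGroup S →* A) : coSub X χ →ₗ[A] (Es d X → A) where
  toFun D e := D.1 e.1.1 (of e.1.2)
  map_add' _ _ := rfl
  map_smul' _ _ := rfl

lemma base_zero_of_resE {A : Type} [CommRing A] (χ : FreeGroup S →* A) (D : coSub X χ)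
    (h : resE d X χ D = 0) : ∀ p ∈ ball S d.N, D.1 X.base p = 0 := by
  have hD : IsCo X χ D.1 := D.2
  refine hD.support fun p s hp hps => ?_
  exact congrFun h ⟨(X.act X.base p, s), ⟨(p, s), ⟨hp, hps⟩, rfl⟩⟩

lemma evF_zero_of_resE {A : Type} [CommRing A] (χ : FreeGroup S →* A) (D : coSub X χ)
    (h : resE d X χ D = 0) : evF d X χ D = 0 := by
  have hD : IsCo X χ D.1 := D.2
  have h0 := base_zero_of_resE d X χ D h
  funext φ
  obtain ⟨_, x, hx, rfl⟩ := φ
  exact hD.step_zero (h0 _ (d.hg x hx)) (h0 _ (d.hgr x hx))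

lemma resE_surj {A : Type} [CommRing A] (χ : FreeGroup S →* A) :
    Function.Surjective (resE d X χ) := by
  classical
  intro a
  obtain ⟨D, hD, hDa⟩ := exists_co X χ fun ω s => if h : (ω, s) ∈ Es d X then a ⟨_, h⟩ else 0
  refine ⟨⟨D, hD⟩, funext fun e => ?_⟩
  have : D e.1.1 (of e.1.2) = a e := by rw [hDa, dif_pos e.2]
  exact this

lemma evF_surj (h : Surj d X χ) : Function.Surjective (evF d X χ) := by
  classical
  intro f
  obtain ⟨D, hD, hDf⟩ := h fun φ => if h : φ ∈ Fs d X then f ⟨_, h⟩ else 0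
  refine ⟨⟨D, hD⟩, funext fun φ => ?_⟩
  have : D φ.1.1 (d.r φ.1.2) = f φ := by rw [hDf _ φ.2, dif_pos φ.2]
  exact this

lemma surj_of_evF (h : Function.Surjective (evF d X χ)) : Surj d X χ := by
  intro f
  obtain ⟨D, hD⟩ := h fun φ => f φ.1
  exact ⟨D.1, D.2, fun φ hφ => congrFun hD ⟨φ, hφ⟩⟩

/-- Twisted count: vertices plus faces are at most the edges. -/
lemma count_twisted [Finite S] (hA : Adm d X) (hr : ∀ j, χ (d.r j) = 1) (hne : χ d.c ≠ 1)
    (h : Surj d X χ) :
    Nat.card (Vs d X) + Nat.card (Fs d X) ≤ Nat.card (Es d X) := by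
  classical
  have := (Vs_finite d X).fintype
  have := (Es_finite d X).fintype
  have := (Fs_finite d X).fintype
  obtain ⟨σ, hσ⟩ := (evF d X χ).exists_rightInverse_of_surjective
    (LinearMap.range_eq_top.2 (evF_surj d X χ h))
  let ex : (Vs d X → k) →ₗ[k] (X.Ω → k) :=
    { toFun := fun x ω => if h : ω ∈ Vs d X then x ⟨ω, h⟩ else 0
      map_add' := fun x y => by funext ω; by_cases h : ω ∈ Vs d X <;> simp [h]
      map_smul' := fun a x => by funext ω; by_cases h : ω ∈ Vs d X <;> simp [h] }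
  let cob : (X.Ω → k) →ₗ[k] coSub X χ :=
    { toFun := fun x => ⟨fun ω g => χ g * x (X.act ω g) - x ω, fun ω g h => by
        simp only [map_mul, X.act_mul]; ring⟩
      map_add' := fun x y => by ext ω g; simp; ring
      map_smul' := fun a x => by ext ω g; simp; ring }
  have hcob : ∀ x, evF d X χ (cob x) = 0 := by
    intro x; funext φ
    obtain ⟨_, y, hy, rfl⟩ := φ
    change χ (d.r y.2) * x (X.act (X.act X.base y.1) (d.r y.2)) - x (X.act X.base y.1) = 0
    rw [hr, hA.2 y hy]; ring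
  let Ψ : ((Vs d X → k) × (Fs d X → k)) →ₗ[k] (Es d X → k) :=
    (resE d X χ).comp ((cob.comp ex).coprod σ)
  have hinj : Function.Injective Ψ := by
    rw [injective_iff_map_eq_zero]
    rintro ⟨x, f⟩ hxf
    have h1 : resE d X χ (cob (ex x) + σ f) = 0 := hxf
    have h2 := evF_zero_of_resE d X χ _ h1
    rw [map_add, hcob, zero_add] at h2
    have hf : f = 0 := by rw [← h2]; exact (LinearMap.congr_fun hσ f).symm
    subst hf
    rw [map_zero, add_zero] at h1
    have h3 := base_zero_of_resE d X χ _ h1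
    have h4 : ∀ p ∈ ball S d.N, χ p * ex x (X.act X.base p) - ex x X.base = 0 := h3
    have h5 : ex x X.base = 0 := by
      have := h4 _ d.hc
      rw [hA.1] at this
      have h6 : (χ d.c - 1) * ex x X.base = 0 := by linear_combination this
      exact (mul_eq_zero.1 h6).resolve_left (sub_ne_zero.2 hne)
    have hx : x = 0 := by
      funext v
      obtain ⟨v, p, hp, rfl⟩ := v
      have h6 := h4 p hp
      rw [h5, sub_zero] at h6
      have h7 : χ p ≠ 0 := left_ne_zero_of_mul_eq_one (chi_mul_inv χ p)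
      have h8 := (mul_eq_zero.1 h6).resolve_left h7
      have hm : X.act X.base p ∈ Vs d X := ⟨p, hp, rfl⟩
      simpa [ex, hm] using h8
    rw [hx]; rfl
  have := LinearMap.finrank_le_finrank_of_injective hinj
  simpa [Module.finrank_prod, Nat.card_eq_fintype_card] using this

/-- Untwisted count at the top of the tower. -/
lemma count_top [Finite S]
    (htop : ∀ D : X.Ω → FreeGroup S → ℚ, IsCo X 1 D → (∀ φ ∈ Fs d X, D φ.1 (d.r φ.2) = 0) →
      ∀ p ∈ ball S d.N, ∀ q ∈ ball S d.N, X.act X.base p = X.act X.base q →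
        D X.base p = D X.base q) :
    Nat.card (Es d X) + 1 ≤ Nat.card (Vs d X) + Nat.card (Fs d X) := by
  classical
  have := (Vs_finite d X).fintype
  have := (Es_finite d X).fintype
  have := (Fs_finite d X).fintype
  obtain ⟨τ, hτ⟩ := (resE d X (1 : FreeGroup S →* ℚ)).exists_rightInverse_of_surjective
    (LinearMap.range_eq_top.2 (resE_surj d X 1))
  have hb : X.base ∈ Vs d X := ⟨1, one_mem_ball _, X.act_one _⟩
  have hrep : ∀ v : Vs d X, ∃ p ∈ ball S d.N, X.act X.base p = v.1 := fun v => v.2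
  choose rep hrep1 hrep2 using hrep
  let ht : coSub X (1 : FreeGroup S →* ℚ) →ₗ[ℚ] ({v : Vs d X // v ≠ ⟨X.base, hb⟩} → ℚ) :=
    { toFun := fun D v => D.1 X.base (rep v.1)
      map_add' := fun _ _ => rfl
      map_smul' := fun _ _ => rfl }
  let Θ : (Es d X → ℚ) →ₗ[ℚ] ((Fs d X → ℚ) × ({v : Vs d X // v ≠ ⟨X.base, hb⟩} → ℚ)) :=
    ((evF d X 1).prod ht).comp τ
  have hinj : Function.Injective Θ := by
    rw [injective_iff_map_eq_zero]
    intro a ha
    have h1 : evF d X 1 (τ a) = 0 := congrArg Prod.fst ha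
    have h2 : ht (τ a) = 0 := congrArg Prod.snd ha
    have hD : IsCo X 1 (τ a).1 := (τ a).2
    have h3 := htop _ hD fun φ hφ => congrFun h1 ⟨φ, hφ⟩
    have h4 : ∀ p ∈ ball S d.N, (τ a).1 X.base p = 0 := by
      intro p hp
      have hm : X.act X.base p ∈ Vs d X := ⟨p, hp, rfl⟩
      by_cases hv : (⟨_, hm⟩ : Vs d X) = ⟨X.base, hb⟩
      · have hv' : X.act X.base p = X.act X.base 1 := by
          rw [X.act_one]; exact congrArg Subtype.val hv
        rw [h3 p hp 1 (one_mem_ball _) hv', hD.one]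
      · rw [h3 p hp (rep ⟨_, hm⟩) (hrep1 _) (hrep2 ⟨_, hm⟩).symm]
        exact congrFun h2 ⟨⟨_, hm⟩, hv⟩
    have ha' : resE d X 1 (τ a) = a := LinearMap.congr_fun hτ a
    rw [← ha']
    funext e
    obtain ⟨_, x, hx, rfl⟩ := e
    exact hD.step_zero (h4 _ hx.1) (h4 _ hx.2)
  have := LinearMap.finrank_le_finrank_of_injective hinj
  simp only [Module.finrank_prod, Module.finrank_fintype_fun_eq_card, Fintype.card_subtype_compl,
    Fintype.card_unique] at this
  have hpos : 0 < Fintype.card (Vs d X) := Fintype.card_pos_iff.2 ⟨⟨_, hb⟩⟩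
  simp only [Nat.card_eq_fintype_card]
  omega

/-- The next stage of the tower: the cover defined by a rational cocycle. -/
def cover (H : X.Ω → FreeGroup S → ℚ) (hH : IsCo X 1 H) : Stage S where
  Ω := X.Ω × ℚ
  act x g := (X.act x.1 g, x.2 + H x.1 g)
  act_one x := by simp [X.act_one, hH.one]
  act_mul x g h := by
    simp only [X.act_mul, hH x.1 g h, MonoidHom.one_apply, one_mul, add_assoc]
  base := (X.base, 0)

lemma cover_adm (H : X.Ω → FreeGroup S → ℚ) (hH : IsCo X 1 H) (hA : Adm d X)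
    (h0 : ∀ φ ∈ Fs d X, H φ.1 (d.r φ.2) = 0) : Adm d (cover X H hH) := by
  refine ⟨?_, fun x hx => ?_⟩
  · let K : Subgroup (FreeGroup S) :=
      { carrier := {g | X.act X.base g = X.base ∧ H X.base g = 0}
        one_mem' := ⟨X.act_one _, hH.one _⟩
        mul_mem' := by
          rintro g h ⟨hg1, hg2⟩ ⟨hh1, hh2⟩
          refine ⟨by rw [X.act_mul, hg1, hh1], by rw [hH, hg1, hg2, hh2]; simp⟩
        inv_mem' := by
          rintro g ⟨hg1, hg2⟩
          have e1 : X.act X.base g⁻¹ = X.base := by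
            conv_lhs => rw [← hg1, ← X.act_mul, mul_inv_cancel, X.act_one]
          refine ⟨e1, ?_⟩
          have := hH X.base g g⁻¹
          rw [mul_inv_cancel, hH.one, hg1, hg2] at this
          simpa using this.symm }
    have hle : Subgroup.closure ((fun x : FreeGroup S × R => x.1 * d.r x.2 * x.1⁻¹) '' d.T) ≤ K := by
      rw [Subgroup.closure_le]
      rintro _ ⟨x, hx, rfl⟩
      have e1 := hA.2 x hx
      have e2 : H (X.act X.base x.1) (d.r x.2) = 0 := h0 (X.act X.base x.1, x.2) ⟨x, hx, rfl⟩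
      refine ⟨?_, ?_⟩
      · rw [X.act_mul, X.act_mul, e1, ← X.act_mul, mul_inv_cancel, X.act_one]
      · have e3 := hH X.base x.1 x.1⁻¹
        rw [mul_inv_cancel, hH.one] at e3
        rw [hH, hH, X.act_mul, e1, e2]
        simp only [MonoidHom.one_apply, one_mul] at e3 ⊢
        linarith
    have hcn : H X.base (d.c ^ d.n) = 0 := (hle d.hcl).2
    have hpow : ∀ m : ℕ, X.act X.base (d.c ^ m) = X.base ∧ H X.base (d.c ^ m) = m * H X.base d.c := by
      intro m
      induction m with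
      | zero => simp [X.act_one, hH.one]
      | succ m ih =>
        refine ⟨by rw [pow_succ, X.act_mul, ih.1, hA.1], ?_⟩
        rw [pow_succ, hH, ih.1, ih.2]; simp; ring
    rw [(hpow d.n).2] at hcn
    have hn : (d.n : ℚ) ≠ 0 := by exact_mod_cast d.hn.ne'
    have hc0 : H X.base d.c = 0 := (mul_eq_zero.1 hcn).resolve_left hn
    change (X.act X.base d.c, 0 + H X.base d.c) = (X.base, 0)
    rw [hA.1, hc0, add_zero]
  · have e2 : H (X.act X.base x.1) (d.r x.2) = 0 := h0 (X.act X.base x.1, x.2) ⟨x, hx, rfl⟩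
    change (X.act (X.act X.base x.1) (d.r x.2), 0 + H X.base x.1 + H (X.act X.base x.1) (d.r x.2))
      = (X.act X.base x.1, 0 + H X.base x.1)
    rw [hA.2 x hx, e2, add_zero]

lemma cover_card [Finite S] (H : X.Ω → FreeGroup S → ℚ) (hH : IsCo X 1 H)
    {p q : FreeGroup S} (hp : p ∈ ball S d.N) (hq : q ∈ ball S d.N)
    (hpq : X.act X.base p = X.act X.base q) (hne : H X.base p ≠ H X.base q) :
    (Vs d X).ncard < (Vs d (cover X H hH)).ncard := by
  have him : Vs d X = (Prod.fst : X.Ω × ℚ → X.Ω) '' (Vs d (cover X H hH)) := by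
    exact (Set.image_image (Prod.fst : X.Ω × ℚ → X.Ω)
      (fun p => (cover X H hH).act (cover X H hH).base p) (ball S d.N)).symm
  have hfin : (Vs d (cover X H hH)).Finite := Vs_finite d _
  refine lt_of_le_of_ne (by rw [him]; exact Set.ncard_image_le hfin) fun heq => ?_
  rw [him] at heq
  have hinj := Set.injOn_of_ncard_image_eq heq hfin
  have h1 : (cover X H hH).act (cover X H hH).base p = (cover X H hH).act (cover X H hH).base q :=
    hinj ⟨p, hp, rfl⟩ ⟨q, hq, rfl⟩ hpq
  have h2 : (0 : ℚ) + H X.base p = 0 + H X.base q := congrArg Prod.snd h1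
  exact hne (by simpa using h2)

/-- Surjectivity passes to the next stage of the tower. -/
lemma cover_surj (H : X.Ω → FreeGroup S → ℚ) (hH : IsCo X 1 H) (h : Surj d X χ) :
    Surj d (cover X H hH) χ := by
  classical
  set X' := cover X H hH with hX'
  have := (Fs_finite d X).fintype
  have := (Fs_finite d X').fintype
  apply surj_of_evF
  rw [← LinearMap.range_eq_top]
  by_contra hlt
  obtain ⟨μ, hμ0, hμ⟩ := Submodule.exists_dual_map_eq_bot_of_lt_top (lt_top_iff_ne_top.2 hlt)
    inferInstance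
  have hμD : ∀ D : X'.Ω → FreeGroup S → k, IsCo X' χ D →
      ∑ φ : Fs d X', μ (Pi.single φ 1) * D φ.1.1 (d.r φ.1.2) = 0 := by
    intro D hD
    have h1 : μ (evF d X' χ ⟨D, hD⟩) = 0 := by
      have : μ (evF d X' χ ⟨D, hD⟩) ∈ (LinearMap.range (evF d X' χ)).map μ :=
        Submodule.mem_map_of_mem (LinearMap.mem_range_self _ _)
      rw [hμ] at this; exact (Submodule.mem_bot k).1 this
    have h2 : evF d X' χ ⟨D, hD⟩ = ∑ φ : Fs d X', D φ.1.1 (d.r φ.1.2) • Pi.single φ (1 : k) := by
      funext ψ; simp [Finset.sum_apply, Pi.single_apply]; rfl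
    rw [h2, map_sum] at h1
    rw [← h1]
    exact Finset.sum_congr rfl fun φ _ => by rw [map_smul, smul_eq_mul, mul_comm]
  let A := AddMonoidAlgebra k ℚ
  let E : ℚ → A := fun m => AddMonoidAlgebra.single m 1
  have hE : ∀ a b, E (a + b) = E a * E b := fun a b => by
    simp [E, A, AddMonoidAlgebra.single_mul_single]
  let ε : A →ₐ[k] k := AddMonoidAlgebra.lift k k ℚ 1
  have hε : ∀ m, ε (E m) = 1 := fun m => by simp [ε, E, A]
  let χ' : FreeGroup S →* A := (algebraMap k A).toMonoidHom.comp χ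
  have hχ' : ∀ g (a : A), χ' g * a = χ g • a := fun g a => by
    simp [χ', Algebra.smul_def]
  -- dual basis cochains downstairs
  have hdual : ∀ φ₀ : Fs d X, ∃ D, IsCo X χ D ∧
      ∀ φ : Fs d X, D φ.1.1 (d.r φ.1.2) = if φ = φ₀ then 1 else 0 := by
    intro φ₀
    obtain ⟨D, hD, hDf⟩ := h fun φ => if φ = φ₀.1 then 1 else 0
    refine ⟨D, hD, fun φ => ?_⟩
    rw [hDf _ φ.2]; simp [Subtype.ext_iff]
  choose D hD hDφ using hdual
  have hup : ∀ φ₀ : Fs d X, ∃ U : X'.Ω → FreeGroup S → A, IsCo X' χ' U ∧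
      ∀ (x : X.Ω × ℚ) s, U x (of s) = D φ₀ x.1 (of s) • E x.2 := fun φ₀ =>
    exists_co X' χ' fun (x : X.Ω × ℚ) s => D φ₀ x.1 (of s) • E x.2
  choose U hU hUs using hup
  have hshift : ∀ φ₀ ω m g, U φ₀ ((ω, m) : X.Ω × ℚ) g = E m * U φ₀ ((ω, 0) : X.Ω × ℚ) g := by
    intro φ₀ ω m g
    have h1 : IsCo X' χ' fun (x : X.Ω × ℚ) g => U φ₀ ((x.1, m + x.2) : X.Ω × ℚ) g := by
      intro x g h
      have := hU φ₀ ((x.1, m + x.2) : X.Ω × ℚ) g h
      refine this.trans ?_
      change _ + _ * U φ₀ (X.act x.1 g, m + x.2 + H x.1 g) h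
        = _ + _ * U φ₀ (X.act x.1 g, m + (x.2 + H x.1 g)) h
      rw [add_assoc]
    have h2 : IsCo X' χ' fun (x : X.Ω × ℚ) g => E m * U φ₀ x g := by
      intro x g h
      simp only [hU φ₀ x g h]; ring
    have h3 := h1.ext h2 (fun x s => by
      obtain ⟨ω, m'⟩ := x
      simp only [hUs, hE, mul_smul_comm]) ((ω, 0) : X.Ω × ℚ) g
    simpa using h3
  have heps : ∀ φ₀ (x : X.Ω × ℚ) g, ε (U φ₀ x g) = D φ₀ x.1 g := by
    intro φ₀ x g
    have h1 : IsCo X' χ fun (x : X.Ω × ℚ) g => ε (U φ₀ x g) := by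
      intro x g h
      simp only [hU φ₀ x g h, hχ', map_add, map_smul, smul_eq_mul]
    have h2 : IsCo X' χ fun (x : X.Ω × ℚ) g => D φ₀ x.1 g := fun x g h => hD φ₀ x.1 g h
    exact h1.ext h2 (fun x s => by simp only [hUs, map_smul, hε, smul_eq_mul, mul_one]) x g
  let M : Matrix (Fs d X) (Fs d X) A :=
    fun φ φ₀ => U φ₀ ((φ.1.1, 0) : X.Ω × ℚ) (d.r φ.1.2)
  have hM : M.det ≠ 0 := by
    intro h0
    have h1 := ε.toRingHom.map_det M
    have h2 : ε.toRingHom.mapMatrix M = 1 := by
      ext φ φ₀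
      change ε (U φ₀ _ _) = _
      rw [heps, hDφ, Matrix.one_apply]
    rw [h0, h2] at h1
    simp at h1
  let pr : Fs d X' → Fs d X := fun φ => ⟨((φ.1.1 : X.Ω × ℚ).1, φ.1.2), by
    obtain ⟨_, x, hx, rfl⟩ := φ
    exact ⟨x, hx, rfl⟩⟩
  let lv : Fs d X' → ℚ := fun φ => (φ.1.1 : X.Ω × ℚ).2
  let P : Fs d X → A := fun φ =>
    ∑ φ' ∈ Finset.univ.filter (fun φ' => pr φ' = φ), μ (Pi.single φ' 1) • E (lv φ')
  have hPM : Matrix.vecMul P M = 0 := by
    funext φ₀
    have h1 : Matrix.vecMul P M φ₀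
        = ∑ φ' : Fs d X', μ (Pi.single φ' 1) • U φ₀ φ'.1.1 (d.r φ'.1.2) := by
      rw [← Finset.sum_fiberwise (s := Finset.univ) (g := pr)]
      simp only [Matrix.vecMul, dotProduct, P]
      refine Finset.sum_congr rfl fun φ _ => ?_
      refine (Finset.sum_mul _ _ _).trans (Finset.sum_congr rfl fun φ' hφ' => ?_)
      have e : pr φ' = φ := (Finset.mem_filter.1 hφ').2
      subst e
      rw [smul_mul_assoc]
      congr 1
      exact (hshift φ₀ _ _ _).symm
    rw [h1]
    apply AddMonoidAlgebra.coeff_injective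
    ext m
    have h2 : IsCo X' χ fun x g => (U φ₀ x g).coeff m := by
      intro x g h
      simp only [hU φ₀ x g h, hχ']
      simp [A]
    have h3 := hμD _ h2
    simpa [A, AddMonoidAlgebra.coeff_sum, Finsupp.finsetSum_apply] using h3
  have hP := Matrix.eq_zero_of_vecMul_eq_zero hM hPM
  apply hμ0
  refine (Pi.basisFun k (Fs d X')).ext fun φ' => ?_
  have h1 : (P (pr φ')).coeff (lv φ') = 0 := by rw [hP]; simp [A]
  have h2 : (P (pr φ')).coeff (lv φ') = μ (Pi.single φ' 1) := by
    simp only [P, A, AddMonoidAlgebra.coeff_sum, Finsupp.finsetSum_apply]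
    rw [Finset.sum_eq_single φ']
    · simp [E]
    · intro ψ hψ hne
      have e : pr ψ = pr φ' := (Finset.mem_filter.1 hψ).2
      have : lv ψ ≠ lv φ' := by
        intro hl
        apply hne
        have e1 := congrArg (fun z : Fs d X => z.1.1) e
        have e2 := congrArg (fun z : Fs d X => z.1.2) e
        exact Subtype.ext (Prod.ext (Prod.ext e1 hl) e2)
      simp [E, this]
    · intro hh; simp at hh
  simpa [h2] using h1

lemma not_surj [Finite S] (hr : ∀ j, χ (d.r j) = 1) (hne : χ d.c ≠ 1) (m : ℕ) :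
    ∀ X : Stage S, Adm d X → (ball S d.N).ncard ≤ (Vs d X).ncard + m → ¬ Surj d X χ := by
  induction m using Nat.strong_induction_on with
  | _ m ih =>
    intro X hA hm hS
    by_cases htop : ∀ D : X.Ω → FreeGroup S → ℚ, IsCo X 1 D →
        (∀ φ ∈ Fs d X, D φ.1 (d.r φ.2) = 0) →
        ∀ p ∈ ball S d.N, ∀ q ∈ ball S d.N, X.act X.base p = X.act X.base q →
          D X.base p = D X.base q
    · have h1 := count_top d X htop
      have h2 := count_twisted d X χ hA hr hne hS
      omega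
    · push Not at htop
      obtain ⟨H, hH, h0, p, hp, q, hq, hpq, hne'⟩ := htop
      have h1 := cover_card d X H hH hp hq hpq hne'
      have h2 : (Vs d (cover X H hH)).ncard ≤ (ball S d.N).ncard :=
        Set.ncard_image_le (ball_finite _)
      exact ih (m - 1) (by omega) (cover X H hH) (cover_adm d X H hH hA h0) (by omega)
        (cover_surj d X χ H hH hS)

lemma exists_finite_conj (r : R → FreeGroup S) {g : FreeGroup S}
    (hg : g ∈ Subgroup.normalClosure (Set.range r)) :
    ∃ T : Set (FreeGroup S × R), T.Finite ∧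
      g ∈ Subgroup.closure ((fun x : FreeGroup S × R => x.1 * r x.2 * x.1⁻¹) '' T) := by
  unfold Subgroup.normalClosure at hg
  induction hg using Subgroup.closure_induction with
  | mem x hx =>
    obtain ⟨_, ⟨j, rfl⟩, hc⟩ := Group.mem_conjugatesOfSet_iff.1 hx
    obtain ⟨c, rfl⟩ := isConj_iff.1 hc
    exact ⟨{(c, j)}, Set.finite_singleton _, Subgroup.subset_closure ⟨(c, j), rfl, rfl⟩⟩
  | one => exact ⟨∅, Set.finite_empty, Subgroup.one_mem _⟩
  | mul x y _ _ hx hy =>
    obtain ⟨T, hT, hx⟩ := hx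
    obtain ⟨T', hT', hy⟩ := hy
    exact ⟨T ∪ T', hT.union hT', Subgroup.mul_mem _
      (Subgroup.closure_mono (Set.image_mono Set.subset_union_left) hx)
      (Subgroup.closure_mono (Set.image_mono Set.subset_union_right) hy)⟩
  | inv x _ hx =>
    obtain ⟨T, hT, hx⟩ := hx
    exact ⟨T, hT, Subgroup.inv_mem _ hx⟩

lemma exists_ball_superset {B : Set (FreeGroup S)} (hB : B.Finite) : ∃ N, B ⊆ ball S N := by
  induction B, hB using Set.Finite.induction_on with
  | empty => exact ⟨0, Set.empty_subset _⟩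
  | insert _ _ ih =>
    rename_i a s _ _
    obtain ⟨N, hN⟩ := ih
    obtain ⟨M, hM⟩ := exists_mem_ball a
    refine ⟨max N M, Set.insert_subset (ball_mono (le_max_right _ _) hM)
      (hN.trans (ball_mono (le_max_left _ _)))⟩

/-- **Theorem T.** A torsion element on which `χ` is nontrivial forces the twisted second
cohomology of the presentation complex to be nonzero. -/
theorem towerT {S R k : Type} [Finite S] [Field k] (r : R → FreeGroup S) (χ : FreeGroup S →* k)
    (hr : ∀ j, χ (r j) = 1) (c : FreeGroup S) (n : ℕ) (hn : 0 < n)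
    (hc : c ^ n ∈ Subgroup.normalClosure (Set.range r)) (hne : χ c ≠ 1) :
    ¬ ∀ f : R → k, ∃ D : FreeGroup S → k,
      (∀ g h, D (g * h) = D g + χ g * D h) ∧ ∀ j, D (r j) = f j := by
  intro hS
  obtain ⟨T, hT, hcl⟩ := exists_finite_conj r hc
  obtain ⟨N, hN⟩ := exists_ball_superset
    (((hT.image fun x => x.1).union (hT.image fun x => x.1 * r x.2)).insert c)
  let d : Data S R :=
    { r := r, c := c, n := n, hn := hn, T := T, hT := hT, N := N
      hc := hN (Set.mem_insert _ _)
      hg := fun x hx => hN (Set.mem_insert_of_mem _ (Or.inl ⟨x, hx, rfl⟩))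
      hgr := fun x hx => hN (Set.mem_insert_of_mem _ (Or.inr ⟨x, hx, rfl⟩))
      hcl := hcl }
  let X : Stage S := ⟨Unit, fun _ _ => (), fun _ => rfl, fun _ _ _ => rfl, ()⟩
  refine not_surj d χ hr hne (ball S N).ncard X ⟨rfl, fun _ _ => rfl⟩ (Nat.le_add_left _ _) ?_
  intro f
  obtain ⟨D, hD, hDf⟩ := hS fun j => f ((), j)
  exact ⟨fun _ => D, fun _ g h => hD g h, fun φ _ => hDf φ.2⟩

/-- Theorem T for a presentation of a group `G` and a character with values in units. -/
theorem towerT_group {S R k G : Type} [Finite S] [Field k] [Group G] (r : R → FreeGroup S)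
    (π : FreeGroup S →* G) (hπ : Function.Surjective π)
    (hker : π.ker = Subgroup.normalClosure (Set.range r)) (χ : G →* kˣ)
    (u : G) (n : ℕ) (hn : 0 < n) (hu : u ^ n = 1) (hne : χ u ≠ 1) :
    ¬ ∀ f : R → k, ∃ D : FreeGroup S → k,
      (∀ g h, D (g * h) = D g + (χ (π g) : k) * D h) ∧ ∀ j, D (r j) = f j := by
  obtain ⟨c, rfl⟩ := hπ u
  refine towerT r ((Units.coeHom k).comp (χ.comp π)) (fun j => ?_) c n hn ?_ ?_
  · have : r j ∈ π.ker := hker ▸ Subgroup.subset_normalClosure ⟨j, rfl⟩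
    simp [MonoidHom.mem_ker.1 this]
  · rw [← hker, MonoidHom.mem_ker, map_pow, hu]
  · simpa using hne

end Crest.Agent.R251.Tower
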