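import Crest.Agent.R251.Iface
import Crest.Agent.R251.Tower

set_option autoImplicit false

namespace Crest.Agent.R251

theorem towerStmt : TowerStmt := by
  intro k S T _ _ _ r χ c n hr hn hc hne
  refine Tower.towerT r ((Units.coeHom k).comp χ) (fun j => by simp [hr j]) c n hn hc ?_
  simpa using hne

end Crest.Agent.R251
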