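import Crest.Agent.R251.YPath

/-! Row 251: the path functional with prescribed values on the faces. -/

set_option autoImplicit false

noncomputable section

namespace Crest.Agent.R251

open unitInterval Set _root_.Topology Crest.Agent.R197

variable {G k : Type} [Group G] [Field k] {W Y : Type} [TopologicalSpace W] [TopologicalSpace Y]
  [MulAction G W] [ContinuousConstSMul G W] {q : W → Y}

theorem coc_kD {z : Disc} (hz : ¬ ‖(z : ℂ)‖ < 1) : Wind.kD z = 0 := by
  have h : ‖(z : ℂ)‖ = 1 := le_antisymm (mem_closedBall_zero_iff.1 z.2) (not_lt.1 hz)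
  simp [Wind.kD, h]

/-- polar data on the whole complex -/
theorem coc_ext (K : Cx Y) : ∃ c : C(Y, ℝ × ℂ), (∀ f z, c (K.face f z) = Wind.kD z) ∧
    ∀ y, c (K.ι y) = 0 := by
  classical
  let c : Y → ℝ × ℂ := fun x =>
    if h : ∃ a : K.F × Disc, K.face a.1 a.2 = x then Wind.kD h.choose.2 else 0
  have h1 : ∀ f z, c (K.face f z) = Wind.kD z := fun f z => by
    have h : ∃ a : K.F × Disc, K.face a.1 a.2 = K.face f z := ⟨(f, z), rfl⟩
    simp only [c, dif_pos h]
    by_cases hw : ‖(h.choose.2 : ℂ)‖ < 1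
    · rw [(K.face_inj _ _ _ _ hw h.choose_spec).2]
    · by_cases hz : ‖(z : ℂ)‖ < 1
      · rw [← (K.face_inj _ _ _ _ hz h.choose_spec.symm).2]
      · rw [coc_kD hw, coc_kD hz]
  have h2 : ∀ y, c (K.ι y) = 0 := fun y => by
    by_cases h : ∃ a : K.F × Disc, K.face a.1 a.2 = K.ι y
    · obtain ⟨⟨f, z⟩, h⟩ := h
      rw [← h, h1]
      exact coc_kD fun hz => K.face_ne f z y hz h
    · simp only [c, dif_neg h]
  refine ⟨⟨c, continuous_iff_isClosed.2 fun C hC => K.closed _ ?_ fun f => ?_⟩, h1, h2⟩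
  · have : K.ι ⁻¹' (c ⁻¹' C) = (fun _ => (0 : ℝ × ℂ)) ⁻¹' C := by
      ext y; simp only [mem_preimage, h2]
    rw [this]
    exact hC.preimage continuous_const
  · have : K.face f ⁻¹' (c ⁻¹' C) = Wind.kD ⁻¹' C := by
      ext y; simp only [mem_preimage, h1]
    rw [this]
    exact hC.preimage (by unfold Wind.kD; fun_prop)

omit [ContinuousConstSMul G W] in
/-- the coefficient of the lifted open faces -/
theorem coc_coef (χ : G →* kˣ) (hq : IsQuotientCoveringMap q G) (K : Cx Y)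
    (φ : K.F → C(Disc, W)) (hφ : ∀ f, q ∘ φ f = K.face f) (b : K.F → k) :
    ∃ κ : W → k, (∀ (g : G) w, κ (g • w) = χ g * κ w) ∧
      (∀ f (z : Disc), ‖(z : ℂ)‖ < 1 → κ (φ f z) = b f) := by
  classical
  have := hq.isCancelSMul
  let κ : W → k := fun w =>
    if h : ∃ a : G × K.F × Disc, ‖(a.2.2 : ℂ)‖ < 1 ∧ a.1 • φ a.2.1 a.2.2 = w then
      χ h.choose.1 * b h.choose.2.1 else 0
  have h1 : ∀ (g : G) f (z : Disc), ‖(z : ℂ)‖ < 1 → κ (g • φ f z) = χ g * b f := fun g f z hz => by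
    have h : ∃ a : G × K.F × Disc, ‖(a.2.2 : ℂ)‖ < 1 ∧ a.1 • φ a.2.1 a.2.2 = g • φ f z :=
      ⟨(g, f, z), hz, rfl⟩
    simp only [κ, dif_pos h]
    obtain ⟨a1, a2⟩ := h.choose_spec
    generalize h.choose = a at a1 a2
    obtain ⟨g', f', z'⟩ := a
    have a3 := congrArg q a2
    rw [hq.map_smul, hq.map_smul] at a3
    obtain ⟨rfl, rfl⟩ := K.face_inj f' f z' z a1
      ((congrFun (hφ f') z').symm.trans (a3.trans (congrFun (hφ f) z)))
    obtain rfl : g' = g := IsCancelSMul.right_cancel _ _ _ a2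
    rfl
  refine ⟨κ, fun g w => ?_, fun f z hz => ?_⟩
  · by_cases h : ∃ a : G × K.F × Disc, ‖(a.2.2 : ℂ)‖ < 1 ∧ a.1 • φ a.2.1 a.2.2 = w
    · obtain ⟨⟨g', f, z⟩, hz, rfl⟩ := h
      rw [smul_smul, h1 _ _ _ hz, h1 _ _ _ hz, map_mul, Units.val_mul, mul_assoc]
    · have h' : ¬ ∃ a : G × K.F × Disc, ‖(a.2.2 : ℂ)‖ < 1 ∧ a.1 • φ a.2.1 a.2.2 = g • w := by
        rintro ⟨⟨g', f, z⟩, hz, e⟩
        exact h ⟨(g⁻¹ * g', f, z), hz, by rw [mul_smul, e, inv_smul_smul]⟩
      simp only [κ, dif_neg h, dif_neg h', mul_zero]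
  · have := h1 1 f z hz
    rwa [one_smul, map_one, Units.val_one, one_mul] at this

/-- polar coordinates -/
def polar : C(I × I, Disc) :=
  ⟨fun a => ⟨((a.2 : ℝ) : ℂ) * circ a.1, by simpa [abs_of_nonneg a.2.2.1] using a.2.2.2⟩,
    by have := circ.continuous; fun_prop⟩

lemma polar_coe (s t : I) : (polar (s, t) : ℂ) = ((t : ℝ) : ℂ) * circ s := rfl

lemma polar_norm (s t : I) : ‖(polar (s, t) : ℂ)‖ = t := by
  simp [polar_coe, abs_of_nonneg t.2.1]

lemma polar_end (t : I) : polar (1, t) = polar (0, t) := Subtype.ext (by simp [polar_coe])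

/-- concentric circles have the same value -/
theorem pv_polar {M : Type} [AddCommGroup M] {A : Set W} {ψ : Co 2 W M} (h : Z A (cob ψ))
    (φ : C(Disc, W)) (α : C(I, I)) (hα : ∀ s t, φ (polar (s, α t)) ∈ A) (a d : C(I, W))
    (ha : ∀ s, a s = φ (polar (s, α 0))) (hd : ∀ s, d s = φ (polar (s, α 1))) :
    pv ψ a = pv ψ d := by
  let F : C(I × I, W) := φ.comp (polar.comp ((ContinuousMap.id I).prodMap α))
  let c : C(I, W) := ⟨fun s => F (0, s), by fun_prop⟩
  have := pv_square h F (fun a => hα a.1 a.2) a c c d ha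
    (fun s => congrArg φ (polar_end (α s)).symm) (fun _ => rfl) hd
  rw [add_comm] at this
  exact add_left_cancel this

theorem exists_coc (χ : G →* kˣ) (hq : IsQuotientCoveringMap q G) (K : Cx Y)
    (hV : Van (sy χ W) 2 univ ∅) (φ : K.F → C(Disc, W)) (hφ : ∀ f, q ∘ φ f = K.face f)
    (b : K.F → k) : ∃ (A : Set W) (ψ : Co 2 W k), (∀ w z, q w = K.ι z → w ∈ A) ∧
      (sy χ W).Eqv ψ ∧ Z A (cob ψ) ∧
      ∀ f, pv ψ ((φ f).comp (inc.comp circ.toContinuousMap)) = b f := by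
  obtain ⟨c, hc1, hc2⟩ := coc_ext K
  obtain ⟨κ, hκ1, hκ2⟩ := coc_coef χ hq K φ hφ b
  obtain ⟨wn, hw1, hw2⟩ := exists_wnd
  let ρ : C(W, ℝ) := ⟨fun w => (c (q w)).1, (c.continuous.comp hq.continuous).fst⟩
  let ζ : C(W, ℂ) := ⟨fun w => (c (q w)).2, (c.continuous.comp hq.continuous).snd⟩
  have hρ : ∀ f z, ρ (φ f z) = 1 - ‖(z : ℂ)‖ := fun f z =>
    congrArg Prod.fst ((congrArg c (congrFun (hφ f) z)).trans (hc1 f z))
  have hζ : ∀ f z, ζ (φ f z) = (z : ℂ) * ((1 - ‖(z : ℂ)‖ : ℝ) : ℂ) := fun f z =>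
    congrArg Prod.snd ((congrArg c (congrFun (hφ f) z)).trans (hc1 f z))
  have hρg : ∀ (g : G) w, ρ (g • w) = ρ w := fun g w => congrArg (fun y => (c y).1) (hq.map_smul g)
  have hζg : ∀ (g : G) w, ζ (g • w) = ζ w := fun g w => congrArg (fun y => (c y).2) (hq.map_smul g)
  let A : Set W := {w | ρ w ≠ 1}
  let B : Set W := {w | ρ w ≠ 0}
  have hA : (sy χ W).Inv A := fun (g : G) w => by
    change ρ (g • w) ≠ 1 ↔ ρ w ≠ 1
    rw [hρg]
  have hB : (sy χ W).Inv B := fun (g : G) w => by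
    change ρ (g • w) ≠ 0 ↔ ρ w ≠ 0
    rw [hρg]
  have hBm : ∀ w ∈ B, ∃ (g : G) (f : K.F) (z : Disc), ‖(z : ℂ)‖ < 1 ∧ w = g • φ f z := by
    intro w hw
    rcases K.cover (q w) with ⟨y, hy⟩ | ⟨f, z, hz⟩
    · exact (hw (congrArg Prod.fst ((congrArg c hy).trans (hc2 y)))).elim
    · obtain ⟨g, hg⟩ := hq.apply_eq_iff_mem_orbit.1 (hz.trans (congrFun (hφ f) z).symm)
      refine ⟨g, f, z, ?_, hg.symm⟩
      by_contra h
      exact hw (congrArg Prod.fst ((congrArg c hz).trans ((hc1 f z).trans (coc_kD h))))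
  have hcov : Cov univ A B := ⟨subset_univ _, subset_univ _, fun w _ => by
    rw [nhdsWithin_univ]
    by_cases h : ρ w = 1
    · exact Or.inr ((isOpen_ne_fun ρ.continuous continuous_const).mem_nhds (by
        change ρ w ≠ 0
        rw [h]; exact one_ne_zero))
    · exact Or.inl ((isOpen_ne_fun ρ.continuous continuous_const).mem_nhds h)⟩
  have hloc : ∀ ω : C(Sx 3, W), In B ω → ∀ x x', κ (ω x) = κ (ω x') := by
    intro ω hω
    have : PreconnectedSpace (Sx 3) :=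
      isPreconnected_iff_preconnectedSpace.1 (convex_stdSimplex ℝ (Fin 3)).isPreconnected
    refine IsLocallyConstant.apply_eq_of_preconnectedSpace (f := fun x => κ (ω x))
      ((IsLocallyConstant.iff_eventually_eq _).2 fun x => ?_)
    obtain ⟨g, f, z, hz, e⟩ := hBm _ (hω x)
    have ho := InjAux.isOpen_lift hq.isCoveringMap K f ((tsl W g).comp (φ f))
      (funext fun z => (hq.map_smul g).trans (congrFun (hφ f) z))
    filter_upwards [(ho.preimage ω.continuous).mem_nhds ⟨z, hz, e.symm⟩] with x' ⟨z', hz', e'⟩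
    rw [← e', e]
    change κ (g • φ f z') = _
    rw [hκ1, hκ1, hκ2 f z hz, hκ2 f z' hz']
  let θ : Co 2 W k := fun ω => κ (ω (vt 2 0)) * (wn (ζ.comp ω) : k)
  have hθ : (sy χ W).Eqv θ := sy_eqv.2 fun g ω => by
    have e : ζ.comp ((tsl W g).comp ω) = ζ.comp ω := ContinuousMap.ext fun x => hζg g _
    simp only [θ, e, ContinuousMap.comp_apply, tsl_apply, hκ1, mul_assoc]
  have hAB : Z (A ∩ B) (cob θ) := by
    intro ω hω
    have h1 : In {0}ᶜ (ζ.comp ω) := fun x => by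
      obtain ⟨g, f, z, hz, e⟩ := hBm _ (hω x).2
      have h2 : ρ (ω x) ≠ 1 := (hω x).1
      change ζ (ω x) ≠ 0
      rw [e, hρg, hρ] at h2
      rw [e, hζg, hζ]
      refine mul_ne_zero (fun h => h2 (by rw [h]; simp)) ?_
      rw [Complex.ofReal_ne_zero]
      linarith
    have h2 := hw1 _ h1
    rw [cob_apply] at h2 ⊢
    have h3 : ∀ i : Fin 3, θ (ω.comp (fc i)) =
        κ (ω (vt 3 0)) * (wn ((ζ.comp ω).comp (fc i)) : k) := fun i => by
      simp only [θ, ContinuousMap.comp_apply]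
      rw [hloc ω (fun x => (hω x).2) _ (vt 3 0)]
      rfl
    have h4 := congrArg (fun n : ℤ => κ (ω (vt 3 0)) * (n : k)) h2
    simp only [Int.cast_zero, mul_zero, Int.cast_sum, Finset.mul_sum, smul_eq_mul, Int.cast_mul]
      at h4
    rw [← h4]
    exact Finset.sum_congr rfl fun i _ => by rw [h3, zsmul_eq_mul]; ring
  obtain ⟨θ', a1, a2, a3, a4⟩ := ext_cocycle hcov hA hB hθ.cob
    (by rw [cob_cob]; exact Z.zero _) hAB
  obtain ⟨ψ, b1, -, b3⟩ := hV θ' a1 a2 (z_empty _)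
  have b4 : θ' = cob ψ := sub_eq_zero.1 (z_univ.1 b3)
  subst b4
  refine ⟨A, ψ, fun w z h => ?_, b1, a3, fun f => ?_⟩
  · change (c (q w)).1 ≠ 1
    rw [h, hc2]
    exact zero_ne_one
  · let hf : I := ⟨1 / 2, by norm_num, by norm_num⟩
    let d : C(I, W) := ⟨fun s => φ f (polar (s, hf)), by fun_prop⟩
    let α : C(I, I) := ⟨fun t => ⟨1 - t / 2, by linarith [t.2.2], by linarith [t.2.1]⟩, by fun_prop⟩
    let β : C(I, I) := ⟨fun t => ⟨t / 2, by linarith [t.2.1], by linarith [t.2.2]⟩, by fun_prop⟩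
    have e1 : pv ψ ((φ f).comp (inc.comp circ.toContinuousMap)) = pv ψ d := by
      refine pv_polar a3 (φ f) α (fun s t => ?_) _ _ (fun s => congrArg (φ f) (Subtype.ext ?_))
        fun s => congrArg (fun t => φ f (polar (s, t))) (Subtype.ext ?_)
      · change ρ _ ≠ 1
        rw [hρ, polar_norm]
        change 1 - (1 - (t : ℝ) / 2) ≠ 1
        linarith [t.2.2]
      · simp [polar_coe, α, inc]
      · simp only [hf, α, ContinuousMap.coe_mk, Icc.coe_one]; norm_num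
    have hB' : ∀ s t, φ f (polar (s, β t)) ∈ B := fun s t => by
      change ρ _ ≠ 0
      rw [hρ, polar_norm]
      change 1 - (t : ℝ) / 2 ≠ 0
      linarith [t.2.2]
    have a5 : Z B (cob (θ - ψ)) := by rwa [map_sub]
    have e2 : pv (θ - ψ) (ContinuousMap.const I (φ f (polar (0, β 0)))) = pv (θ - ψ) d := by
      refine pv_polar a5 (φ f) β hB' _ _ (fun s => congrArg (φ f) (Subtype.ext ?_))
        fun s => congrArg (fun t => φ f (polar (s, t))) (Subtype.ext ?_)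
      · simp [polar_coe, β]
      · simp only [hf, β, ContinuousMap.coe_mk, Icc.coe_one]
    rw [pv_const a5 (hB' 0 0) _ fun _ => rfl] at e2
    have e3 : pv θ d = pv ψ d := sub_eq_zero.1 e2.symm
    have e4 : pv wn (ζ.comp d) = 1 := hw2 (1 / 4) _ (by norm_num) fun s => by
      change ζ (φ f (polar (s, hf))) = _
      rw [hζ, polar_norm, polar_coe]
      simp only [hf]
      push_cast
      ring
    rw [e1, ← e3]
    change κ (φ f (polar (_, hf))) * ((pv wn (ζ.comp d) : ℤ) : k) = _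
    rw [e4, hκ2 _ _ (by rw [polar_norm]; norm_num [hf]), Int.cast_one, mul_one]

end Crest.Agent.R251
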