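import Crest.Agent.R251.SExc
import Crest.Agent.R251.SPrism
import Crest.Agent.R197.All

/-! Row 251: the two-dimensional side, definitions. -/

set_option autoImplicit false

noncomputable section

namespace Crest.Agent.R251

open unitInterval Set _root_.Topology

/-- translation by a group element -/
def tsl {G : Type} [Group G] (W : Type) [TopologicalSpace W] [MulAction G W]
    [ContinuousConstSMul G W] (g : G) : C(W, W) := ⟨fun w => g • w, continuous_const_smul g⟩

@[simp] lemma tsl_apply {G : Type} [Group G] {W : Type} [TopologicalSpace W] [MulAction G W]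
    [ContinuousConstSMul G W] (g : G) (w : W) : tsl W g w = g • w := rfl

/-- the symmetries given by a character -/
def sy {G k : Type} [Group G] [Field k] (χ : G →* kˣ) (W : Type) [TopologicalSpace W]
    [MulAction G W] [ContinuousConstSMul G W] : Sym W k :=
  ⟨G, tsl W, fun g => AddMonoidHom.mulLeft (χ g : k)⟩

lemma sy_eqv {G k : Type} [Group G] [Field k] {χ : G →* kˣ} {W : Type} [TopologicalSpace W]
    [MulAction G W] [ContinuousConstSMul G W] {m : ℕ} {φ : Co m W k} :
    (sy χ W).Eqv φ ↔ ∀ (g : G) ω, φ ((tsl W g).comp ω) = χ g * φ ω := Iff.rfl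

/-- the parametrisation of the `1`-simplex -/
def par : C(Sx 2, I) :=
  ⟨fun x => ⟨x 1, x.2.1 1, stdSimplex.le_one x 1⟩,
    ((continuous_apply 1).comp continuous_subtype_val).subtype_mk _⟩

@[simp] lemma par_coe (x : Sx 2) : (par x : ℝ) = x 1 := rfl

/-- the value of a `1`-cochain on a path -/
def pv {W M : Type} [TopologicalSpace W] (ψ : Co 2 W M) (γ : C(I, W)) : M := ψ (γ.comp par)

end Crest.Agent.R251
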