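import Crest.Agent.R251.YDefs

/-! Row 251: the finite cell structure and the presentation. -/

set_option autoImplicit false

noncomputable section

namespace Crest.Agent.R251

open unitInterval Set _root_.Topology Crest.Agent.R197

section ExistsCx

open Metric Crest.Agent.R197.Extract
open _root_.Topology.RelCWComplex (cell openCell closedCell cellFrontier)

theorem exists_cx_graph {X : Type} [TopologicalSpace X] [CWComplex (univ : Set X)] [T2Space X] :
    ∃ G : Graph (sk X), Finite (cell (univ : Set X) 1) → Finite G.E := by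
  choose o ho using fun e : cell (univ : Set X) 1 => exists_end e (Or.inl rfl)
  choose t ht using fun e : cell (univ : Set X) 1 => exists_end e (Or.inr rfl)
  refine ⟨⟨cell (univ : Set X) 0, cell (univ : Set X) 1, o, t, vtx,
    fun e => ⟨⟨edg e, continuous_edg e⟩, ho e, ht e⟩, ?_, ?_, ?_, ?_, ?_⟩, id⟩
  · exact fun v v' h => RelCWComplex.injective_map_zero univ (congrArg Subtype.val h)
  · intro e e' r r' h0 h1 h
    obtain ⟨h2, h3⟩ := map_inj (par_mem_ball h0 h1) (par_mem r') (congrArg Subtype.val h)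
    exact ⟨h2, par_inj h3⟩
  · intro e r v h0 h1 h
    have h2 : (edg e r : X) ∈ openCell 1 e := mem_image_of_mem _ (par_mem_ball h0 h1)
    have h3 : (vtx v : X) ∈ openCell 0 v := by
      rw [RelCWComplex.openCell_zero_eq_singleton]; rfl
    have h4 : (edg e r : X) = vtx v := congrArg Subtype.val h
    exact one_ne_zero (dim_eq h2 (h4 ▸ h3))
  · rintro ⟨x, m, hm, j, hj⟩
    obtain rfl | rfl : m = 0 ∨ m = 1 := by omega
    · rw [RelCWComplex.openCell_zero_eq_singleton] at hj
      exact Or.inl ⟨j, Subtype.ext hj⟩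
    · obtain ⟨y, hy, rfl⟩ := hj
      obtain ⟨r, rfl⟩ := exists_par (ball_subset_closedBall hy)
      exact Or.inr ⟨j, r, rfl⟩
  · intro B hB
    have h1 : IsClosed (Subtype.val '' B) := by
      refine CWComplex.isClosed_of_disjoint_openCell_or_isClosed_inter_closedCell (C := univ)
        (subset_univ _) fun n hn j => ?_
      rcases lt_or_ge n 2 with h | h
      · right
        obtain rfl : n = 1 := by omega
        have h2 : Subtype.val '' B ∩ closedCell 1 j =
            (fun r => (edg j r : X)) '' (edg j ⁻¹' B) := by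
          ext x
          constructor
          · rintro ⟨⟨z, hz, rfl⟩, y, hy, h3⟩
            obtain ⟨r, rfl⟩ := exists_par hy
            have h4 : edg j r = z := Subtype.ext h3
            exact ⟨r, by rw [mem_preimage, h4]; exact hz, h3⟩
          · rintro ⟨r, hr, rfl⟩
            exact ⟨⟨_, hr, rfl⟩, mem_image_of_mem _ (par_mem r)⟩
        rw [h2]
        exact ((hB j).isCompact.image (continuous_subtype_val.comp (continuous_edg j))).isClosed
      · exact Or.inl ((disjoint_sk h j).mono_left (Subtype.coe_image_subset _ _))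
    have h2 := h1.preimage (continuous_subtype_val (p := fun x => x ∈ sk X))
    rwa [preimage_image_eq _ Subtype.val_injective] at h2

theorem exists_cx (Y : Type) [TopologicalSpace Y] [T2Space Y] [CWComplex (univ : Set Y)]
    (hf : RelCWComplex.Finite (univ : Set Y))
    (hd : ∀ m : ℕ, 2 < m → IsEmpty (RelCWComplex.cell (univ : Set Y) m)) :
    ∃ K : Cx Y, Finite K.G.E ∧ Finite K.F := by
  obtain ⟨G, hG⟩ := exists_cx_graph (X := Y)
  obtain ⟨h, h1, h2⟩ := exists_homeo
  have hc : ∀ z : Disc, h z ∈ closedBall (0 : Fin 2 → ℝ) 1 := fun z =>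
    h2 ▸ mem_image_of_mem _ z.2
  have hb : ∀ z : ℂ, h z ∈ ball (0 : Fin 2 → ℝ) 1 ↔ ‖z‖ < 1 := fun z => by
    rw [← h1, h.injective.mem_set_image, mem_ball_zero_iff]
  have hs : ∀ y ∈ closedBall (0 : Fin 2 → ℝ) 1, ∃ z : Disc, h z = y := fun y hy => by
    rw [← h2] at hy
    obtain ⟨z, hz, rfl⟩ := hy
    exact ⟨⟨z, hz⟩, rfl⟩
  let face : cell (univ : Set Y) 2 → C(Disc, Y) := fun f =>
    ⟨fun z => RelCWComplex.map 2 f (h z), (RelCWComplex.continuousOn 2 f).comp_continuous
      (h.continuous.comp continuous_subtype_val) hc⟩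
  have hatt : ∀ f (z : Circle), face f (inc z) ∈ sk Y := fun f z => by
    have h3 : h (inc z) ∈ sphere (0 : Fin 2 → ℝ) 1 := by
      have h4 := hc (inc z)
      rw [← sphere_union_ball] at h4
      refine h4.resolve_right fun h5 => ?_
      have h6 : ‖(z : ℂ)‖ < 1 := (hb _).1 h5
      simp at h6
    exact frontier_mem (i := f) (mem_image_of_mem _ h3)
  refine ⟨{
    Z := sk Y
    G := G
    ι := ⟨Subtype.val, continuous_subtype_val⟩
    ι_inj := Subtype.val_injective
    F := cell (univ : Set Y) 2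
    face := face
    att := fun f => ⟨fun z => ⟨face f (inc z), hatt f z⟩,
      ((face f).continuous.comp inc.continuous).subtype_mk _⟩
    face_inc := fun _ _ => rfl
    face_inj := fun f f' z z' hz he => ?_
    face_ne := fun f z y hz he => ?_
    cover := fun x => ?_
    closed := fun B hB hF => ?_ }, hG (hf.finite_cell 1), hf.finite_cell 2⟩
  · obtain ⟨h3, h4⟩ := map_inj ((hb z).2 hz) (hc z') he
    exact ⟨h3, Subtype.ext (h.injective h4)⟩
  · have h3 : face f z ∈ openCell 2 f := mem_image_of_mem _ ((hb z).2 hz)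
    have h4 : face f z = (y : Y) := he
    exact Set.disjoint_left.1 (disjoint_sk le_rfl f) y.2 (h4 ▸ h3)
  · have h3 : x ∈ ⋃ (n : ℕ) (j : cell (univ : Set Y) n), openCell n j := by
      rw [CWComplex.iUnion_openCell_eq_complex]; trivial
    simp only [mem_iUnion] at h3
    obtain ⟨n, j, hj⟩ := h3
    rcases lt_trichotomy n 2 with hn | rfl | hn
    · exact Or.inl ⟨⟨x, n, hn, j, hj⟩, rfl⟩
    · obtain ⟨y, hy, rfl⟩ := hj
      obtain ⟨z, rfl⟩ := hs y (ball_subset_closedBall hy)
      exact Or.inr ⟨j, z, rfl⟩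
    · exact (hd n hn).elim j
  · have h3 : IsClosed (sk Y ∩ B) := by
      have := isClosed_sk.isClosedEmbedding_subtypeVal.isClosedMap _ hB
      rwa [← Subtype.image_preimage_coe]
    refine (CWComplex.closed univ B (subset_univ _)).2 fun n j => ?_
    rcases lt_trichotomy n 2 with hn | rfl | hn
    · have h4 : B ∩ closedCell n j = sk Y ∩ B ∩ closedCell n j := by
        ext x
        exact ⟨fun hx => ⟨⟨closedCell_subset hn j hx.2, hx.1⟩, hx.2⟩, fun hx => ⟨hx.1.2, hx.2⟩⟩
      rw [h4]
      exact h3.inter RelCWComplex.isClosed_closedCell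
    · have h4 : B ∩ closedCell 2 j = face j '' (face j ⁻¹' B) := by
        ext x
        constructor
        · rintro ⟨hx, y, hy, rfl⟩
          obtain ⟨z, rfl⟩ := hs y hy
          exact ⟨z, hx, rfl⟩
        · rintro ⟨z, hz, rfl⟩
          exact ⟨hz, mem_image_of_mem _ (hc z)⟩
      rw [h4]
      exact ((hF j).isCompact.image (face j).continuous).isClosed
    · exact (hd n hn).elim j

end ExistsCx

theorem exists_pres {Y : Type} [TopologicalSpace Y] [PathConnectedSpace Y] (K : Cx Y) (x : Y) :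
    ∃ (τ : ∀ v, PQ x (K.ι (K.G.vtx v))) (base : K.F → K.G.V) (bd : K.F → List (K.G.E × Bool))
      (c : ∀ f, PQ (K.G.vtx (base f)) (K.att f 1)),
      (∀ f, K.G.EP (base f) (bd f) (base f) ((c f).trans ((K.loop f).trans (c f).symm))) ∧
      (∀ f, FreeGroup.lift (K.lab x τ) (FreeGroup.mk (bd f)) = 1) ∧
      ∀ (d : (FundamentalGroup Y x)ᵐᵒᵖ) (n : ℕ), d ^ n = 1 → ∃ w : FreeGroup K.G.E,
        FreeGroup.lift (K.lab x τ) w = d ∧
          w ^ n ∈ Subgroup.normalClosure (range fun f => FreeGroup.mk (bd f)) := by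
  have h1 := potStmt
  have h2 := graphGenStmt genStmt
  have h3 := graphPotStmt
  have h4 := surjStmt genStmt
  have h5 := extendStmt
  have hj : ∀ y y' : Y, Nonempty (PQ y y') := fun y y' =>
    ⟨Path.Homotopic.Quotient.mk (PathConnectedSpace.somePath y y')⟩
  obtain ⟨v0⟩ : Nonempty K.G.V := by
    rcases K.cover x with ⟨y, -⟩ | ⟨f, -⟩
    · exact ⟨(GP.exists_vtx K.G y).choose⟩
    · exact ⟨(GP.exists_vtx K.G (K.att f 1)).choose⟩
  have τ : ∀ v, PQ x (K.ι (K.G.vtx v)) := fun v => (hj _ _).some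
  choose base hbase using fun f => GP.exists_vtx K.G (K.att f 1)
  have c : ∀ f, PQ (K.G.vtx (base f)) (K.att f 1) := fun f => (hbase f).some
  choose bd hbd using fun f => h2 K.Z K.G (base f) (base f)
    ((c f).trans ((K.loop f).trans (c f).symm))
  have hker : ∀ (G : Type) [Group G] (lam : K.G.E → G),
      (∀ f, FreeGroup.lift lam (FreeGroup.mk (bd f)) = 1) → ∀ w, IsPath K.G.o K.G.t v0 w v0 →
      FreeGroup.lift (K.lab x τ) (FreeGroup.mk w) = 1 →
      FreeGroup.lift lam (FreeGroup.mk w) = 1 := by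
    intro G _ lam hrel w hw hw1
    obtain ⟨p, hp⟩ := h3 K.Z G K.G lam
    obtain ⟨h, hh⟩ := h1 K.Z G p
    have hev : ∀ {v v' : K.G.V} {w : List (K.G.E × Bool)} {ξ : PQ (K.G.vtx v) (K.G.vtx v')},
        K.G.EP v w v' ξ → FreeGroup.lift lam (FreeGroup.mk w) = h ξ := fun H =>
      GP.eval (fun _ _ ξ => h ξ) (fun _ _ _ ξ ζ => hh.trans ξ ζ) lam (fun e => by
        obtain ⟨c, hc, c0, c1⟩ := hp e
        have := hh.eq _ c hc
        rw [c0, c1, one_mul] at this
        exact this.symm) H
    obtain ⟨p', hp'⟩ := h5 Y G K p fun f => by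
      have a1 : h (K.loop f) = 1 := GP.hol_of_conj hh (c f) _ ((hev (hbd f)).symm.trans (hrel f))
      obtain ⟨c, hc⟩ := hh.ex (circ.map (K.att f).continuous)
      refine ⟨c, hc, ?_⟩
      rw [hh.eq _ c hc, Path.Homotopic.Quotient.mk_map]
      exact (congrArg (c 0 * ·) a1).trans (mul_one _)
    obtain ⟨h', hh'⟩ := h1 Y G p'
    have hmap : ∀ {z z' : K.Z} (ξ : PQ z z'), h' (ξ.map K.ι) = h ξ := fun ξ => by
      induction ξ using Path.Homotopic.Quotient.ind with | mk γ =>
      obtain ⟨c, hc⟩ := hh.ex γ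
      have a1 := hh'.eq (γ.map K.ι.continuous) c fun t => (hc t).mono fun t' ht' => by
        rw [ht', ← hp']; rfl
      rw [hh.eq γ c hc] at a1
      exact (mul_left_cancel a1).symm
    obtain ⟨ξ, hξ⟩ := hw.exists_EP
    rw [GP.eval_lab K x τ hξ] at hw1
    have a1 : (τ v0).trans ((ξ.map K.ι).trans (τ v0).symm) = Path.Homotopic.Quotient.refl x :=
      MulOpposite.op_injective hw1
    rw [hev hξ, ← hmap]
    exact GP.hol_of_conj hh' (τ v0) _ (by rw [a1, GP.hol_refl hh'])
  refine ⟨τ, base, bd, c, hbd, fun f => ?_, fun d n hd => ?_⟩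
  · have e : (K.loop f).map K.ι = Path.Homotopic.Quotient.refl _ := by
      rw [Cx.loop, ← Path.Homotopic.Quotient.map_comp]
      exact GP.map_circ (K.face f) _ (by ext z; exact (K.face_inc f z).symm)
    rw [GP.eval_lab K x τ (hbd f), GP.L, GP.map_trans, GP.map_trans, e,
      Path.Homotopic.Quotient.refl_trans, GP.map_symm, Path.Homotopic.Quotient.trans_symm,
      Path.Homotopic.Quotient.refl_trans, Path.Homotopic.Quotient.trans_symm]
    rfl
  · obtain ⟨ξ, hξ⟩ := h4 Y K (K.G.vtx v0) (K.G.vtx v0)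
      ((τ v0).symm.trans ((FundamentalGroup.toPath d.unop).trans (τ v0)))
    obtain ⟨w, hw⟩ := h2 K.Z K.G v0 v0 ξ
    have hwd : FreeGroup.lift (K.lab x τ) (FreeGroup.mk w) = d := by
      rw [GP.eval_lab K x τ hw, GP.L, hξ, Path.Homotopic.Quotient.trans_assoc,
        GP.trans_symm_cancel, Path.Homotopic.Quotient.trans_assoc,
        Path.Homotopic.Quotient.trans_symm, Path.Homotopic.Quotient.trans_refl]
      rfl
    have hpow : ∀ m : ℕ, ∃ l, IsPath K.G.o K.G.t v0 l v0 ∧
        FreeGroup.mk w ^ m = FreeGroup.mk l := fun m => by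
      induction m with
      | zero => exact ⟨[], IsPath.nil v0, by rw [pow_zero, FreeGroup.one_eq_mk]⟩
      | succ m ih =>
        obtain ⟨l, l1, l2⟩ := ih
        exact ⟨l ++ w, l1.append hw.isPath, by rw [pow_succ, l2, FreeGroup.mul_mk]⟩
    refine ⟨FreeGroup.mk w, hwd, ?_⟩
    obtain ⟨l, l1, l2⟩ := hpow n
    have e : FreeGroup.lift (fun e : K.G.E => QuotientGroup.mk'
        (Subgroup.normalClosure (range fun f => FreeGroup.mk (bd f))) (FreeGroup.of e)) =
        QuotientGroup.mk' (Subgroup.normalClosure (range fun f => FreeGroup.mk (bd f))) :=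
      FreeGroup.ext_hom _ _ fun e => FreeGroup.lift_apply_of
    have := hker _ (fun e : K.G.E => QuotientGroup.mk'
        (Subgroup.normalClosure (range fun f => FreeGroup.mk (bd f))) (FreeGroup.of e))
      (fun f => by
        rw [e]
        exact (QuotientGroup.eq_one_iff _).2 (Subgroup.subset_normalClosure ⟨f, rfl⟩)) l l1
      (by rw [← l2, map_pow, hwd, hd])
    rw [e] at this
    rw [l2]
    exact (QuotientGroup.eq_one_iff _).1 this

end Crest.Agent.R251
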