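import Crest.Agent.R251.YDefs

/-! Row 251: transfer of the vanishing and of the torsion loop. -/

set_option autoImplicit false

noncomputable section

namespace Crest.Agent.R251

open unitInterval Set _root_.Topology

variable {G k : Type} [Group G] [Field k] {E W X Y : Type} [TopologicalSpace E]
  [TopologicalSpace W] [TopologicalSpace X] [TopologicalSpace Y] [MulAction G E]
  [ContinuousConstSMul G E] [MulAction G W] [ContinuousConstSMul G W] {p : E → X} {q : W → Y}

/-- vanishing passes to equivariant homotopy retracts -/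
theorem van_retract (χ : G →* kˣ) (F : C(W, E)) (B : C(E, W)) (Θ : C(W × I, W))
    (hF : ∀ (g : G) w, F (g • w) = g • F w) (hB : ∀ (g : G) e, B (g • e) = g • B e)
    (hΘ : ∀ (g : G) w t, Θ (g • w, t) = g • Θ (w, t)) (h0 : ∀ w, Θ (w, 0) = w)
    (h1 : ∀ w, Θ (w, 1) = B (F w)) {m : ℕ} (hV : Van (sy χ E) m univ ∅) :
    Van (sy χ W) m univ ∅ := by
  intro φ hφ hc _
  have hc0 : cob φ = 0 := z_univ.1 hc
  have e1 : (sy χ E).Eqv (pb B φ) := sy_eqv.2 fun g ω => by
    rw [pb_apply, pb_apply, ← sy_eqv.1 hφ]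
    exact congrArg φ (ContinuousMap.ext fun x => hB g (ω x))
  obtain ⟨ψ, e2, z2, b2⟩ := hV (pb B φ) e1 (z_univ.2 (by rw [← pb_cob, hc0, map_zero])) (z_empty _)
  have e3 : (sy χ W).Eqv (pb F ψ) := sy_eqv.2 fun g ω => by
    rw [pb_apply, pb_apply, ← sy_eqv.1 e2]
    exact congrArg ψ (ContinuousMap.ext fun x => hF g (ω x))
  have e4 : (sy χ W).Eqv (pr Θ φ) := fun g τ => by
    rw [pr_apply, pr_apply, ← prs_eqv hφ]
    exact congrArg (prs φ) (ContinuousMap.ext fun x => hΘ g (τ x.1) x.2)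
  refine ⟨pb F ψ - pr Θ φ, e3.sub e4, ?_, z_univ.2 ?_⟩
  · cases m with
    | zero => rw [z2.nil, pr_nil, map_zero, sub_zero]; exact Z.zero _
    | succ m => exact z_empty _
  · have s0 : pb (sl Θ 0) φ = φ := funext fun ω =>
      congrArg φ (ContinuousMap.ext fun x => h0 (ω x))
    have s1 : pb (sl Θ 1) φ = pb F (pb B φ) := funext fun ω =>
      congrArg φ (ContinuousMap.ext fun x => h1 (ω x))
    have h := pr_cob Θ φ
    rw [hc0, map_zero, zero_add, s0, s1, sub_eq_zero.1 (z_univ.1 b2)] at h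
    rw [map_sub, h, ← pb_cob]
    abel

/-- the torsion loop -/
theorem exists_loop [SimplyConnectedSpace E] (hp : IsQuotientCoveringMap p G)
    (hq : IsQuotientCoveringMap q G) (B : C(E, W)) (f : C(X, Y))
    (hB : ∀ (g : G) e, B (g • e) = g • B e) (hf : ∀ e, q (B e) = f (p e)) (u : G) (n : ℕ)
    (hu : u ^ n = 1) : ∃ (y : Y) (w : q ⁻¹' {y}) (l : FundamentalGroup Y y), l ^ n = 1 ∧
      (hq.isCoveringMap.monodromy l w : W) = u • (w : W) := by
  obtain ⟨e0⟩ : Nonempty E := PathConnectedSpace.nonempty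
  let e : p ⁻¹' {p e0} := ⟨e0, rfl⟩
  let e' : p ⁻¹' {p e0} := ⟨u • e0, hp.map_smul u⟩
  let Γ : Path e0 (u • e0) := PathConnectedSpace.somePath _ _
  let γ : Path (p e0) (p e0) :=
    { toFun := fun t => p (Γ t)
      continuous_toFun := hp.continuous.comp Γ.continuous
      source' := by simp
      target' := by simp [hp.map_smul] }
  let l0 : FundamentalGroup X (p e0) := (⟦γ⟧ : Path.Homotopic.Quotient (p e0) (p e0))
  have h0 : hp.fundamentalGroupToMulOpposite e l0 = MulOpposite.op u := by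
    rw [IsQuotientCoveringMap.fundamentalGroupToMulOpposite_apply_eq_Iff]
    change (e' : E) = _
    rw [← hp.isCoveringMap.monodromy_eq_of_map_eq (γ := ⟦γ⟧) (ex := e) (ey := e') (Γ := ⟦Γ⟧) rfl]
  have h1 : l0 ^ n = 1 := by
    apply hp.fundamentalGroupToMulOpposite_injective e
    rw [map_pow, h0, map_one, ← MulOpposite.op_pow, hu, MulOpposite.op_one]
  let w : q ⁻¹' {f (p e0)} := ⟨B e0, hf e0⟩
  let w' : q ⁻¹' {f (p e0)} := ⟨u • B e0, (hq.map_smul u).trans (hf e0)⟩
  let Δ : Path (B e0) (u • B e0) :=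
    { toFun := fun t => B (Γ t)
      continuous_toFun := B.continuous.comp Γ.continuous
      source' := by simp
      target' := by simp [hB] }
  refine ⟨f (p e0), w, FundamentalGroup.map f (p e0) l0, by rw [← map_pow, h1, map_one], ?_⟩
  change _ = (w' : W)
  congr 1
  refine hq.isCoveringMap.monodromy_eq_of_map_eq (γ := ⟦γ.map f.continuous⟧) (ex := w) (ey := w')
    (Γ := ⟦Δ⟧) ?_
  refine congrArg (Quotient.mk _) ?_
  ext t
  exact hf (Γ t)

theorem pathConnected_of_equiv [PathConnectedSpace X] (h : ContinuousMap.HomotopyEquiv X Y) :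
    PathConnectedSpace Y := by
  obtain ⟨H⟩ := h.right_inv
  have hj : ∀ y : Y, Joined (h.toFun (h.invFun y)) y := fun y => ⟨H.evalAt y⟩
  refine ⟨⟨h.toFun (Classical.arbitrary X)⟩, fun y y' => ?_⟩
  exact ((hj y).symm.trans
    ⟨(PathConnectedSpace.somePath _ _).map h.toFun.continuous⟩).trans (hj y')

end Crest.Agent.R251
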