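import Crest.Agent.R251.YPull
import Crest.Agent.R251.YTrans
import Crest.Agent.R251.YPres
import Crest.Agent.R251.YCoc

/-! Row 251: the presentation read off from a two-dimensional complex. -/

set_option autoImplicit false

noncomputable section

namespace Crest.Agent.R251

open unitInterval Set _root_.Topology Crest.Agent.R197 Crest.Agent.R197.InjAux

section
variable {G k : Type} [Group G] [Field k] {W Y : Type} [TopologicalSpace W] [TopologicalSpace Y]
  [MulAction G W] [ContinuousConstSMul G W] {q : W → Y}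

/-- The value of a cocycle on the lift of a path class in the `1`-skeleton. -/
theorem exists_Dh' (χ : G →* kˣ) (hq : IsQuotientCoveringMap q G) {Z' : Type}
    [TopologicalSpace Z'] (ι : C(Z', Y)) {A : Set W} {ψ : Co 2 W k}
    (hA : ∀ w z, q w = ι z → w ∈ A) (he : (sy χ W).Eqv ψ) (hc : Z A (cob ψ)) :
    ∃ Dh : ∀ {z z' : Z'}, PQ z z' → q ⁻¹' {ι z} → k,
      (∀ {z z' : Z'} (γ : Path z z') (e : q ⁻¹' {ι z}) (Γ : C(I, W)), q ∘ Γ = ι ∘ γ → Γ 0 = e →
        Dh (Path.Homotopic.Quotient.mk γ) e = pv ψ Γ) ∧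
      (∀ {z z' z'' : Z'} (ξ : PQ z z') (ζ : PQ z' z'') (e : q ⁻¹' {ι z}),
        Dh (ξ.trans ζ) e = Dh ξ e + Dh ζ (hq.isCoveringMap.monodromy (ξ.map ι) e)) ∧
      ∀ {z z' : Z'} (ξ : PQ z z') (g : G) (e e' : q ⁻¹' {ι z}), (e' : W) = g • (e : W) →
        Dh ξ e' = χ g * Dh ξ e := by
  have cov := hq.isCoveringMap
  have h0 : ∀ {z z' : Z'} (γ : Path z z') (e : q ⁻¹' {ι z}),
      (γ.map ι.continuous).toContinuousMap 0 = q e := fun γ e =>
    (γ.map ι.continuous).source.trans e.2.symm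
  have hne : ∀ {T : Type} (g : T → W) (l : T → Z'), q ∘ g = ι ∘ l → ∀ t, g t ∈ A :=
    fun g l h t => hA _ (l t) (congrFun h t)
  let L : ∀ {z z' : Z'} (γ : Path z z') (e : q ⁻¹' {ι z}), C(I, W) := fun γ e =>
    cov.liftPath (γ.map ι.continuous).toContinuousMap e (h0 γ e)
  have hL : ∀ {z z' : Z'} (γ : Path z z') (e : q ⁻¹' {ι z}), q ∘ L γ e = ι ∘ γ := fun γ e =>
    cov.liftPath_lifts ..
  have hL0 : ∀ {z z' : Z'} (γ : Path z z') (e : q ⁻¹' {ι z}), L γ e 0 = e := fun γ e =>
    cov.liftPath_zero ..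
  have hwd : ∀ {z z' : Z'} (γ γ' : Path z z') (e : q ⁻¹' {ι z}), γ.Homotopic γ' →
      pv ψ (L γ e) = pv ψ (L γ' e) := by
    rintro z z' γ γ' e ⟨F⟩
    refine pv_htp hc _ _ (cov.liftHomotopyRel (F.map ι) ⟨0, .inl rfl, by rw [hL0, hL0]⟩ (hL γ e)
      (hL γ' e)) (hne _ F ?_)
    exact cov.liftHomotopy_lifts _ _ fun a =>
      ((F.map ι).apply_zero a).trans (congrFun (hL γ e) a).symm
  refine ⟨fun ξ e => Quotient.lift (s := Path.Homotopic.setoid _ _) (fun γ => pv ψ (L γ e))
    (fun γ γ' h => hwd γ γ' e h) ξ, fun γ e Γ hΓ hΓ0 => ?_, fun ξ ζ e => ?_, fun ξ g e e' h => ?_⟩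
  · exact congrArg (pv ψ) ((cov.eq_liftPath_iff' _).2 ⟨hΓ, hΓ0⟩).symm
  · induction ξ using Path.Homotopic.Quotient.ind with | _ γ => ?_
    induction ζ using Path.Homotopic.Quotient.ind with | _ γ' => ?_
    let e' := cov.monodromy ((Path.Homotopic.Quotient.mk γ).map ι) e
    let Γ : Path (e : W) e' := ⟨L γ e, hL0 γ e, rfl⟩
    let Γ' : Path (e' : W) (L γ' e' 1) := ⟨L γ' e', hL0 γ' e', rfl⟩
    refine Eq.trans ?_ (pv_trans hc Γ Γ' (hne _ γ (hL γ e)) (hne _ γ' (hL γ' e')))
    refine congrArg (pv ψ)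
      ((cov.eq_liftPath_iff' (h0 (γ.trans γ') e)).2 ⟨funext fun s => ?_, ?_⟩).symm
    · change q (Γ.trans Γ' s) = ι (γ.trans γ' s)
      rw [Path.trans_apply, Path.trans_apply]
      split_ifs
      · exact congrFun (hL γ e) _
      · exact congrFun (hL γ' e') _
    · exact (Γ.trans Γ').source
  · induction ξ using Path.Homotopic.Quotient.ind with | _ γ => ?_
    have h1 : (tsl W g).comp (L γ e) = L γ e' := (cov.eq_liftPath_iff' (h0 γ e')).2
      ⟨funext fun s => (hq.map_smul g).trans (congrFun (hL γ e) s), by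
        rw [ContinuousMap.comp_apply, hL0, h]; rfl⟩
    change pv ψ (L γ e') = χ g * pv ψ (L γ e)
    rw [← h1]
    exact sy_eqv.1 he g ((L γ e).comp par)

theorem chain_tr {H S : Type} [Group H] (gen : S → H) (b h : H) (w : FreeGroup S) :
    chain gen (b * h) w = tr b (chain gen h w) := by
  induction w using FreeGroup.induction_on generalizing h with
  | C1 => simp
  | of s => simp
  | inv_of s ih => simp [chain_inv, mul_assoc]
  | mul a c ha hc => rw [chain_mul, chain_mul, map_add, ha, mul_assoc, hc]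

/-- every cellular `2`-cochain is a coboundary -/
theorem yside_cover (χ : G →* kˣ) (hq : IsQuotientCoveringMap q G) [PathConnectedSpace Y]
    (K : Cx Y) (hV : Van (sy χ W) 2 univ ∅) {x : Y} (e0 : q ⁻¹' {x}) (l : FundamentalGroup Y x)
    (u : G) (n : ℕ) (hl : l ^ n = 1) (hu : (hq.isCoveringMap.monodromy l e0 : W) = u • (e0 : W)) :
    ∃ (r : K.F → FreeGroup K.G.E) (χ' : FreeGroup K.G.E →* kˣ) (c : FreeGroup K.G.E),
      (∀ j, χ' (r j) = 1) ∧ c ^ n ∈ Subgroup.normalClosure (range r) ∧ χ' c = χ u ∧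
      ∀ b : K.F → k, ∃ D : FreeGroup K.G.E → k, (∀ g h, D (g * h) = D g + χ' g * D h) ∧
        ∀ j, D (r j) = b j := by
  have cov := hq.isCoveringMap
  obtain ⟨τ, base, bd, c, hEP, hrel, hc⟩ := exists_pres K x
  let μ : (FundamentalGroup Y x)ᵐᵒᵖ →* G :=
    (MulEquiv.opOp G).symm.toMonoidHom.comp (hq.fundamentalGroupToMulOpposite e0).op
  have hμ : ∀ d : (FundamentalGroup Y x)ᵐᵒᵖ, μ d • (e0 : W) = cov.monodromy d.unop e0 := fun d =>
    hq.unop_fundamentalGroupToMulOpposite_smul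
  have hVt : ∀ d d' v, (Vt cov K τ e0 (d * d') v : W) = μ d • (Vt cov K τ e0 d' v : W) := by
    intro d d' v
    have h1 : cov.monodromy d.unop e0 = hq.toPermFiber x (μ d) e0 := Subtype.ext (hμ d).symm
    rw [Vt, Vt, MulOpposite.unop_mul, FundamentalGroup.mul_def]
    change (cov.monodromy ((Path.Homotopic.Quotient.trans d.unop d'.unop).trans (τ v)) e0 : W) = _
    rw [Path.Homotopic.Quotient.trans_assoc, cov.monodromy_trans_apply, h1,
      hq.monodromy_toPermFiber]
    rfl
  obtain ⟨w, hw1, hw2⟩ := hc (MulOpposite.op l) n (by rw [← MulOpposite.op_pow, hl]; rfl)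
  refine ⟨fun f => FreeGroup.mk (bd f), χ.comp (μ.comp (FreeGroup.lift (K.lab x τ))), w,
    fun f => by simp [hrel], hw2, ?_, fun b => ?_⟩
  · have := hq.isCancelSMul
    rw [MonoidHom.comp_apply, MonoidHom.comp_apply, hw1]
    exact congrArg χ (IsCancelSMul.right_cancel _ _ (e0 : W) ((hμ _).trans hu))
  have : ContractibleSpace Disc := (convex_closedBall (0 : ℂ) 1).contractibleSpace ⟨0, by simp⟩
  have : LocallyPathConnectedSpace Disc :=
    (convex_closedBall (0 : ℂ) 1).locallyPathConnectedSpace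
  let yt : ∀ f : K.F, q ⁻¹' {K.ι (K.att f 1)} := fun f =>
    cov.monodromy ((c f).map K.ι) (Vt cov K τ e0 1 (base f))
  have hφ : ∀ f, ∃ φ : C(Disc, W), φ (inc 1) = yt f ∧ q ∘ φ = K.face f := fun f =>
    (cov.existsUnique_continuousMap_lifts (K.face f) (inc 1) (yt f)
      ((yt f).2.trans (K.face_inc _ _).symm)).exists
  choose φ hφ1 hφ using hφ
  obtain ⟨A, ψ, hA, he, hψ, hb⟩ := exists_coc χ hq K hV φ hφ b
  obtain ⟨Dh, hD1, hD2, hD3⟩ := exists_Dh' χ hq K.ι hA he hψ
  have h0 := Dh_refl cov K.ι Dh hD2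
  have hlift : ∀ f, q ∘ (φ f).comp (inc.comp circ.toContinuousMap) =
      K.ι ∘ circ.map (K.att f).continuous := fun f => funext fun s =>
    (congrFun (hφ f) _).trans (K.face_inc f (circ s))
  have hs : ∀ f, (φ f).comp (inc.comp circ.toContinuousMap) 0 = yt f := fun f =>
    (congrArg (fun z => φ f (inc z)) circ.source).trans (hφ1 f)
  have key : ∀ f, Dh ((c f).trans ((K.loop f).trans (c f).symm)) (Vt cov K τ e0 1 (base f)) =
      pv ψ ((φ f).comp (inc.comp circ.toContinuousMap)) := by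
    intro f
    have h4 : cov.monodromy ((K.loop f).map K.ι) (yt f) = yt f := by
      refine Subtype.ext ?_
      have := (cov.eq_liftPath_iff' (γ := ((circ.map (K.att f).continuous).map
        K.ι.continuous).toContinuousMap) ((Path.source _).trans (yt f).2.symm)).2
          ⟨hlift f, hs f⟩
      exact (DFunLike.congr_fun this 1).symm.trans
        ((congrArg (fun z => φ f (inc z)) circ.target).trans (hφ1 f))
    have h5 := hD2 (c f) (c f).symm (Vt cov K τ e0 1 (base f))
    rw [Path.Homotopic.Quotient.trans_symm, h0] at h5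
    rw [hD2, hD2, h4, ← hD1 _ (yt f) _ (hlift f) (hs f), add_left_comm, ← h5, add_zero]
    rfl
  let T := Finsupp.linearCombination ℤ fun a : (FundamentalGroup Y x)ᵐᵒᵖ × K.G.E =>
    Dh (Path.Homotopic.Quotient.mk (K.G.edge a.2)) (Vt cov K τ e0 a.1 (K.G.o a.2))
  have hT : ∀ d y, T (tr d y) = χ (μ d) * T y := by
    intro d y
    induction y using Finsupp.induction_linear with
    | zero => simp
    | add a a' ha ha' => rw [map_add, map_add, map_add, ha, ha', mul_add]
    | single a m =>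
      obtain ⟨d', e⟩ := a
      simp only [T, tr_single, Finsupp.linearCombination_single]
      rw [hD3 _ _ _ _ (hVt d d' _), mul_smul_comm]
  refine ⟨fun g => T (chain (K.lab x τ) 1 g), fun g h => ?_, fun f => ?_⟩
  · beta_reduce
    rw [chain_mul, map_add, one_mul, ← mul_one (FreeGroup.lift (K.lab x τ) g), chain_tr, hT]
    rfl
  · exact (pair_EP cov K τ e0 Dh hD2 (hEP f) 1).trans ((key f).trans (hb f))

end

/-- A two-dimensional complex equivalent to `X` gives a presentation all of whose cellular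
`2`-cochains with values in `k_χ` are coboundaries. -/
theorem yside {G k : Type} [Group G] [Field k] (χ : G →* kˣ) {E X : Type} [TopologicalSpace E]
    [TopologicalSpace X] [MulAction G E] [ContinuousConstSMul G E] {p : E → X}
    (hp : IsQuotientCoveringMap p G) [SimplyConnectedSpace E] (hV : Van (sy χ E) 2 univ ∅)
    (u : G) (n : ℕ) (hu : u ^ n = 1) (Y : Type) [TopologicalSpace Y] [T2Space Y]
    [CWComplex (univ : Set Y)] (hf : RelCWComplex.Finite (univ : Set Y))
    (hd : ∀ m : ℕ, 2 < m → IsEmpty (RelCWComplex.cell (univ : Set Y) m))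
    (h : ContinuousMap.HomotopyEquiv X Y) :
    ∃ (S R : Type) (_ : Finite S) (_ : Finite R) (r : R → FreeGroup S) (χ' : FreeGroup S →* kˣ)
      (c : FreeGroup S), (∀ j, χ' (r j) = 1) ∧ c ^ n ∈ Subgroup.normalClosure (range r) ∧
      χ' c = χ u ∧ ∀ b : R → k, ∃ D : FreeGroup S → k,
        (∀ g h, D (g * h) = D g + χ' g * D h) ∧ ∀ j, D (r j) = b j := by
  obtain ⟨W, _, _, _, q, F, B, Θ, hq, hF, hB, hΘ, h0, h1, h2⟩ := exists_pull hp h
  have : PathConnectedSpace X := hp.surjective.pathConnectedSpace hp.continuous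
  have := pathConnected_of_equiv h
  obtain ⟨K, hE, hK⟩ := exists_cx Y hf hd
  obtain ⟨y, w, l, hl, hw⟩ := exists_loop hp hq B h.toFun hB h2 u n hu
  exact ⟨_, _, hE, hK, yside_cover χ hq K (van_retract χ F B Θ hF hB hΘ h0 h1 hV) w l u n hl hw⟩

end Crest.Agent.R251
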