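import Crest.Agent.R251.GrpMain
import Crest.Agent.R251.YMain
import Crest.Agent.R251.Tower

/-! Row 251: the obstruction for the model. -/

set_option autoImplicit false

noncomputable section

namespace Crest.Agent.R251

open unitInterval Set _root_.Topology Crest.Agent.R185.Top

theorem no_two_complex {G : Type} [Group G] {J : ℕ → Type}
    [Unique (J 0)] (R : R3 G J) (χ : G →* (ZMod 7)ˣ) {u : G} {n : ℕ} (hn : 0 < n) (hu : u ^ n = 1)
    (hχ : χ u ≠ 1)
    (hc : ∀ b : G × J 2 → ZMod 7, (∀ h g x, b (h * g, x) = χ h * b (g, x)) →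
      (∀ g j, lin b (tl g (R.d3 j)) = 0) →
      ∃ e : G × J 1 → ZMod 7, (∀ h g x, e (h * g, x) = χ h * e (g, x)) ∧
        ∀ g r, b (g, r) = lin e (fox R.gen g (R.rel r)))
    (Γ : Att G J) (h : Model R Γ) (Y : Type) (_ : TopologicalSpace Y) (_ : T2Space Y)
    (_ : CWComplex (univ : Set Y)) (hf : RelCWComplex.Finite (univ : Set Y))
    (hd : ∀ m : ℕ, 2 < m → IsEmpty (RelCWComplex.cell (univ : Set Y) m)) :
    IsEmpty (ContinuousMap.HomotopyEquiv (Sp.Xq Γ) Y) := by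
  refine ⟨fun e => ?_⟩
  have : Fact (Nat.Prime 7) := ⟨by norm_num⟩
  let _ : DistribMulAction (⊤ : Subgroup G) (ZMod 7) :=
    DistribMulAction.compHom (ZMod 7) (χ.comp (⊤ : Subgroup G).subtype)
  have hv : Van (sym Γ ⊤ (ZMod 7)) 2 univ ∅ := h.van_two fun b hb h3 => by
    obtain ⟨e, he, he'⟩ := hc b (fun h g x => hb ⟨h, trivial⟩ g x) h3
    exact ⟨e, fun h g x => he h g x, he'⟩
  have hv' : Van (sy χ (Tot Γ)) 2 univ ∅ := fun φ h1 h2 h3 => by
    obtain ⟨ψ, a1, a2, a3⟩ := hv φ (fun g ω => h1 g.1 ω) h2 h3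
    exact ⟨ψ, fun g ω => a1 ⟨g, trivial⟩ ω, a2, a3⟩
  have := h.simplyConnected
  obtain ⟨S, T, _, _, r, χ', c, a1, a2, a3, a4⟩ :=
    yside χ (Sp.isQuotientCoveringMap h.all) hv' u n hu Y hf hd e
  refine Tower.towerT r ((Units.coeHom (ZMod 7)).comp χ') (fun j => by simp [a1]) c n hn a2 ?_ a4
  rw [MonoidHom.comp_apply, a3]
  simpa using hχ

end Crest.Agent.R251
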