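import Crest.Agent.R251.YDefs

/-! Row 251: values of `1`-cocycles on paths (auxiliary file). -/

set_option autoImplicit false

noncomputable section

namespace Crest.Agent.R251

open unitInterval Set _root_.Topology

variable {W M : Type} [TopologicalSpace W] [AddCommGroup M] {A : Set W} {ψ : Co 2 W M}

lemma pvx_coord (i : Fin 3) (x : Sx 2) (k : Fin 3) :
    (fc i x) k = ∑ j : Fin 2, x j * (if i.succAbove j = k then 1 else 0) := by
  rw [fc_apply, stdSimplex.map_coe, FunOnFinite.linearMap_apply_apply, Finset.sum_filter]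
  exact Finset.sum_congr rfl fun j _ => by split_ifs <;> simp

lemma pvx_sum (x : Sx 2) : x 0 + x 1 = 1 := by
  have := x.2.2
  rwa [Fin.sum_univ_two] at this

lemma pvx_sum3 (x : Sx 3) : x 0 + x 1 + x 2 = 1 := by
  have := x.2.2
  rwa [Fin.sum_univ_three] at this

lemma pvx_01 (x : Sx 2) : (fc (0 : Fin 3) x) 1 = x 0 := by
  rw [pvx_coord, Fin.sum_univ_two, if_pos (by decide), if_neg (by decide)]; ring
lemma pvx_02 (x : Sx 2) : (fc (0 : Fin 3) x) 2 = x 1 := by
  rw [pvx_coord, Fin.sum_univ_two, if_neg (by decide), if_pos (by decide)]; ring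
lemma pvx_11 (x : Sx 2) : (fc (1 : Fin 3) x) 1 = 0 := by
  rw [pvx_coord, Fin.sum_univ_two, if_neg (by decide), if_neg (by decide)]; ring
lemma pvx_12 (x : Sx 2) : (fc (1 : Fin 3) x) 2 = x 1 := by
  rw [pvx_coord, Fin.sum_univ_two, if_neg (by decide), if_pos (by decide)]; ring
lemma pvx_21 (x : Sx 2) : (fc (2 : Fin 3) x) 1 = x 1 := by
  rw [pvx_coord, Fin.sum_univ_two, if_neg (by decide), if_pos (by decide)]; ring
lemma pvx_22 (x : Sx 2) : (fc (2 : Fin 3) x) 2 = 0 := by
  rw [pvx_coord, Fin.sum_univ_two, if_neg (by decide), if_neg (by decide)]; ring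

/-- a linear coordinate on the triangle -/
def pvxL (t : ℝ) (h0 : 0 ≤ t) (h1 : t ≤ 1) : C(Sx 3, I) :=
  ⟨fun x => ⟨t * x 1 + x 2, by
      have a0 : 0 ≤ x 0 := x.2.1 0
      have a1 : 0 ≤ x 1 := x.2.1 1
      have a2 : 0 ≤ x 2 := x.2.1 2
      have := pvx_sum3 x
      constructor
      · positivity
      · nlinarith⟩,
    Continuous.subtype_mk ((continuous_const.mul
      ((continuous_apply 1).comp continuous_subtype_val)).add
      ((continuous_apply 2).comp continuous_subtype_val)) _⟩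

lemma pvxL_coe (t : ℝ) (h0 : 0 ≤ t) (h1 : t ≤ 1) (x : Sx 3) :
    (pvxL t h0 h1 x : ℝ) = t * x 1 + x 2 := rfl

lemma pvx_tri (h : Z A (cob ψ)) (g : C(Sx 3, W)) (hg : ∀ x, g x ∈ A) (a b c : C(I, W))
    (ha : ∀ x, g (fc 2 x) = a (par x)) (hb : ∀ x, g (fc 0 x) = b (par x))
    (hc : ∀ x, g (fc 1 x) = c (par x)) : pv ψ a + pv ψ b = pv ψ c := by
  have h0 := h g hg
  rw [cob_apply, Fin.sum_univ_three] at h0
  have e0 : g.comp (fc 0) = b.comp par := ContinuousMap.ext hb
  have e1 : g.comp (fc 1) = c.comp par := ContinuousMap.ext hc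
  have e2 : g.comp (fc 2) = a.comp par := ContinuousMap.ext ha
  rw [e0, e1, e2] at h0
  have s0 : sg (0 : Fin 3) = 1 := by decide
  have s1 : sg (1 : Fin 3) = -1 := by decide
  have s2 : sg (2 : Fin 3) = 1 := by decide
  rw [s0, s1, s2, one_smul, one_smul, neg_one_smul] at h0
  unfold pv
  rw [← sub_eq_zero, ← h0]
  abel

theorem pv_trans_aux (h : Z A (cob ψ)) {x y z : W} (γ : Path x y) (γ' : Path y z)
    (h1 : ∀ s, γ s ∈ A) (h2 : ∀ s, γ' s ∈ A) : pv ψ (γ.trans γ') = pv ψ γ + pv ψ γ' := by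
  symm
  have hm : ∀ s, (γ.trans γ') s ∈ A := fun s => by
    rw [Path.trans_apply]
    split_ifs
    · exact h1 _
    · exact h2 _
  refine pvx_tri h ((γ.trans γ' : C(I, W)).comp (pvxL (1 / 2) (by norm_num) (by norm_num)))
    (fun x => hm _) _ _ _ (fun p => ?_) (fun p => ?_) (fun p => ?_)
  · have hp : p 1 ≤ 1 := stdSimplex.le_one p 1
    have e : (pvxL (1 / 2) (by norm_num) (by norm_num) (fc 2 p) : ℝ) = p 1 / 2 := by
      rw [pvxL_coe, pvx_21, pvx_22]; ring
    show (γ.trans γ') _ = γ _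
    rw [Path.trans_apply, dif_pos (by rw [e]; linarith)]
    congr 1
    ext
    simp only [e, par_coe]
    ring
  · have hp : 0 ≤ p 1 := p.2.1 1
    have e : (pvxL (1 / 2) (by norm_num) (by norm_num) (fc 0 p) : ℝ) = (1 + p 1) / 2 := by
      rw [pvxL_coe, pvx_01, pvx_02]; linarith [pvx_sum p]
    show (γ.trans γ') _ = γ' _
    rw [Path.trans_apply]
    split_ifs with hh
    · have h0 : p 1 = 0 := by rw [e] at hh; linarith
      have e1 : par p = 0 := Subtype.ext h0
      rw [e1, γ'.source]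
      refine Eq.trans ?_ γ.target
      congr 1
      ext
      simp only [e, h0]
      norm_num
    · congr 1
      ext
      simp only [e, par_coe]
      ring
  · show (γ.trans γ') _ = (γ.trans γ') _
    congr 1
    ext
    rw [pvxL_coe, pvx_11, pvx_12, par_coe]
    ring

theorem pv_square_aux (h : Z A (cob ψ)) (F : C(I × I, W)) (hF : ∀ q, F q ∈ A) (a b c d : C(I, W))
    (ha : ∀ s, a s = F (s, 0)) (hb : ∀ s, b s = F (1, s)) (hc : ∀ s, c s = F (0, s))
    (hd : ∀ s, d s = F (s, 1)) : pv ψ a + pv ψ b = pv ψ c + pv ψ d := by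
  let u : C(Sx 3, I) := pvxL 1 zero_le_one le_rfl
  let v : C(Sx 3, I) := pvxL 0 le_rfl zero_le_one
  let e : C(I, W) := F.comp ((ContinuousMap.id I).prodMk (ContinuousMap.id I))
  have u0 : ∀ p, u (fc 0 p) = 1 := fun p => Subtype.ext (by
    rw [pvxL_coe, pvx_01, pvx_02, Set.Icc.coe_one]; linarith [pvx_sum p])
  have u1 : ∀ p, u (fc 1 p) = par p := fun p => Subtype.ext (by
    rw [pvxL_coe, pvx_11, pvx_12, par_coe]; ring)
  have u2 : ∀ p, u (fc 2 p) = par p := fun p => Subtype.ext (by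
    rw [pvxL_coe, pvx_21, pvx_22, par_coe]; ring)
  have v0 : ∀ p, v (fc 0 p) = par p := fun p => Subtype.ext (by
    rw [pvxL_coe, pvx_02, par_coe]; ring)
  have v1 : ∀ p, v (fc 1 p) = par p := fun p => Subtype.ext (by
    rw [pvxL_coe, pvx_12, par_coe]; ring)
  have v2 : ∀ p, v (fc 2 p) = 0 := fun p => Subtype.ext (by
    rw [pvxL_coe, pvx_22, Set.Icc.coe_zero]; ring)
  have k1 : pv ψ a + pv ψ b = pv ψ e :=
    pvx_tri h (F.comp (u.prodMk v)) (fun _ => hF _) _ _ _
      (fun p => by rw [ha]; show F (u _, v _) = _; rw [u2, v2])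
      (fun p => by rw [hb]; show F (u _, v _) = _; rw [u0, v0])
      (fun p => by show F (u _, v _) = F (par p, par p); rw [u1, v1])
  have k2 : pv ψ c + pv ψ d = pv ψ e :=
    pvx_tri h (F.comp (v.prodMk u)) (fun _ => hF _) _ _ _
      (fun p => by rw [hc]; show F (v _, u _) = _; rw [u2, v2])
      (fun p => by rw [hd]; show F (v _, u _) = _; rw [u0, v0])
      (fun p => by show F (v _, u _) = F (par p, par p); rw [u1, v1])
  rw [k1, k2]

theorem pv_const_aux (h : Z A (cob ψ)) {x : W} (hx : x ∈ A) (a : C(I, W)) (ha : ∀ s, a s = x) :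
    pv ψ a = 0 := by
  have := pvx_tri h (ContinuousMap.const _ x) (fun _ => hx) a a a (fun _ => (ha _).symm)
    (fun _ => (ha _).symm) (fun _ => (ha _).symm)
  simpa using this

theorem pv_htp_aux (h : Z A (cob ψ)) (γ γ' : C(I, W)) (F : γ.HomotopyRel γ' {0, 1})
    (hF : ∀ q, F q ∈ A) : pv ψ γ = pv ψ γ' := by
  have a0 : γ 0 ∈ A := by simpa using hF (0, 0)
  have a1 : γ 1 ∈ A := by simpa using hF (0, 1)
  have k := pv_square_aux h (F.toHomotopy.toContinuousMap) hF (ContinuousMap.const _ (γ 0)) γ' γ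
    (ContinuousMap.const _ (γ 1))
    (fun s => (F.eq_fst s (by simp)).symm) (fun s => (F.toHomotopy.apply_one s).symm)
    (fun s => (F.toHomotopy.apply_zero s).symm) (fun s => (F.eq_fst s (by simp)).symm)
  rw [pv_const_aux h a0 (ContinuousMap.const _ (γ 0)) fun _ => rfl,
    pv_const_aux h a1 (ContinuousMap.const _ (γ 1)) fun _ => rfl, zero_add, add_zero] at k
  exact k.symm

end Crest.Agent.R251
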