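import Crest.Agent.R251.YDefs
import Crest.Agent.R251.YPathAux

/-! Row 251: values of `1`-cocycles on paths; the winding cocycle. -/

set_option autoImplicit false

noncomputable section

namespace Crest.Agent.R251

open unitInterval Set _root_.Topology Crest.Agent.R197

variable {W M : Type} [TopologicalSpace W] [AddCommGroup M] {A : Set W} {ψ : Co 2 W M}

theorem pv_trans (h : Z A (cob ψ)) {x y z : W} (γ : Path x y) (γ' : Path y z)
    (h1 : ∀ s, γ s ∈ A) (h2 : ∀ s, γ' s ∈ A) : pv ψ (γ.trans γ') = pv ψ γ + pv ψ γ' :=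
  pv_trans_aux h γ γ' h1 h2

/-- the square identity -/
theorem pv_square (h : Z A (cob ψ)) (F : C(I × I, W)) (hF : ∀ q, F q ∈ A) (a b c d : C(I, W))
    (ha : ∀ s, a s = F (s, 0)) (hb : ∀ s, b s = F (1, s)) (hc : ∀ s, c s = F (0, s))
    (hd : ∀ s, d s = F (s, 1)) : pv ψ a + pv ψ b = pv ψ c + pv ψ d :=
  pv_square_aux h F hF a b c d ha hb hc hd

theorem pv_const (h : Z A (cob ψ)) {x : W} (hx : x ∈ A) (a : C(I, W)) (ha : ∀ s, a s = x) :
    pv ψ a = 0 :=
  pv_const_aux h hx a ha

theorem pv_htp (h : Z A (cob ψ)) (γ γ' : C(I, W)) (F : γ.HomotopyRel γ' {0, 1})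
    (hF : ∀ q, F q ∈ A) : pv ψ γ = pv ψ γ' :=
  pv_htp_aux h γ γ' F hF

theorem exists_wnd_log {m : ℕ} (ω : C(Sx (m + 1), ℂ)) (h : In {0}ᶜ ω) :
    ∃ L : C(Sx (m + 1), ℂ), ∀ x, Complex.exp (L x) = ω x := by
  have : ContractibleSpace (Sx (m + 1)) :=
    (convex_stdSimplex ℝ _).contractibleSpace ⟨_, single_mem_stdSimplex ℝ 0⟩
  have : LocallyPathConnectedSpace (Sx (m + 1)) :=
    (convex_stdSimplex ℝ _).locallyPathConnectedSpace
  let G : C(Sx (m + 1), {z : ℂ // z ≠ 0}) := ⟨fun q => ⟨ω q, h q⟩, ω.continuous.subtype_mk _⟩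
  obtain ⟨L, ⟨-, hL⟩, -⟩ := Complex.isCoveringMap_exp.existsUnique_continuousMap_lifts G
    (stdSimplex.vertex 0) (Complex.log (G (stdSimplex.vertex 0)))
    (Subtype.ext (Complex.exp_log (G (stdSimplex.vertex 0)).2))
  exact ⟨L, fun x => congrArg Subtype.val (congrFun hL x)⟩

theorem exists_wnd_int (ω : C(Sx 2, ℂ)) : ∃ k : ℤ, ∀ L : C(Sx 2, ℂ),
    (∀ x, Complex.exp (L x) = ω x) →
      L (stdSimplex.vertex 1) - L (stdSimplex.vertex 0) -
        (Complex.log (ω (stdSimplex.vertex 1)) - Complex.log (ω (stdSimplex.vertex 0))) =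
        k * (2 * Real.pi * Complex.I) := by
  by_cases h : ∃ L : C(Sx 2, ℂ), ∀ x, Complex.exp (L x) = ω x
  swap
  · exact ⟨0, fun L hL => absurd ⟨L, hL⟩ h⟩
  obtain ⟨L₀, h₀⟩ := h
  have hne : ∀ x, ω x ≠ 0 := fun x => h₀ x ▸ Complex.exp_ne_zero _
  obtain ⟨k, hk⟩ := Complex.exp_eq_one_iff.1
    (show Complex.exp (L₀ (stdSimplex.vertex 1) - L₀ (stdSimplex.vertex 0) -
        (Complex.log (ω (stdSimplex.vertex 1)) - Complex.log (ω (stdSimplex.vertex 0)))) = 1 by
      rw [Complex.exp_sub, Complex.exp_sub, Complex.exp_sub, h₀, h₀, Complex.exp_log (hne _),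
        Complex.exp_log (hne _)]
      exact div_self (div_ne_zero (hne _) (hne _)))
  refine ⟨k, fun L hL => ?_⟩
  have key : ∀ a, Complex.exp (L a - L₀ a) = 1 := fun a => by
    rw [Complex.exp_sub, hL, h₀, div_self (hne _)]
  have := Wind.const_of_exp (L := fun a => L a - L₀ a) (L.continuous.sub L₀.continuous)
    (fun a a' => (key a).trans (key a').symm) (stdSimplex.vertex 1) (stdSimplex.vertex 0)
  linear_combination hk + this

/-- the winding cocycle -/
theorem exists_wnd : ∃ w : Co 2 ℂ ℤ, Z {0}ᶜ (cob w) ∧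
    ∀ (r : ℝ) (γ : C(I, ℂ)), 0 < r → (∀ s, γ s = r * (circ s : ℂ)) → pv w γ = 1 := by
  choose w hw using exists_wnd_int
  have h2 : (2 * Real.pi * Complex.I : ℂ) ≠ 0 := Complex.two_pi_I_ne_zero
  refine ⟨w, fun ω hω => ?_, fun r γ hr hγ => ?_⟩
  · obtain ⟨L, hL⟩ := exists_wnd_log ω hω
    have key := fun i : Fin 3 => hw (ω.comp (fc i)) (L.comp (fc i)) fun x => hL _
    simp only [ContinuousMap.comp_apply, fc_apply, stdSimplex.map_vertex] at key
    have k0 := key 0
    have k1 := key 1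
    have k2 := key 2
    rw [show (0 : Fin 3).succAbove 1 = 2 from rfl, show (0 : Fin 3).succAbove 0 = 1 from rfl] at k0
    rw [show (1 : Fin 3).succAbove 1 = 2 from rfl, show (1 : Fin 3).succAbove 0 = 0 from rfl] at k1
    rw [show (2 : Fin 3).succAbove 1 = 1 from rfl, show (2 : Fin 3).succAbove 0 = 0 from rfl] at k2
    have : ((w (ω.comp (fc 0)) - w (ω.comp (fc 1)) + w (ω.comp (fc 2)) : ℤ) : ℂ) = 0 := by
      refine mul_right_cancel₀ h2 ?_
      push_cast
      linear_combination k1 - k0 - k2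
    have h3 : w (ω.comp (fc 0)) - w (ω.comp (fc 1)) + w (ω.comp (fc 2)) = 0 := by
      exact_mod_cast this
    rw [cob_apply, Fin.sum_univ_three]
    simp only [sg, Fin.val_zero, Fin.val_one, Fin.val_two, pow_zero, pow_one, one_smul, neg_smul,
      even_two, Even.neg_pow, one_pow]
    linarith
  · let L : C(Sx 2, ℂ) := ⟨fun x => (Real.log r : ℝ) + (2 * Real.pi * (par x : ℝ) : ℝ) * Complex.I,
      continuous_const.add ((Complex.continuous_ofReal.comp (continuous_const.mul
        (continuous_subtype_val.comp par.continuous))).mul continuous_const)⟩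
    have hL : ∀ x, Complex.exp (L x) = (γ.comp par) x := fun x => by
      change Complex.exp ((Real.log r : ℝ) + (2 * Real.pi * (par x : ℝ) : ℝ) * Complex.I) = γ (par x)
      rw [hγ, Complex.exp_add, ← Complex.ofReal_exp, Real.exp_log hr]
      rfl
    have key := hw (γ.comp par) L hL
    have p1 : par (stdSimplex.vertex 1) = 1 := Subtype.ext (by simp)
    have p0 : par (stdSimplex.vertex 0) = 0 := Subtype.ext (by simp)
    have e : (γ.comp par) (stdSimplex.vertex 1) = (γ.comp par) (stdSimplex.vertex 0) := by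
      rw [ContinuousMap.comp_apply, ContinuousMap.comp_apply, p1, p0, hγ, hγ, Path.source,
        Path.target]
    rw [e] at key
    have e' : L (stdSimplex.vertex 1) - L (stdSimplex.vertex 0) = 2 * Real.pi * Complex.I := by
      change ((Real.log r : ℝ) + (2 * Real.pi * (par _ : ℝ) : ℝ) * Complex.I) -
        ((Real.log r : ℝ) + (2 * Real.pi * (par _ : ℝ) : ℝ) * Complex.I) = _
      rw [p1, p0]
      simp
    have : ((w (γ.comp par) : ℤ) : ℂ) = 1 := by
      refine mul_right_cancel₀ h2 ?_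
      linear_combination e' - key
    exact_mod_cast this

end Crest.Agent.R251
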