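import Crest.Agent.R251.YDefs

/-! Row 251: the pull-back of the covering along a homotopy equivalence. -/

set_option autoImplicit false

noncomputable section

namespace Crest.Agent.R251

open unitInterval Set _root_.Topology

variable {G : Type} [Group G] {E X Y : Type} [TopologicalSpace E] [TopologicalSpace X]
  [TopologicalSpace Y] [MulAction G E] [ContinuousConstSMul G E] {p : E → X}

/-- equivariant homotopy lifting -/
theorem exists_pull_lift {A : Type} [TopologicalSpace A] [MulAction G A]
    (hp : IsQuotientCoveringMap p G) (H : C(I × A, X)) (f : C(A, E))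
    (H0 : ∀ a, H (0, a) = p (f a)) (hH : ∀ (g : G) t a, H (t, g • a) = H (t, a))
    (hf : ∀ (g : G) a, f (g • a) = g • f a) :
    ∃ L : C(I × A, E), (∀ t a, p (L (t, a)) = H (t, a)) ∧ (∀ a, L (0, a) = f a) ∧
      ∀ (g : G) t a, L (t, g • a) = g • L (t, a) := by
  have cov := hp.isCoveringMap
  have h1 : ∀ t a, p (cov.liftHomotopy H f H0 (t, a)) = H (t, a) := fun t a =>
    congr_fun (cov.liftHomotopy_lifts H f H0) (t, a)
  have h0 : ∀ a, cov.liftHomotopy H f H0 (0, a) = f a := cov.liftHomotopy_zero H f H0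
  refine ⟨cov.liftHomotopy H f H0, h1, h0, fun g t a => ?_⟩
  have key : (fun s : I => cov.liftHomotopy H f H0 (s, g • a)) =
      fun s : I => g • cov.liftHomotopy H f H0 (s, a) := by
    refine cov.eq_of_comp_eq (by fun_prop) (by fun_prop) ?_ 0 ?_
    · funext s
      simp only [Function.comp_apply]
      rw [hp.map_smul, h1, h1, hH]
    · rw [h0, h0, hf]
  exact congr_fun key t

/-- the pull-back space -/
def exists_pull_W (p : E → X) (f : Y → X) : Type := {a : Y × E // f a.1 = p a.2}

instance exists_pull_top (p : E → X) (f : Y → X) : TopologicalSpace (exists_pull_W p f) :=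
  inferInstanceAs (TopologicalSpace {a : Y × E // f a.1 = p a.2})

/-- the action on the pull-back -/
@[reducible] def exists_pull_act (hp : IsQuotientCoveringMap p G) (f : Y → X) :
    MulAction G (exists_pull_W p f) where
  smul g w := ⟨(w.1.1, g • w.1.2), by rw [hp.map_smul]; exact w.2⟩
  one_smul w := Subtype.ext (Prod.ext rfl (one_smul G w.1.2))
  mul_smul g g' w := Subtype.ext (Prod.ext rfl (mul_smul g g' w.1.2))

theorem exists_pull_cont (hp : IsQuotientCoveringMap p G) (f : Y → X) :
    letI := exists_pull_act hp f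
    ContinuousConstSMul G (exists_pull_W p f) := by
  let _ := exists_pull_act hp f
  refine ⟨fun g => ?_⟩
  refine Continuous.subtype_mk (f := fun w : exists_pull_W p f => (w.1.1, g • w.1.2)) ?_ _
  have h1 : Continuous fun w : exists_pull_W p f => w.1 := continuous_subtype_val
  exact (continuous_fst.comp h1).prodMk ((continuous_snd.comp h1).const_smul g)

theorem exists_pull_cov (hp : IsQuotientCoveringMap p G) (f : C(Y, X)) :
    letI := exists_pull_act hp f
    IsQuotientCoveringMap (fun w : exists_pull_W p f => w.1.1) G := by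
  let _ := exists_pull_act hp f
  have h1 : Continuous fun w : exists_pull_W p f => w.1 := continuous_subtype_val
  have hc : Continuous fun w : exists_pull_W p f => w.1.1 := continuous_fst.comp h1
  have hs : Function.Surjective fun w : exists_pull_W p f => w.1.1 := by
    intro y
    obtain ⟨e, he⟩ := hp.surjective (f y)
    exact ⟨⟨(y, e), he.symm⟩, rfl⟩
  have ho : IsOpenMap fun w : exists_pull_W p f => w.1.1 := by
    intro S hS
    rw [isOpen_iff_mem_nhds]
    rintro _ ⟨w, hw, rfl⟩
    obtain ⟨T, hT, rfl⟩ := isOpen_induced_iff.mp hS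
    obtain ⟨V, U, hV, hU, hwV, hwU, hVU⟩ := isOpen_prod_iff.mp hT w.1.1 w.1.2 hw
    have hpU : IsOpen (p '' U) := hp.isOpenQuotientMap.isOpenMap U hU
    have hN : V ∩ f ⁻¹' (p '' U) ∈ 𝓝 w.1.1 :=
      (hV.inter (hpU.preimage f.continuous)).mem_nhds ⟨hwV, w.1.2, hwU, w.2.symm⟩
    refine Filter.mem_of_superset hN ?_
    rintro y ⟨hy, e, he, hye⟩
    exact ⟨⟨(y, e), hye.symm⟩, hVU ⟨hy, he⟩, rfl⟩
  refine
    { toIsQuotientMap := ho.isQuotientMap hc hs
      toContinuousConstSMul := exists_pull_cont hp f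
      apply_eq_iff_mem_orbit := ?_
      disjoint := ?_ }
  · intro w w'
    constructor
    · intro hw
      have h2 : p w.1.2 = p w'.1.2 := by
        rw [← w.2, ← w'.2]
        exact congrArg f hw
      obtain ⟨g, hg⟩ := hp.apply_eq_iff_mem_orbit.mp h2
      exact ⟨g, Subtype.ext (Prod.ext hw.symm hg)⟩
    · rintro ⟨g, rfl⟩
      rfl
  · intro w
    obtain ⟨U, hU, hU'⟩ := hp.disjoint w.1.2
    refine ⟨(fun v : exists_pull_W p f => v.1.2) ⁻¹' U,
      (continuous_snd.comp h1).continuousAt.preimage_mem_nhds hU, fun g hg => hU' g ?_⟩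
    obtain ⟨_, ⟨v, hv, rfl⟩, hv'⟩ := hg
    exact ⟨g • v.1.2, ⟨v.1.2, hv, rfl⟩, hv'⟩

/-- The pull-back covering is an equivariant homotopy retract of `E`. -/
theorem exists_pull (hp : IsQuotientCoveringMap p G) (h : ContinuousMap.HomotopyEquiv X Y) :
    ∃ (W : Type) (_ : TopologicalSpace W) (_ : MulAction G W) (_ : ContinuousConstSMul G W)
      (q : W → Y) (F : C(W, E)) (B : C(E, W)) (Θ : C(W × I, W)), IsQuotientCoveringMap q G ∧
      (∀ (g : G) w, F (g • w) = g • F w) ∧ (∀ (g : G) e, B (g • e) = g • B e) ∧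
      (∀ (g : G) w t, Θ (g • w, t) = g • Θ (w, t)) ∧ (∀ w, Θ (w, 0) = w) ∧
      (∀ w, Θ (w, 1) = B (F w)) ∧ ∀ e, q (B e) = h.toFun (p e) := by
  let _ := exists_pull_act hp h.invFun
  have := exists_pull_cont hp h.invFun
  have hq := exists_pull_cov hp h.invFun
  have hpc : Continuous p := hp.continuous
  have h1 : Continuous fun w : exists_pull_W p h.invFun => w.1 := continuous_subtype_val
  have hc : Continuous fun w : exists_pull_W p h.invFun => w.1.1 := continuous_fst.comp h1
  have hc2 : Continuous fun w : exists_pull_W p h.invFun => w.1.2 := continuous_snd.comp h1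
  obtain ⟨K⟩ := h.left_inv.symm
  obtain ⟨H⟩ := h.right_inv.symm
  have K0 : ∀ x, K (0, x) = x := fun x => K.apply_zero x
  have K1 : ∀ x, K (1, x) = h.invFun (h.toFun x) := fun x => K.apply_one x
  have H0 : ∀ y, H (0, y) = y := fun y => H.apply_zero y
  have H1 : ∀ y, H (1, y) = h.toFun (h.invFun y) := fun y => H.apply_one y
  obtain ⟨Θ, Θp, Θ0, Θg⟩ := exists_pull_lift (A := exists_pull_W p h.invFun) hq
    ⟨fun z => H (z.1, z.2.1.1), H.continuous.comp (continuous_fst.prodMk (hc.comp continuous_snd))⟩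
    (ContinuousMap.id _) (fun a => H0 _) (fun g t a => rfl) (fun g a => rfl)
  obtain ⟨Kt, Kp, Kt0, Kg⟩ := exists_pull_lift (A := E) hp
    ⟨fun z => K (z.1, p z.2), K.continuous.comp (continuous_fst.prodMk (hpc.comp continuous_snd))⟩
    (ContinuousMap.id _) (fun a => K0 _)
    (fun g t a => by simp only [ContinuousMap.coe_mk]; rw [hp.map_smul]) (fun g a => rfl)
  simp only [ContinuousMap.coe_mk, ContinuousMap.id_apply] at Θp Θ0 Kp Kt0
  have hΘ1 : ∀ w, h.invFun (h.toFun (h.invFun w.1.1)) = p (Θ (1, w)).1.2 := fun w => by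
    rw [← (Θ (1, w)).2, Θp, H1]
  obtain ⟨L, Lp, L0, Lg⟩ := exists_pull_lift (A := exists_pull_W p h.invFun) hp
    ⟨fun z => K (σ z.1, h.invFun z.2.1.1), K.continuous.comp
      ((continuous_symm.comp continuous_fst).prodMk
        (h.invFun.continuous.comp (hc.comp continuous_snd)))⟩
    ⟨fun w => (Θ (1, w)).1.2, hc2.comp (Θ.continuous.comp (continuous_const.prodMk continuous_id))⟩
    (fun a => by simp only [ContinuousMap.coe_mk]; rw [symm_zero, K1, hΘ1])
    (fun g t a => rfl) (fun g a => by simp only [ContinuousMap.coe_mk]; rw [Θg]; rfl)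
  simp only [ContinuousMap.coe_mk] at Lp L0
  have hB : ∀ e, h.invFun (h.toFun (p e)) = p (Kt (1, e)) := fun e => by rw [Kp, K1]
  refine ⟨exists_pull_W p h.invFun, inferInstance, inferInstance, inferInstance,
    fun w => w.1.1, ⟨fun w => L (1, w), by fun_prop⟩,
    ⟨fun e => ⟨(h.toFun (p e), Kt (1, e)), hB e⟩, ?_⟩,
    ⟨fun z => Θ (z.2, z.1), by fun_prop⟩, hq, fun g w => Lg g 1 w, fun g e => ?_,
    fun g w t => Θg g t w, fun w => Θ0 w, fun w => ?_, fun e => rfl⟩
  · refine Continuous.subtype_mk (f := fun e => (h.toFun (p e), Kt (1, e))) ?_ _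
    exact (h.toFun.continuous.comp hpc).prodMk (by fun_prop)
  · refine Subtype.ext (Prod.ext ?_ ?_)
    · exact congrArg h.toFun (hp.map_smul g)
    · exact Kg g 1 e
  · have hF : p (L (1, w)) = h.invFun w.1.1 := by rw [Lp, symm_one, K0]
    refine Subtype.ext (Prod.ext ?_ ?_)
    · show (Θ (1, w)).1.1 = h.toFun (p (L (1, w)))
      rw [Θp, H1, hF]
    · show (Θ (1, w)).1.2 = Kt (1, L (1, w))
      have key : (fun s : I => L (σ s, w)) = fun s : I => Kt (s, L (1, w)) := by
        refine hp.isCoveringMap.eq_of_comp_eq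
          (L.continuous.comp (continuous_symm.prodMk continuous_const)) (by fun_prop) ?_ 0 ?_
        · funext s
          simp only [Function.comp_apply]
          rw [Lp, Kp, symm_symm, hF]
        · rw [symm_zero, Kt0]
      have := congr_fun key 1
      simp only [symm_one] at this
      rw [← this, L0]

end Crest.Agent.R251
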